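import Vale.Agent.P352.H746.Iff

/-!
# The second null moments are conformal generators if and only if the on-shell dilaton constraint
holds
-/

set_option linter.all false

noncomputable section

open MeasureTheory Filter Topology Set
open scoped ContDiff ComplexConjugate

namespace Vale.Agent.P352.H746

open GF (Ix V Fn bas eta pd bar sim o)
open H755 (Tst XX conj_Xw conj_const A_XXb A_lin2 const_sim Xw_sim exists_kp)
open H246 H496 H15 H846

variable {D : Type*} [NormedAddCommGroup D] [InnerProductSpace ℂ D] {Q : GF.Theory D}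
  {T : Ix → Ix → GF.Fld D} {J : Ix → GF.Fld D} {A : (V → V) → D → D} {K : V → D → D}

lemma jgy (hJ : IsVirial Q T J) {a b : V} {κ : V → ℝ} {ψ : ℝ → ℝ} (hA : Adm a b κ ψ) (y : V)
    {R : ℝ} (hR : 1 ≤ R) (v w : D) :
    inner ℂ (Q.U 1 GF.one (-y) w) (JG J a b κ (fun u => ψ (u + GF.mdot a y)) R
      (Q.U 1 GF.one (-y) v)) =
      inner ℂ w (∑ m, J m (fun x => (eta m * a m * ctf a b κ y ψ R x : ℝ)) v) := by
  have hA0 : Adm a b κ fun u => ψ (u + GF.mdot a y) := adm_of hA (tst_shift hA.2.2.2.2.2 _)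
  have e1 : JG J a b κ (fun u => ψ (u + GF.mdot a y)) R (Q.U 1 GF.one (-y) v) =
      Q.U 1 GF.one (-y) (∑ m, J m (fun x => (eta m * a m * ctf a b κ y ψ R x : ℝ)) v) := by
    unfold JG
    rw [U1_sum]
    refine Finset.sum_congr rfl fun m _ => ?_
    rw [U1_fld (Q.bose_fld _ (hJ.bose m)) (jg_tst hA0 hR _)]
    simp only [ctf_shift, zero_add, sub_add_cancel]
  rw [e1, inner_U1, H755.UU, add_neg_cancel, H755.U0]

lemma tgy (hT : Q.IsStress T) {a b : V} {κ : V → ℝ} {ψ : ℝ → ℝ} (hA : Adm a b κ ψ) (y : V)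
    {R : ℝ} (hR : 1 ≤ R) (v w : D) :
    inner ℂ (Q.U 1 GF.one (-y) w) (TG T a b κ (fun u => ψ (u + GF.mdot a y)) R
      (Q.U 1 GF.one (-y) v)) =
      inner ℂ w (GF.tr T (fun x => (ctf a b κ y ψ R x : ℂ)) v) := by
  have hA0 : Adm a b κ fun u => ψ (u + GF.mdot a y) := adm_of hA (tst_shift hA.2.2.2.2.2 _)
  have e1 : TG T a b κ (fun u => ψ (u + GF.mdot a y)) R (Q.U 1 GF.one (-y) v) =
      Q.U 1 GF.one (-y) (GF.tr T (fun x => (ctf a b κ y ψ R x : ℂ)) v) := by
    unfold TG GF.tr
    rw [U1_sum]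
    refine Finset.sum_congr rfl fun m _ => ?_
    rw [U1_fld (Q.bose_fld _ (hT.bose m m)) (tg_tst hA0 hR),
      Vale.Agent.P352.U_smul one_pos Vale.Agent.P352.isLor_one]
    simp only [ctf_shift, zero_add, sub_add_cancel]
  rw [e1, inner_U1, H755.UU, add_neg_cancel, H755.U0]

lemma int_deriv {G : ℝ → ℝ} (hG : Tst G) : ∫ u, ((deriv G u : ℝ) : ℂ) = 0 := by
  have h1 : ∫ u, deriv G u = 0 := by
    refine integral_eq_zero_of_hasDerivAt_of_integrable (f := G)
      (fun u => (H746.tdif hG u).hasDerivAt) ?_ ?_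
    · exact (H746.tder hG).1.continuous.integrable_of_hasCompactSupport (H746.tder hG).2
    · exact hG.1.continuous.integrable_of_hasCompactSupport hG.2
  have h2 : ∫ u, ((deriv G u : ℝ) : ℂ) = ((∫ u, deriv G u : ℝ) : ℂ) := integral_ofReal
  rw [h2, h1, Complex.ofReal_zero]

/-- `J` has no null charges, centred at the origin -/
def Vir0 (J : Ix → GF.Fld D) : Prop := ∀ a b κ ψ v w, Adm a b κ ψ →
  Tendsto (fun R => inner ℂ w (JG J a b κ ψ R v)) atTop (𝓝 0)

lemma vir0_of (ho : ∀ a b κ y ψ v w, Adm a b κ ψ → Tendsto (fun R => inner ℂ w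
    (∑ m, J m (fun x => (eta m * a m * ctf a b κ y ψ R x : ℝ)) v)) atTop (𝓝 0)) : Vir0 J :=
  fun a b κ ψ v w hA => ho a b κ 0 ψ v w hA

/-- without null charges of `J` the deviation is constant -/
lemma kh_of_vir (hT : Q.IsStress T) (hJ : IsVirial Q T J) (h : NullCharges Q T J A K)
    (ho : Vir0 J) {a b : V} (ha : IsNull a) (hb : IsNull b) (hab : GF.mdot a b = 1) (v w : D)
    (u : ℝ) : kh Q A K a b v w u = kh Q A K a b v w 0 := by
  obtain ⟨κ, hκ, hκ1⟩ := exists_kp
  refine H755.const_of_int (kh_cont h ha hb v w) (fun G hG => ?_) u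
  have hA : Adm a b κ G := ⟨ha, hb, hab, hκ, hκ1, hG⟩
  have h1 := tendsto_nhds_unique (jg_lim hT hJ h hA v w) (ho a b κ G v w hA)
  have h2 : (1 / 2 : ℂ) ≠ 0 := by norm_num
  exact (mul_eq_zero.1 h1).resolve_left h2

/-- for conformal generators the deviation is constant -/
lemma kh_of_gen (h : ConfGen Q A K) {a b : V} (ha : IsNull a) (hb : IsNull b)
    (hab : GF.mdot a b = 1) (v w : D) (u : ℝ) : kh Q A K a b v w u = inner ℂ w (K a v) := by
  have h1 := h.tra a (u • b) v ha
  have h2 : A (XX a (u • b)) v = A (fun z => -(2 * GF.mdot a (u • b)) • z +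
    (2 * GF.mdot (u • b) z) • a - (2 * GF.mdot a z) • (u • b) + cK a (u • b)) v := rfl
  rw [← h2, A_XXb h.toRep hb hab] at h1
  unfold kh
  rw [h1, inner_add_right, inner_add_right, inner_smul_right, inner_smul_right]
  push_cast
  ring

/-- if the deviation is constant the on-shell dilaton constraint holds -/
lemma onShell_of_kh (hT : Q.IsStress T) (hJ : IsVirial Q T J) (h : NullCharges Q T J A K)
    (hk : ∀ a b, IsNull a → IsNull b → GF.mdot a b = 1 → ∀ v w : D, ∀ u : ℝ,
      kh Q A K a b v w u = kh Q A K a b v w 0) : OnShell Q T J := by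
  have hz : ∀ {a b : V}, IsNull a → IsNull b → GF.mdot a b = 1 → ∀ (v w : D) {G : ℝ → ℝ},
      Tst G → ∫ u, ((deriv G u : ℝ) : ℂ) * kh Q A K a b v w u = 0 := by
    intro a b ha hb hab v w G hG
    simp only [hk a b ha hb hab v w]
    rw [integral_mul_const, int_deriv hG, zero_mul]
  constructor
  · intro a b κ y ψ v w hA
    have hs : Tst fun u => ψ (u + GF.mdot a y) := tst_shift hA.2.2.2.2.2 _
    have h1 := tg_lim hT hJ h (adm_of hA hs) (Q.U 1 GF.one (-y) v) (Q.U 1 GF.one (-y) w)
    rw [hz hA.1 hA.2.1 hA.2.2.1 _ _ (H746.tder hs), mul_zero, neg_zero] at h1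
    refine h1.congr' ?_
    filter_upwards [eventually_ge_atTop (1:ℝ)] with R hR
    exact tgy hT hA y hR v w
  · intro a b κ y ψ v w hA
    have hs : Tst fun u => ψ (u + GF.mdot a y) := tst_shift hA.2.2.2.2.2 _
    have h1 := jg_lim hT hJ h (adm_of hA hs) (Q.U 1 GF.one (-y) v) (Q.U 1 GF.one (-y) w)
    rw [hz hA.1 hA.2.1 hA.2.2.1 _ _ hs, mul_zero] at h1
    refine h1.congr' ?_
    filter_upwards [eventually_ge_atTop (1:ℝ)] with R hR
    exact jgy hJ hA y hR v w

/-- the trace part of the constraint follows from the part for the virial current -/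
theorem onShell_of_vir (hT : Q.IsStress T) (hJ : IsVirial Q T J) (h : NullCharges Q T J A K)
    (ho : ∀ a b κ ψ v w, Adm a b κ ψ → Tendsto (fun R => inner ℂ w
      (∑ m, J m (fun x => (eta m * a m * ctf a b κ 0 ψ R x : ℝ)) v)) atTop (𝓝 0)) :
    OnShell Q T J :=
  onShell_of_kh hT hJ h fun _ _ ha hb hab v w u => kh_of_vir hT hJ h ho ha hb hab v w u

/-- **The on-shell dilaton constraint is equivalent to conformal symmetry.** If the null charges
exist, the second moments of the null energy are the generators of special conformal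
transformations if and only if the on-shell dilaton constraint holds. -/
theorem confGen_iff (hT : Q.IsStress T) (hJ : IsVirial Q T J) (h : NullCharges Q T J A K) :
    ConfGen Q A K ↔ OnShell Q T J :=
  ⟨fun hc => onShell_of_kh hT hJ h fun a b ha hb hab v w u => by
    rw [kh_of_gen hc ha hb hab, kh_of_gen hc ha hb hab],
  fun ho => H755.confGen hT hJ h ho⟩

/-- the null charge of the virial current, if the null plane integrals of the trace vanish -/
def Cv (Q : GF.Theory D) (A : (V → V) → D → D) (K : V → D → D) (a b : V) (v : D) : D :=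
  (1 / 2 : ℂ) • (K a v - Q.U 1 GF.one b (K a (Q.U 1 GF.one (-b) v))) - A (H755.Xw a b) v +
    A (fun _ => b) v

lemma kh_Cv (a b : V) (v w : D) :
    2 * inner ℂ w (Cv Q A K a b v) = kh Q A K a b v w 0 - kh Q A K a b v w 1 := by
  unfold Cv kh
  rw [inner_add_right, inner_sub_right, inner_smul_right, inner_sub_right, one_smul, zero_smul,
    neg_zero, H755.U0, H755.U0]
  push_cast
  ring

/-- if the null plane integrals of the trace vanish, the virial current has a null charge, which
is the obstruction to conformal symmetry -/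
theorem charge_of_tr (hT : Q.IsStress T) (hJ : IsVirial Q T J) (h : NullCharges Q T J A K)
    (ho : ∀ a b κ ψ v w, Adm a b κ ψ → Tendsto (fun R => inner ℂ w
      (GF.tr T (fun x => (ctf a b κ 0 ψ R x : ℂ)) v)) atTop (𝓝 0)) {a b : V} (ha : IsNull a)
    (hb : IsNull b) (hab : GF.mdot a b = 1) (v : D) :
    (∀ u : ℝ, Q.U 1 GF.one (u • b) (K a (Q.U 1 GF.one (-(u • b)) v)) =
      K a v + A (XX a (u • b)) v - (2 * u : ℂ) • Cv Q A K a b v) ∧
    ∀ κ ψ w, Adm a b κ ψ → Tendsto (fun R => inner ℂ w (∑ m, J m (fun x =>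
      (eta m * a m * ctf a b κ 0 ψ R x : ℝ)) v)) atTop
      (𝓝 ((∫ u, (ψ u : ℂ)) * inner ℂ w (Cv Q A K a b v))) := by
  obtain ⟨κ, hκ, hκ1⟩ := exists_kp
  let f : ContDiffBump (0 : ℝ) := ⟨1, 2, one_pos, one_lt_two⟩
  have hρ : Tst (f.normed volume) := ⟨f.contDiff_normed, f.hasCompactSupport_normed⟩
  have hρ1 : ∫ x, f.normed volume x = 1 := f.integral_normed
  set ρ := f.normed (volume : Measure ℝ) with hρdef
  have hM0 : ∀ w : D, ∀ G : ℝ → ℝ, Tst G →
      ∫ u, ((deriv (deriv G) u : ℝ) : ℂ) * kh Q A K a b v w u = 0 := by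
    intro w G hG
    have hA : Adm a b κ G := ⟨ha, hb, hab, hκ, hκ1, hG⟩
    have h1 := tendsto_nhds_unique (tg_lim hT hJ h hA v w) (ho a b κ G v w hA)
    have h2 : (1 / 2 : ℂ) ≠ 0 := by norm_num
    exact (mul_eq_zero.1 (neg_eq_zero.1 h1)).resolve_left h2
  have hM : ∀ w : D, ∀ ψ : ℝ → ℝ, Tst ψ →
      ∫ u, ((deriv ψ u : ℝ) : ℂ) * kh Q A K a b v w u =
        (∫ u, (ψ u : ℂ)) * ∫ u, ((deriv ρ u : ℝ) : ℂ) * kh Q A K a b v w u := by
    intro w ψ hψ
    have hk := kh_cont h ha hb v w
    have hd : Tst fun x => ψ x - (∫ y, ψ y) * ρ x :=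
      ⟨hψ.1.sub (contDiff_const.mul hρ.1), hψ.2.sub hρ.2.mul_left⟩
    obtain ⟨G, hG, hG'⟩ := H755.prim_tst hd (by
      rw [integral_sub (hψ.1.continuous.integrable_of_hasCompactSupport hψ.2)
        ((hρ.1.continuous.integrable_of_hasCompactSupport hρ.2).const_mul _),
        integral_const_mul, hρ1, mul_one, sub_self])
    have h1 := hM0 w G hG
    have h2 : deriv (deriv G) = fun u => deriv ψ u - (∫ y, ψ y) * deriv ρ u := by
      have h3 : deriv G = fun x => ψ x - (∫ y, ψ y) * ρ x := funext hG'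
      rw [h3]
      funext u
      have h4 := (H746.tdif hψ u).hasDerivAt.sub ((H746.tdif hρ u).hasDerivAt.const_mul (∫ y, ψ y))
      exact h4.deriv
    rw [h2] at h1
    have h3 : ∀ u, ((deriv ψ u - (∫ y, ψ y) * deriv ρ u : ℝ) : ℂ) * kh Q A K a b v w u =
        ((deriv ψ u : ℝ) : ℂ) * kh Q A K a b v w u -
          ((∫ y, ψ y : ℝ) : ℂ) * (((deriv ρ u : ℝ) : ℂ) * kh Q A K a b v w u) := by
      intro u; push_cast; ring
    simp only [h3] at h1
    rw [integral_sub (tst_intg (H746.tder hψ) hk) ((tst_intg (H746.tder hρ) hk).const_mul _),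
      integral_const_mul, sub_eq_zero] at h1
    rw [h1]
    congr 1
    exact integral_ofReal.symm
  -- the deviation is affine
  have haff : ∀ (w : D) (u : ℝ), kh Q A K a b v w u = kh Q A K a b v w 0 -
      (∫ u, ((deriv ρ u : ℝ) : ℂ) * kh Q A K a b v w u) * u := by
    intro w u
    have hk := kh_cont h ha hb v w
    set m : ℂ := ∫ u, ((deriv ρ u : ℝ) : ℂ) * kh Q A K a b v w u with hm
    have h1 := H755.const_of_int (h := fun u : ℝ => kh Q A K a b v w u + m * u) (by fun_prop)
      (fun G hG => ?_) u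
    · simp only [Complex.ofReal_zero, mul_zero, add_zero] at h1
      rw [← h1]; ring
    · have h2 : ∀ u : ℝ, ((deriv G u : ℝ) : ℂ) * (kh Q A K a b v w u + m * u) =
          ((deriv G u : ℝ) : ℂ) * kh Q A K a b v w u + m * ((u * deriv G u : ℝ) : ℂ) := by
        intro u; push_cast; ring
      simp only [h2]
      have h3 : Tst fun u => u * deriv G u := tst_pol (H746.tder hG) contDiff_id
      have h4 : Integrable fun u : ℝ => ((u * deriv G u : ℝ) : ℂ) := by
        have := tst_intg h3 (k := fun _ => 1) continuous_const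
        simpa only [mul_one] using this
      rw [integral_add (tst_intg (H746.tder hG) hk) (h4.const_mul m), integral_const_mul,
        hM w G hG]
      have h5 : Tst fun u => u * G u := tst_pol hG contDiff_id
      have h6 := int_deriv h5
      have hd : deriv (fun u => u * G u) = fun u => G u + u * deriv G u := by
        funext u
        have h1 := (hasDerivAt_id u).mul (H746.tdif hG u).hasDerivAt
        have h2 : (fun u : ℝ => u * G u) = id * G := rfl
        rw [h2, h1.deriv]
        simp only [id]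
        ring
      rw [hd] at h6
      have h7 : Integrable fun u : ℝ => (G u : ℂ) := by
        have := tst_intg hG (k := fun _ => 1) continuous_const
        simpa only [mul_one] using this
      have h8 : ∀ u : ℝ, ((G u + u * deriv G u : ℝ) : ℂ) = (G u : ℂ) + ((u * deriv G u : ℝ) : ℂ) :=
        fun u => by push_cast; ring
      simp only [h8] at h6
      rw [integral_add h7 h4] at h6
      linear_combination m * h6
  have hC : ∀ w : D, ∫ u, ((deriv ρ u : ℝ) : ℂ) * kh Q A K a b v w u =
      2 * inner ℂ w (Cv Q A K a b v) := by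
    intro w
    rw [kh_Cv, haff w 1]
    push_cast
    ring
  refine ⟨fun u => ?_, fun κ' ψ w hA => ?_⟩
  · refine ext_inner_left ℂ fun w => ?_
    have h1 := haff w u
    rw [hC] at h1
    have h2 : kh Q A K a b v w 0 = inner ℂ w (K a v) := by
      unfold kh
      rw [zero_smul, neg_zero, H755.U0, H755.U0]
      push_cast
      ring
    rw [h2] at h1
    unfold kh at h1
    rw [A_XXb h.toRep hb hab, inner_sub_right, inner_add_right, inner_add_right,
      inner_smul_right, inner_smul_right, inner_smul_right]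
    push_cast
    linear_combination h1
  · have h1 := jg_lim hT hJ h hA v w
    rw [hM w ψ hA.2.2.2.2.2, hC] at h1
    have h2 : 1 / 2 * ((∫ u, (ψ u : ℂ)) * (2 * inner ℂ w (Cv Q A K a b v))) =
        (∫ u, (ψ u : ℂ)) * inner ℂ w (Cv Q A K a b v) := by ring
    rw [h2] at h1
    exact h1

end Vale.Agent.P352.H746

end
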