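import Vale.Agent.P352.H746.Temp
import Vale.Agent.P352.H496.Point
import Vale.Agent.P352.H496.Word

set_option linter.all false

noncomputable section

open MeasureTheory SchwartzMap Complex Filter Topology
open scoped SchwartzMap ComplexConjugate ENNReal NNReal LineDeriv

namespace Vale.Agent.P352.H746

open GF (Ix V Fn Sch ev pd bar sim bas o)
open H246 H496
open UniformSpace (Completion)

variable {D : Type*} [NormedAddCommGroup D] [InnerProductSpace ℂ D]
variable {Q : GF.Theory D}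
variable {H : D → D} {alg : Set V → Set (D → D)} {S : V → ℝ → D → D}

/-- a translation covariant vector valued distribution with its spectral measure -/
structure Cvd (Q : GF.Theory D) (κ : 𝓢(Mink, ℂ) →L[ℂ] Completion D) (μ : Measure Mink) : Prop where
  temp : μ.HasTemperateGrowth
  fin : IsFiniteMeasureOnCompacts μ
  cone : ∀ᵐ p ∂μ, p ∈ fwdCone
  cov : ∀ g (a : Mink) (z : D), inner ℂ ((U1 Q a z : D) : Completion D) (κ (tauS a g)) =
      inner ℂ (z : Completion D) (κ g)
  two : ∀ f g, inner ℂ (κ f) (κ g) = ∫ p, conj (mft f p) * mft g p ∂μ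

theorem exists_cvd (κ : 𝓢(Mink, ℂ) →L[ℂ] Completion D)
    (cov : ∀ g (a : Mink) (z : D), inner ℂ ((U1 Q a z : D) : Completion D) (κ (tauS a g)) =
      inner ℂ (z : Completion D) (κ g)) : ∃ μ, Cvd Q κ μ := by
  obtain ⟨ν, Sd⟩ := exists_data κ cov
  obtain ⟨μ, hcone, hμ⟩ := Sd.exists_KL
  obtain ⟨C, m, hC, hb⟩ := exists_ball_bound κ Sd hμ
  have ht := temp_of_ball hC hb
  refine ⟨μ, ht, fin_compact hb, by rw [ae_iff]; exact hcone, cov, ?_⟩
  exact SpecData.two (κ := (κ : 𝓢(Mink, ℂ) →ₗ[ℂ] Completion D)) Sd ht hμ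

section

variable {κ : 𝓢(Mink, ℂ) →L[ℂ] Completion D} {μ : Measure Mink} (K : Cvd Q κ μ)

include K in
lemma Cvd.norm_eq (f : 𝓢(Mink, ℂ)) : ‖κ f‖ = ‖toL K.temp f‖ := by
  have h : inner ℂ (κ f) (κ f) = inner ℂ (toL K.temp f) (toL K.temp f) := by
    rw [K.two, inner_toL_toL]
  rw [inner_self_eq_norm_sq_to_K, inner_self_eq_norm_sq_to_K] at h
  have h2 : ‖κ f‖ ^ 2 = ‖toL K.temp f‖ ^ 2 := by exact_mod_cast h
  exact (pow_left_inj₀ (norm_nonneg _) (norm_nonneg _) (by norm_num)).1 h2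

/-- the map from momentum space functions to vectors -/
def Cvd.J (K : Cvd Q κ μ) : Lp ℂ 2 μ →L[ℂ] Completion D :=
  (κ : 𝓢(Mink, ℂ) →ₗ[ℂ] Completion D).extendOfNorm (toL K.temp)

lemma Cvd.dense (K : Cvd Q κ μ) : DenseRange (toL K.temp) := by
  have := K.fin
  exact denseRange_toL_gen K.temp

lemma Cvd.J_toL (f : 𝓢(Mink, ℂ)) : K.J (toL K.temp f) = κ f := by
  unfold Cvd.J
  rw [LinearMap.extendOfNorm_eq K.dense]
  · rfl
  · refine ⟨1, fun x => ?_⟩
    rw [one_mul, ← K.norm_eq]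
    rfl

lemma Cvd.inner_J (u v : Lp ℂ 2 μ) : inner ℂ (K.J u) (K.J v) = inner ℂ u v := by
  refine K.dense.induction_on₂ (p := fun u v =>
    inner ℂ (K.J u) (K.J v) = inner ℂ u v) ?_ ?_ u v
  · apply isClosed_eq <;> fun_prop
  · intro f g
    rw [K.J_toL, K.J_toL, K.two, inner_toL_toL]

lemma Cvd.norm_J (u : Lp ℂ 2 μ) : ‖K.J u‖ = ‖u‖ := by
  have h := K.inner_J u u
  rw [inner_self_eq_norm_sq_to_K, inner_self_eq_norm_sq_to_K] at h
  have h2 : ‖K.J u‖ ^ 2 = ‖u‖ ^ 2 := by exact_mod_cast h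
  exact (pow_left_inj₀ (norm_nonneg _) (norm_nonneg _) (by norm_num)).1 h2

/-- the component of a vector along the distribution -/
def Cvd.jd (K : Cvd Q κ μ) (v : D) : Lp ℂ 2 μ :=
  ContinuousLinearMap.adjoint K.J (v : Completion D)

lemma Cvd.inner_jd (u : Lp ℂ 2 μ) (v : D) :
    inner ℂ (K.J u) (v : Completion D) = inner ℂ u (K.jd v) :=
  (ContinuousLinearMap.adjoint_inner_right _ _ _).symm

lemma Cvd.jd_add (v w : D) : K.jd (v + w) = K.jd v + K.jd w := by
  unfold Cvd.jd
  rw [Completion.coe_add, map_add]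

lemma Cvd.jd_smul (c : ℂ) (v : D) : K.jd (c • v) = c • K.jd v := by
  unfold Cvd.jd
  rw [Completion.coe_smul, map_smul]

lemma Cvd.jd_U1 (a : Mink) (v : D) :
    K.jd (U1 Q a v) =ᵐ[μ] fun p => chr a p * K.jd v p := by
  have hm := memLp_chr_mul (Lp.memLp (K.jd v)) a
  have h : K.jd (U1 Q a v) = hm.toLp _ := by
    refine ext_inner_right ℂ fun ψ => ?_
    refine K.dense.induction_on (p := fun ψ => inner ℂ (K.jd (U1 Q a v)) ψ =
      inner ℂ (hm.toLp _) ψ) ψ ?_ ?_
    · apply isClosed_eq <;> fun_prop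
    · intro g
      have h1 : inner ℂ (K.jd (U1 Q a v)) (toL K.temp g) =
          inner ℂ (v : Completion D) (κ (tauS (-a) g)) := by
        rw [← inner_conj_symm, ← K.inner_jd, inner_conj_symm, K.J_toL]
        have h3 := K.cov (tauS (-a) g) a v
        rw [tauS_tauS, neg_add_cancel, tauS_zero'] at h3
        exact h3
      have h2 : inner ℂ (v : Completion D) (κ (tauS (-a) g)) =
          inner ℂ (K.jd v) (toL K.temp (tauS (-a) g)) := by
        rw [← inner_conj_symm (K.jd v), ← K.inner_jd, inner_conj_symm, K.J_toL]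
      rw [h1, h2, L2.inner_def, L2.inner_def]
      apply integral_congr_ae
      filter_upwards [hm.coeFn_toLp, coeFn_toL K.temp g, coeFn_toL K.temp (tauS (-a) g)]
        with p hp1 hp2 hp3
      rw [hp1, hp2, hp3, mft_tauS, chr_neg]
      simp only [RCLike.inner_apply, map_mul]
      ring
  rw [h]
  exact hm.coeFn_toLp

lemma Cvd.jd_H (N : Net Q H alg S) (v : D) :
    K.jd (H v) =ᵐ[μ] fun p => (p 0 : ℂ) * K.jd v p := by
  set t : ℕ → ℝ := fun n => 1 / ((n : ℝ) + 1) with ht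
  have ht0 : ∀ n, 0 < t n := fun n => by simp only [ht]; positivity
  have htt : Tendsto t atTop (𝓝 0) := tendsto_one_div_add_atTop_nhds_zero_nat
  have htn : Tendsto t atTop (𝓝[≠] 0) := tendsto_nhdsWithin_iff.2
    ⟨htt, Eventually.of_forall fun n => (ht0 n).ne'⟩
  have h1 := (hasDerivAt_iff_tendsto_slope.1 (hasDeriv_H N v)).comp htn
  have h2 : Tendsto (fun n => K.jd (slope (fun t : ℝ => U1 Q (t • eb 0) v) 0 (t n))) atTop
      (𝓝 (K.jd (I • H v))) := by
    have hc : Continuous fun w : D => K.jd w :=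
      (ContinuousLinearMap.adjoint K.J).continuous.comp (Completion.continuous_coe D)
    exact (hc.tendsto _).comp h1
  have hsl : ∀ n, K.jd (slope (fun t : ℝ => U1 Q (t • eb 0) v) 0 (t n)) =
      ((t n : ℂ))⁻¹ • (K.jd (U1 Q (t n • eb 0) v) - K.jd v) := by
    intro n
    have e1 : slope (fun t : ℝ => U1 Q (t • eb 0) v) 0 (t n) =
        ((t n : ℂ))⁻¹ • (U1 Q (t n • eb 0) v + (-1 : ℂ) • v) := by
      rw [slope_def_module, sub_zero, zero_smul, U1_zero_all, neg_one_smul, ← sub_eq_add_neg,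
        ← ofReal_inv]
      rfl
    rw [e1, K.jd_smul, K.jd_add, K.jd_smul, neg_one_smul, ← sub_eq_add_neg]
  simp only [hsl] at h2
  obtain ⟨ns, hns, hae⟩ := (tendstoInMeasure_of_tendsto_Lp h2).exists_seq_tendsto_ae
  have hall : ∀ᵐ p ∂μ, ∀ n : ℕ, (((t n : ℂ))⁻¹ • (K.jd (U1 Q (t n • eb 0) v) -
      K.jd v) : Lp ℂ 2 μ) p = ((t n : ℂ))⁻¹ * ((chr (t n • eb 0) p - 1) * K.jd v p) := by
    rw [ae_all_iff]
    intro n
    filter_upwards [Lp.coeFn_smul ((t n : ℂ))⁻¹ (K.jd (U1 Q (t n • eb 0) v) - K.jd v),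
      Lp.coeFn_sub (K.jd (U1 Q (t n • eb 0) v)) (K.jd v),
      K.jd_U1 (t n • eb 0) v] with p h3 h4 h5
    rw [h3, Pi.smul_apply, h4, Pi.sub_apply, h5, smul_eq_mul]
    ring
  have hI : K.jd (I • H v) =ᵐ[μ] fun p => I * K.jd (H v) p := by
    rw [K.jd_smul]
    filter_upwards [Lp.coeFn_smul I (K.jd (H v))] with p hp
    rw [hp, Pi.smul_apply, smul_eq_mul]
  filter_upwards [hae, hall, hI] with p h3 h4 h5
  simp only [h4] at h3
  have h6 : Tendsto (fun n : ℕ => ((t n : ℂ))⁻¹ * (chr (t n • eb 0) p - 1)) atTop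
      (𝓝 (I * p 0)) := by
    have hd : HasDerivAt (fun s : ℝ => exp (I * ((s * p 0 : ℝ) : ℂ))) (I * p 0) 0 := by
      have h7 : HasDerivAt (fun s : ℝ => I * ((s * p 0 : ℝ) : ℂ)) (I * p 0) 0 := by
        have := (((Complex.ofRealCLM.hasDerivAt (x := (0 : ℝ))).mul_const (p 0 : ℂ)).const_mul I)
        simpa using this
      have := h7.cexp
      simpa using this
    have h8 := (hasDerivAt_iff_tendsto_slope.1 hd).comp htn
    refine h8.congr fun n => ?_
    simp only [Function.comp_apply, slope_def_module, sub_zero, chr, mdot_eb0]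
    rw [real_smul, ofReal_inv]
    simp
  have h7 := (h6.comp hns.tendsto_atTop).mul_const (K.jd v p)
  have h8 := tendsto_nhds_unique h3 (h7.congr fun n => by
    simp only [Function.comp_apply]; ring)
  rw [h5] at h8
  have h9 : I * K.jd (H v) p = I * ((p 0 : ℂ) * K.jd v p) := by rw [h8]; ring
  exact mul_left_cancel₀ I_ne_zero h9

lemma Cvd.jd_pw1 (N : Net Q H alg S) (n : ℕ) (v : D) :
    K.jd (pw1 H n v) =ᵐ[μ] fun p => (1 + (p 0 : ℂ)) ^ n * K.jd v p := by
  induction n generalizing v with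
  | zero => exact Eventually.of_forall fun p => by simp [pw1]
  | succ n ih =>
    have h1 := ih (v + H v)
    have h2 : K.jd (v + H v) =ᵐ[μ] fun p => (1 + (p 0 : ℂ)) * K.jd v p := by
      rw [K.jd_add]
      filter_upwards [Lp.coeFn_add (K.jd v) (K.jd (H v)), K.jd_H N v]
        with p h3 h4
      rw [h3, Pi.add_apply, h4]
      ring
    filter_upwards [h1, h2] with p h3 h4
    show K.jd (pw1 H n (v + H v)) p = _
    rw [h3, h4]
    ring

include K in
lemma Cvd.exists_wt0 : ∃ n : ℕ, MemLp (fun p => (wt0 n p : ℂ)) 2 μ := by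
  obtain ⟨n, hn⟩ := exists_wt_memLp K.temp
  refine ⟨n, ?_⟩
  refine MemLp.of_le_mul (c := 2 ^ n) hn
    ((measurable_ofReal.comp (measurable_wt0 n)).aestronglyMeasurable) ?_
  filter_upwards [K.cone] with p hp
  rw [norm_real, Real.norm_of_nonneg (by unfold wt0; positivity),
    Real.norm_of_nonneg (wt_nonneg n p)]
  unfold wt0 wt
  have h1 : ‖p‖ ≤ 2 * |p 0| := by
    apply abs_le_of_sq_le_sq' _ (by positivity) |>.2
    rw [norm_sq_mink]
    have h2 : 0 ≤ mdot p p := hp.2
    unfold mdot at h2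
    nlinarith [sq_abs (p 0)]
  rw [inv_le_comm₀ (by positivity) (by positivity), mul_inv, inv_inv, ← inv_pow, ← mul_pow]
  apply pow_le_pow_left₀ (by positivity)
  rw [inv_mul_le_iff₀ (by norm_num)]
  have := abs_nonneg (p 0)
  linarith

/-- matrix elements in momentum space -/
lemma Cvd.pt_eq (N : Net Q H alg S) (w : Lp ℂ 2 μ) (n : ℕ) (x : Mink) (v : D) :
    pt (K.J w) (pw1 H n) (U1 Q x v) =
      ∫ p, conj (w p) * (chr x p * ((1 + (p 0 : ℂ)) ^ n * K.jd v p)) ∂μ := by
  unfold pt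
  rw [K.inner_jd, L2.inner_def]
  apply integral_congr_ae
  filter_upwards [K.jd_pw1 N n (U1 Q x v), K.jd_U1 x v] with p h1 h2
  rw [h1, h2]
  simp only [RCLike.inner_apply]
  ring

lemma Cvd.integrable_pt (N : Net Q H alg S) (w : Lp ℂ 2 μ) (n : ℕ) (v : D) :
    Integrable (fun p => conj (w p) * ((1 + (p 0 : ℂ)) ^ n * K.jd v p)) μ := by
  have h1 : Integrable (fun p => conj (w p) * K.jd (pw1 H n v) p) μ := by
    have := (Lp.memLp w).star.integrable_mul (Lp.memLp (K.jd (pw1 H n v)))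
    exact this
  refine h1.congr ?_
  filter_upwards [K.jd_pw1 N n v] with p hp
  rw [hp]

/-- the representation of the distribution by a point like functional -/
theorem Cvd.exists_pt (N : Net Q H alg S) : ∃ (w : Lp ℂ 2 μ) (n : ℕ), ∀ (F : 𝓢(Mink, ℂ)) (v : D),
    inner ℂ (κ F) (v : Completion D) =
      ∫ x : Mink, conj (F x) * pt (K.J w) (pw1 H n) (U1 Q (-x) v) := by
  obtain ⟨n, hn⟩ := K.exists_wt0
  set w := hn.toLp _ with hw
  refine ⟨w, n, fun F v => ?_⟩
  -- the right hand side in momentum space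
  have hwu := K.integrable_pt N w n v
  have h1 : ∀ x : Mink, pt (K.J w) (pw1 H n) (U1 Q (-x) v) =
      ∫ p, conj (chr x p) * (conj (w p) * ((1 + (p 0 : ℂ)) ^ n * K.jd v p)) ∂μ := by
    intro x
    rw [K.pt_eq N]
    congr 1
    ext p
    rw [chr_neg]
    ring
  have h2 : inner ℂ (κ F) (v : Completion D) =
      ∫ p, conj (mft F p) * (conj (w p) * ((1 + (p 0 : ℂ)) ^ n * K.jd v p)) ∂μ := by
    rw [← K.J_toL, K.inner_jd, inner_toL]
    apply integral_congr_ae
    filter_upwards [hn.coeFn_toLp, K.cone] with p h4 h5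
    rw [h4, conj_ofReal]
    have h6 : (wt0 n p : ℂ) * (1 + (p 0 : ℂ)) ^ n = 1 := by
      unfold wt0
      rw [abs_of_nonneg h5.1]
      have h7 : (1 + (p 0 : ℂ)) ≠ 0 := by
        have h8 : 0 < 1 + p 0 := by have := h5.1; linarith
        intro h9
        have h10 : ((1 + p 0 : ℝ) : ℂ) = 0 := by rw [ofReal_add, ofReal_one]; exact h9
        exact h8.ne' (Complex.ofReal_eq_zero.1 h10)
      push_cast
      field_simp
    linear_combination (-(conj (mft F p)) * K.jd v p) * h6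
  rw [h2]
  simp only [h1]
  -- Fubini
  have h3 : ∀ x : Mink, conj (F x) *
      ∫ p, conj (chr x p) * (conj (w p) * ((1 + (p 0 : ℂ)) ^ n * K.jd v p)) ∂μ =
      ∫ p, conj (F x) * (conj (chr x p) * (conj (w p) * ((1 + (p 0 : ℂ)) ^ n * K.jd v p))) ∂μ := by
    intro x
    rw [integral_const_mul]
  simp only [h3]
  have hfc := K.fin
  rw [integral_integral_swap]
  · congr 1
    ext p
    rw [mft, ← integral_conj, ← integral_mul_const]
    congr 1
    ext x
    rw [chr, map_mul]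
    ring
  · have hint : Integrable (fun q : Mink × Mink => ‖F q.1‖ *
        ‖conj (w q.2) * ((1 + (q.2 0 : ℂ)) ^ n * K.jd v q.2)‖)
        ((volume : Measure Mink).prod μ) :=
      ((F.integrable (μ := (volume : Measure Mink))).norm).mul_prod hwu.norm
    refine hint.mono' ?_ (Eventually.of_forall fun q => ?_)
    · apply AEStronglyMeasurable.mul
      · exact (Complex.continuous_conj.comp (F.continuous.comp continuous_fst)).aestronglyMeasurable
      · apply AEStronglyMeasurable.mul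
        · exact (Complex.continuous_conj.comp continuous_chr2).aestronglyMeasurable
        · exact hwu.aestronglyMeasurable.comp_snd
    · simp only [Function.uncurry]
      rw [norm_mul, norm_mul, RCLike.norm_conj, RCLike.norm_conj, norm_chr, one_mul]

/-- derivatives of point functions are point functions -/
theorem Cvd.deriv_pt (N : Net Q H alg S) (w : Lp ℂ 2 μ) (n : ℕ) (c : Mink) :
    ∃ w' : Lp ℂ 2 μ, ∀ (v : D) (t : ℝ), HasDerivAt
      (fun t : ℝ => pt (K.J w) (pw1 H n) (U1 Q (t • c) v))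
      (pt (K.J w') (pw1 H (n + 1)) (U1 Q (t • c) v)) t := by
  -- the multiplier
  set m : Mink → ℂ := fun p => -(I * (mdot p c : ℂ)) * (1 + ((|p 0| : ℝ) : ℂ))⁻¹ with hm
  have hne : ∀ p : Mink, (1 + ((|p 0| : ℝ) : ℂ)) ≠ 0 := by
    intro p h
    have h1 : ((1 + |p 0| : ℝ) : ℂ) = 0 := by rw [ofReal_add, ofReal_one]; exact h
    have h2 : (1 + |p 0| : ℝ) = 0 := Complex.ofReal_eq_zero.1 h1
    have h3 : 0 < 1 + |p 0| := by positivity
    exact h3.ne' h2
  have hcont : Continuous m := by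
    have h1 : Continuous fun p : Mink => (mdot p c : ℂ) :=
      continuous_ofReal.comp (continuous_mdot_left c)
    have h2 : Continuous fun p : Mink => (1 + ((|p 0| : ℝ) : ℂ)) := by fun_prop
    exact (continuous_const.mul h1).neg.mul (h2.inv₀ hne)
  have hcone : ∀ p : Mink, p ∈ fwdCone → ‖p‖ ≤ 2 * |p 0| := by
    intro p hp
    apply abs_le_of_sq_le_sq' _ (by positivity) |>.2
    rw [norm_sq_mink]
    have h2 : 0 ≤ mdot p p := hp.2
    unfold mdot at h2
    nlinarith [sq_abs (p 0)]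
  have hbd : ∀ᵐ p ∂μ, ‖m p‖ ≤ 2 * ‖c‖ := by
    filter_upwards [K.cone] with p hp
    have h1 := abs_mdot_le p c
    have h2 := hcone p hp
    rw [hm]
    simp only
    rw [norm_mul, norm_neg, norm_mul, norm_I, one_mul, norm_real, norm_inv]
    have h3 : ‖(1 + ((|p 0| : ℝ) : ℂ))‖ = 1 + |p 0| := by
      have : (1 + ((|p 0| : ℝ) : ℂ)) = ((1 + |p 0| : ℝ) : ℂ) := by push_cast; ring
      rw [this, norm_real, Real.norm_of_nonneg (by positivity)]
    rw [h3, ← div_eq_mul_inv, div_le_iff₀ (by positivity), Real.norm_eq_abs]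
    have h4 : ‖p‖ * ‖c‖ ≤ (2 * |p 0|) * ‖c‖ := by gcongr
    have := norm_nonneg c
    nlinarith [abs_nonneg (p 0)]
  have hmw : MemLp (fun p => m p * w p) 2 μ := by
    refine MemLp.of_le_mul (c := 2 * ‖c‖) (Lp.memLp w)
      (hcont.aestronglyMeasurable.mul (Lp.aestronglyMeasurable w)) ?_
    filter_upwards [hbd] with p hp
    rw [norm_mul]
    gcongr
  refine ⟨hmw.toLp _, fun v t => ?_⟩
  have hF : (fun t : ℝ => pt (K.J w) (pw1 H n) (U1 Q (t • c) v)) = fun t : ℝ =>
      ∫ p, conj (w p) * (chr (t • c) p * ((1 + (p 0 : ℂ)) ^ n * K.jd v p)) ∂μ := by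
    funext t
    rw [K.pt_eq N]
  have hF' : pt (K.J (hmw.toLp _)) (pw1 H (n + 1)) (U1 Q (t • c) v) =
      ∫ p, conj (w p) * ((I * (mdot p c : ℂ)) * chr (t • c) p *
        ((1 + (p 0 : ℂ)) ^ n * K.jd v p)) ∂μ := by
    rw [K.pt_eq N]
    apply integral_congr_ae
    filter_upwards [hmw.coeFn_toLp, K.cone] with p h4 h5
    rw [h4, hm]
    simp only [map_mul, map_neg, conj_I, conj_ofReal, map_inv₀, map_add, map_one]
    have h6 : (1 + ((|p 0| : ℝ) : ℂ)) = 1 + (p 0 : ℂ) := by rw [abs_of_nonneg h5.1]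
    have h7 := hne p
    rw [h6] at h7 ⊢
    field_simp
    ring
  rw [hF, hF']
  have hch : ∀ (p : Mink) (s : ℝ), HasDerivAt (fun s : ℝ => chr (s • c) p)
      ((I * (mdot p c : ℂ)) * chr (s • c) p) s := by
    intro p s
    have h7 : HasDerivAt (fun s : ℝ => I * ((s * mdot p c : ℝ) : ℂ)) (I * (mdot p c : ℂ)) s := by
      have := (((Complex.ofRealCLM.hasDerivAt (x := s)).mul_const (mdot p c : ℂ)).const_mul I)
      simpa using this
    have h8 := h7.cexp
    have e1 : (fun s : ℝ => chr (s • c) p) = fun s : ℝ => exp (I * ((s * mdot p c : ℝ) : ℂ)) := by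
      funext s
      rw [chr, mdot_smul_right]
    rw [e1, chr, mdot_smul_right, mul_comm (I * (mdot p c : ℂ))]
    exact h8
  have hi1 := K.integrable_pt N w (n + 1) v
  refine (hasDerivAt_integral_of_dominated_loc_of_deriv_le
    (bound := fun p => (2 * ‖c‖) * ‖conj (w p) * ((1 + (p 0 : ℂ)) ^ (n + 1) * K.jd v p)‖)
    (F := fun (s : ℝ) p => conj (w p) * (chr (s • c) p * ((1 + (p 0 : ℂ)) ^ n * K.jd v p)))
    (F' := fun (s : ℝ) p => conj (w p) * ((I * (mdot p c : ℂ)) * chr (s • c) p *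
        ((1 + (p 0 : ℂ)) ^ n * K.jd v p)))
    (Metric.ball_mem_nhds t one_pos) ?_ ?_ ?_ ?_ ?_ ?_).2
  · refine Eventually.of_forall fun s => ?_
    have h1 := (K.integrable_pt N w n v).aestronglyMeasurable
    have h2 := (continuous_chr (s • c)).aestronglyMeasurable (μ := μ)
    refine (h2.mul h1).congr (Eventually.of_forall fun p => ?_)
    simp only [Pi.mul_apply]
    ring
  · have h1 := K.integrable_pt N w n v
    refine (integrable_chr_mul h1 (t • c)).congr (Eventually.of_forall fun p => ?_)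
    simp only
    ring
  · have h1 := (K.integrable_pt N w n v).aestronglyMeasurable
    have h2 := (continuous_chr (t • c)).aestronglyMeasurable (μ := μ)
    have h3 : AEStronglyMeasurable (fun p : Mink => I * (mdot p c : ℂ)) μ :=
      (continuous_const.mul (continuous_ofReal.comp (continuous_mdot_left c))).aestronglyMeasurable
    refine ((h3.mul h2).mul h1).congr (Eventually.of_forall fun p => ?_)
    simp only [Pi.mul_apply]
    ring
  · filter_upwards [K.cone] with p hp s hs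
    have h1 := abs_mdot_le p c
    have h2 := hcone p hp
    have h3 : ‖(1 + (p 0 : ℂ))‖ = 1 + |p 0| := by
      rw [abs_of_nonneg hp.1]
      have : (1 + (p 0 : ℂ)) = ((1 + p 0 : ℝ) : ℂ) := by push_cast; ring
      rw [this, norm_real, Real.norm_of_nonneg (by have := hp.1; linarith)]
    simp only [norm_mul, norm_I, norm_chr, norm_real, norm_pow, one_mul, mul_one, pow_succ, h3,
      RCLike.norm_conj, Real.norm_eq_abs]
    have h4 : |mdot p c| ≤ (2 * ‖c‖) * (1 + |p 0|) := by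
      have h5 : ‖p‖ * ‖c‖ ≤ (2 * |p 0|) * ‖c‖ := by gcongr
      have := norm_nonneg c
      nlinarith [abs_nonneg (p 0)]
    calc ‖w p‖ * (|mdot p c| * ((1 + |p 0|) ^ n * ‖K.jd v p‖))
        ≤ ‖w p‖ * (((2 * ‖c‖) * (1 + |p 0|)) * ((1 + |p 0|) ^ n * ‖K.jd v p‖)) := by gcongr
      _ = _ := by ring
  · exact hi1.norm.const_mul _
  · refine Eventually.of_forall fun p s hs => ?_
    have := (((hch p s).mul_const ((1 + (p 0 : ℂ)) ^ n * K.jd v p)).const_mul (conj (w p)))
    exact this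

end

end Vale.Agent.P352.H746

end
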