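import Vale.Agent.P352.H746.Nrt
import Vale.Agent.P352.H755.TP

set_option linter.all false

noncomputable section

open MeasureTheory SchwartzMap Complex Filter Topology
open scoped SchwartzMap ComplexConjugate ENNReal NNReal LineDeriv

namespace Vale.Agent.P352.H746

open GF (Ix V Fn Sch ev pd bar sim bas o)
open H246 H496 H755
open UniformSpace (Completion)

variable {D : Type*} [NormedAddCommGroup D] [InnerProductSpace ℂ D]
variable {Q : GF.Theory D}
variable {H : D → D} {alg : Set V → Set (D → D)} {S : V → ℝ → D → D}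

/-! ### Values of point like functionals -/

/-- a covariant distribution represented by a point like functional -/
def Rep (Q : GF.Theory D) (κ : 𝓢(Mink, ℂ) → Completion D) (φ : Completion D) (B : D → D) : Prop :=
  ∀ F (v : D), inner ℂ (κ F) (v : Completion D) =
    ∫ x : Mink, conj (F x) * pt φ B (U1 Q (-x) v)

/-- continuous functions are determined by their integrals against test functions -/
lemma fun_unique {h h' : Mink → ℂ} (hc : Continuous h) (hc' : Continuous h')
    (he : ∀ F : 𝓢(Mink, ℂ), HasCompactSupport F → ∫ x, conj (F x) * h x = ∫ x, conj (F x) * h' x) :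
    h = h' := by
  funext x
  have hz := fund (W := Set.univ) isOpen_univ (h := fun x => h x - h' x) (hc.sub hc')
    (fun F hF => by
      have hFc : HasCompactSupport (conjS F : Mink → ℂ) := by
        have : (conjS F : Mink → ℂ) = (fun z => conj z) ∘ F := by ext x; simp
        rw [this]
        exact hF.1.comp_left (map_zero _)
      have h1 := he (conjS F) hFc
      have e : ∀ x : Mink, conj (conjS F x) = F x := by
        intro x
        rw [conjS_apply, conj_conj]
      simp only [e] at h1
      have i1 : Integrable fun x : Mink => F x * h x :=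
        Continuous.integrable_of_hasCompactSupport (F.continuous.mul hc) hF.1.mul_right
      have i2 : Integrable fun x : Mink => F x * h' x :=
        Continuous.integrable_of_hasCompactSupport (F.continuous.mul hc') hF.1.mul_right
      simp only [mul_sub]
      rw [integral_sub i1 i2, h1, sub_self]) x trivial
  exact sub_eq_zero.1 hz

lemma cont_pt (N : Net Q H alg S) {φ : Completion D} {B : D → D} (hB : B ∈ alg Set.univ) (v : D) :
    Continuous fun x : Mink => pt φ B (U1 Q (-x) v) := by
  have h1 := cont_op N φ hB v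
  exact h1.comp (by fun_prop : Continuous fun x : Mink => (-x).ofLp)

lemma pt_zero_eq {φ : Completion D} {B : D → D} (v : D) :
    pt φ B (U1 Q (-(0 : Mink)) v) = pt φ B v := by
  rw [neg_zero, U1_zero_all]

/-- uniqueness of the point like functional -/
lemma Rep.unique (N : Net Q H alg S) {κ κ' : 𝓢(Mink, ℂ) → Completion D} {φ φ' : Completion D}
    {B B' : D → D} (hB : B ∈ alg Set.univ) (hB' : B' ∈ alg Set.univ) (h : Rep Q κ φ B)
    (h' : Rep Q κ' φ' B') (he : ∀ F, κ F = κ' F) (v : D) : pt φ B v = pt φ' B' v := by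
  have h1 := fun_unique (cont_pt N (φ := φ) hB v) (cont_pt N (φ := φ') hB' v) (fun F _ => by
    rw [← h F v, ← h' F v, he])
  have h2 := congrFun h1 0
  simp only [pt_zero_eq] at h2
  exact h2

/-- the value at the origin -/
theorem val_iff_gen (N : Net Q H alg S) {j : Fn → Completion D} {κ : 𝓢(Mink, ℂ) → Completion D}
    (hj : ∀ F, j (fl F) = κ F) {φ : Completion D} {B : D → D} (hB : B ∈ alg Set.univ)
    (rep : Rep Q κ φ B) (v : D) (c : ℂ) : Val j v c ↔ c = pt φ B v := by
  have hcont : Continuous fun x : V => pt φ B (Q.U 1 GF.one (-x) v) :=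
    (cont_op N φ hB v).comp continuous_neg
  have h0 : pt φ B (Q.U 1 GF.one (-(0 : V)) v) = pt φ B v := by
    have : Q.U 1 GF.one (-(0 : V)) v = v := by
      rw [neg_zero]; exact U1_zero_all (Q := Q) v
    rw [this]
  have hint : ∀ f, In Set.univ f → inner ℂ (j f) (v : Completion D) =
      ∫ x : V, star (f x) * pt φ B (Q.U 1 GF.one (-x) v) := by
    intro f hf
    obtain ⟨F, rfl⟩ := exists_fl hf.1
    rw [hj, rep, integral_V]
    rfl
  constructor
  · rintro ⟨G, hG, rfl, hGint⟩
    have h1 := fun_unique (h := fun x : Mink => G x.ofLp)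
      (h' := fun x : Mink => pt φ B (Q.U 1 GF.one (-x.ofLp) v))
      (hG.comp (by fun_prop : Continuous fun x : Mink => x.ofLp))
      (hcont.comp (by fun_prop : Continuous fun x : Mink => x.ofLp))
      (fun F hF => by
        have hin : In Set.univ (fl F) := in_univ.2 ⟨hF, Set.subset_univ _⟩
        have h1 := hGint _ hin
        have h2 := hint _ hin
        rw [h1, integral_V, integral_V] at h2
        exact h2)
    have h3 := congrFun h1 0
    have h4 : (0 : Mink).ofLp = (0 : V) := rfl
    simp only [h4] at h3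
    rw [h3, h0]
  · rintro rfl
    exact ⟨_, hcont, h0, hint⟩

/-! ### Fields applied to the vacuum -/

/-- a field applied to the vacuum -/
def kf {A : GF.Fld D} (hA : Q.fld A) : 𝓢(Mink, ℂ) →L[ℂ] Completion D where
  toFun F := ((A (fl F) Q.vac : D) : Completion D)
  map_add' F G := by
    have h := fld_lin hA F G 1 Q.vac
    simp only [one_smul] at h
    rw [h, Completion.coe_add]
  map_smul' c F := by
    have h0 : A (fl 0) Q.vac = 0 := by
      have h2 := fld_lin hA 0 0 1 Q.vac
      simp only [smul_zero, add_zero, one_smul] at h2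
      simpa using h2
    have h1 := fld_lin hA 0 F c Q.vac
    rw [zero_add, h0, zero_add] at h1
    rw [RingHom.id_apply, h1, Completion.coe_smul]
  cont := (Completion.continuous_coe D).comp (fld_cont hA Q.vac)

lemma kf_apply {A : GF.Fld D} (hA : Q.fld A) (F : 𝓢(Mink, ℂ)) :
    kf hA F = ((A (fl F) Q.vac : D) : Completion D) := rfl

lemma kf_cov {A : GF.Fld D} (hA : Q.fld A) (g : 𝓢(Mink, ℂ)) (a : Mink) (z : D) :
    inner ℂ ((U1 Q a z : D) : Completion D) (kf hA (tauS a g)) =
      inner ℂ (z : Completion D) (kf hA g) := by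
  have h1 : U1 Q a (A (fl g) Q.vac) = A (fl (tauS a g)) (U1 Q a Q.vac) := U_fld hA g a Q.vac
  rw [U1_vac] at h1
  rw [kf_apply, kf_apply, ← h1, Completion.inner_coe, Completion.inner_coe, U1_inner]

/-- the smeared component `∑ c_m J^m` applied to the vacuum -/
def kc {J : Ix → GF.Fld D} (hJ : ∀ m, Q.fld (J m)) (c : Ix → ℝ) :
    𝓢(Mink, ℂ) →L[ℂ] Completion D := ∑ m, (c m : ℂ) • kf (hJ m)

lemma kc_apply {J : Ix → GF.Fld D} (hJ : ∀ m, Q.fld (J m)) (c : Ix → ℝ) (F : 𝓢(Mink, ℂ)) :
    kc hJ c F = ∑ m, (c m : ℂ) • kf (hJ m) F := by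
  unfold kc
  rw [ContinuousLinearMap.sum_apply]
  rfl

lemma kc_cov {J : Ix → GF.Fld D} (hJ : ∀ m, Q.fld (J m)) (c : Ix → ℝ) (g : 𝓢(Mink, ℂ))
    (a : Mink) (z : D) : inner ℂ ((U1 Q a z : D) : Completion D) (kc hJ c (tauS a g)) =
      inner ℂ (z : Completion D) (kc hJ c g) := by
  rw [kc_apply, kc_apply, inner_sum, inner_sum]
  refine Finset.sum_congr rfl fun m _ => ?_
  rw [inner_smul_right, inner_smul_right, kf_cov]

/-- the data of a point like functional for `∑ c_m J^m` -/
theorem exists_kc (N : Net Q H alg S) {J : Ix → GF.Fld D} (hJ : ∀ m, Q.fld (J m)) (c : Ix → ℝ) :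
    ∃ (μ : Measure Mink) (K : Cvd Q (kc hJ c) μ) (w : Lp ℂ 2 μ) (n : ℕ),
      Rep Q (kc hJ c) (K.J w) (pw1 H n) := by
  obtain ⟨μ, K⟩ := exists_cvd (kc hJ c) (kc_cov hJ c)
  obtain ⟨w, n, h⟩ := K.exists_pt N
  exact ⟨μ, K, w, n, h⟩

lemma kc_bas {J : Ix → GF.Fld D} (hJ : ∀ m, Q.fld (J m)) (m : Ix) (F : 𝓢(Mink, ℂ)) :
    kc hJ (bas m 1) F = ((J m (fl F) Q.vac : D) : Completion D) := by
  rw [kc_apply, Finset.sum_eq_single m]
  · simp [bas, kf_apply]
  · intro k _ hk
    simp [bas, hk]
  · intro h
    exact absurd (Finset.mem_univ m) h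

/-- `vj` is given by a point like functional -/
theorem vj_eq (N : Net Q H alg S) {J : Ix → GF.Fld D} (hJ : ∀ m, Q.fld (J m)) {m : Ix}
    {φ : Completion D} {B : D → D} (hB : B ∈ alg Set.univ) (h : Rep Q (kc hJ (bas m 1)) φ B)
    (v : D) : vj Q J m v = pt φ B v := by
  have h1 := val_iff_gen N (j := fun f => ((J m f Q.vac : D) : Completion D))
    (fun F => (kc_bas hJ m F).symm) hB h v
  have h2 : Val (fun f => ((J m f Q.vac : D) : Completion D)) v (vj Q J m v) :=
    Classical.epsilon_spec ⟨_, (h1 _).2 rfl⟩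
  exact (h1 _).1 h2

theorem cont_vj (N : Net Q H alg S) {J : Ix → GF.Fld D} (hJ : ∀ m, Q.fld (J m)) (m : Ix)
    (v : D) : Continuous fun x : Mink => vj Q J m (U1 Q (-x) v) := by
  obtain ⟨μ, K, w, n, h⟩ := exists_kc N hJ (bas m 1)
  have hB := pw1_mem N n
  simp only [vj_eq N hJ hB h]
  exact cont_pt N hB v

theorem vj_rep (N : Net Q H alg S) {J : Ix → GF.Fld D} (hJ : ∀ m, Q.fld (J m)) (m : Ix)
    (F : 𝓢(Mink, ℂ)) (v : D) : inner ℂ ((J m (fl F) Q.vac : D) : Completion D) (v : Completion D) =
      ∫ x : Mink, conj (F x) * vj Q J m (U1 Q (-x) v) := by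
  obtain ⟨μ, K, w, n, h⟩ := exists_kc N hJ (bas m 1)
  have hB := pw1_mem N n
  simp only [vj_eq N hJ hB h]
  rw [← kc_bas hJ, h]

/-- boundedness of the point functions -/
theorem bdd_vj (N : Net Q H alg S) {J : Ix → GF.Fld D} (hJ : ∀ m, Q.fld (J m)) (m : Ix)
    (v : D) : ∃ C, ∀ x : Mink, ‖vj Q J m (U1 Q x v)‖ ≤ C := by
  obtain ⟨μ, K, w, n, h⟩ := exists_kc N hJ (bas m 1)
  have hB := pw1_mem N n
  refine ⟨‖K.J w‖ * ‖pw1 H n v‖, fun x => ?_⟩
  rw [vj_eq N hJ hB h, pt]
  refine (norm_inner_le_norm _ _).trans ?_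
  rw [Completion.norm_coe, pw1_comm N, U1_norm]

/-- the point like functional of a component -/
theorem sum_vj (N : Net Q H alg S) {J : Ix → GF.Fld D} (hJ : ∀ m, Q.fld (J m)) {c : Ix → ℝ}
    {φ : Completion D} {B : D → D} (hB : B ∈ alg Set.univ) (h : Rep Q (kc hJ c) φ B) (v : D) :
    ∑ m, (c m : ℂ) * vj Q J m v = pt φ B v := by
  have hc : Continuous fun x : Mink => ∑ m, (c m : ℂ) * vj Q J m (U1 Q (-x) v) :=
    continuous_finset_sum _ fun m _ => continuous_const.mul (cont_vj N hJ m v)
  have h1 := fun_unique hc (cont_pt N (φ := φ) hB v) (fun F hF => by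
    rw [← h F v, kc_apply, sum_inner]
    have hi : ∀ m, Integrable fun x : Mink => conj (F x) * ((c m : ℂ) * vj Q J m (U1 Q (-x) v)) :=
      fun m => by
        refine Continuous.integrable_of_hasCompactSupport
          ((Complex.continuous_conj.comp F.continuous).mul
            (continuous_const.mul (cont_vj N hJ m v))) ?_
        exact (hF.comp_left (g := fun z : ℂ => conj z) (map_zero _)).mul_right
    simp only [Finset.mul_sum]
    rw [integral_finset_sum _ fun m _ => hi m]
    refine Finset.sum_congr rfl fun m _ => ?_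
    rw [inner_smul_left, conj_ofReal, kf_apply, vj_rep N hJ, ← integral_const_mul]
    congr 1
    ext x
    ring)
  have h2 := congrFun h1 0
  simp only [pt_zero_eq] at h2
  have h3 : ∀ m, vj Q J m (U1 Q (-(0 : Mink)) v) = vj Q J m v := fun m => by
    rw [neg_zero, U1_zero_all]
  simp only [h3] at h2
  exact h2

/-! ### Covariance -/

lemma U_inv_scale (N : CNet Q H alg S) {s : ℝ} (hs : 0 < s) {L : Ix → V} (hL : GF.IsLor L)
    (y : Mink) (v : D) : U1 Q (-y) (Q.U s L 0 v) = Q.U s L 0 (U1 Q (-(s⁻¹ • lam (linv L) y)) v) := by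
  rw [← U_scale N hs hL]
  congr 2
  have h1 : lam L (s⁻¹ • lam (linv L) y) = s⁻¹ • y := by
    have h2 : ∀ (c : ℝ) (x : Mink), lam L (c • x) = c • lam L x := by
      intro c x
      ext n
      simp only [lam_apply, PiLp.smul_apply, smul_eq_mul, Finset.mul_sum]
      exact Finset.sum_congr rfl fun k _ => by ring
    rw [h2, lam_linv hL]
  rw [h1, smul_smul, mul_inv_cancel₀ hs.ne', one_smul]

/-- transformation of the values of a vector field of dimension three -/
theorem vj_cov (N : CNet Q H alg S) {T : Ix → Ix → GF.Fld D} {J : Ix → GF.Fld D}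
    (hJ : IsVirial Q T J) {s : ℝ} (hs : 0 < s) {L : Ix → V} (hL : GF.IsLor L) (m : Ix) (v : D) :
    vj Q J m (Q.U s L 0 v) = ((s ^ 3)⁻¹ : ℝ) * ∑ k, (L k m : ℂ) * vj Q J k v := by
  have hf : ∀ m, Q.fld (J m) := fun m => Q.bose_fld _ (hJ.bose m)
  have hc1 : Continuous fun x : Mink => vj Q J m (U1 Q (-x) (Q.U s L 0 v)) := cont_vj N.toNet hf m _
  have hc2 : Continuous fun x : Mink => ((s ^ 3)⁻¹ : ℝ) * ∑ k, (L k m : ℂ) *
      vj Q J k (U1 Q (-(s⁻¹ • lam (linv L) x)) v) := by
    refine continuous_const.mul (continuous_finset_sum _ fun k _ => continuous_const.mul ?_)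
    exact (cont_vj N.toNet hf k v).comp ((continuous_lam (linv L)).const_smul s⁻¹)
  have h1 := fun_unique hc1 hc2 (fun F hF => by
    rw [← vj_rep N.toNet hf]
    have h2 := hJ.cov m s L 0 (fl F) Q.vac hs hL (isTest_fl F)
    rw [Q.U_vac _ _ _ hs hL] at h2
    rw [Completion.inner_coe, h2, sum_inner]
    have hG : ∀ k, ∫ x : Mink, conj (F x) * vj Q J k (U1 Q (-(s⁻¹ • lam (linv L) x)) v) =
        ((s ^ 4 : ℝ) : ℂ) * inner ℂ (J k (fun x => fl F (sim s L 0 x)) Q.vac) v := by
      intro k
      have h3 := int_sim hs hL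
        (fun x => conj (F x) * vj Q J k (U1 Q (-(s⁻¹ • lam (linv L) x)) v))
      have h4 : ∀ y : Mink, s⁻¹ • lam (linv L) (s • lam L y) = y := by
        intro y
        have h5 : lam (linv L) (s • lam L y) = s • y := by
          have h6 : ∀ (c : ℝ) (x : Mink), lam (linv L) (c • x) = c • lam (linv L) x := by
            intro c x
            ext n
            simp only [lam_apply, PiLp.smul_apply, smul_eq_mul, Finset.mul_sum]
            exact Finset.sum_congr rfl fun k _ => by ring
          rw [h6, linv_lam hL]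
        rw [h5, smul_smul, inv_mul_cancel₀ hs.ne', one_smul]
      simp only [h4] at h3
      rw [fl_sim s hs hL 0, ← Completion.inner_coe, vj_rep N.toNet hf]
      simp only [simS0_apply]
      rw [h3]
      have hs' : (s : ℂ) ≠ 0 := by exact_mod_cast hs.ne'
      push_cast
      field_simp
    have hi : ∀ k, Integrable fun x : Mink => conj (F x) *
        vj Q J k (U1 Q (-(s⁻¹ • lam (linv L) x)) v) := fun k => by
      refine Continuous.integrable_of_hasCompactSupport
        ((Complex.continuous_conj.comp F.continuous).mul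
          ((cont_vj N.toNet hf k v).comp ((continuous_lam (linv L)).const_smul s⁻¹))) ?_
      exact (hF.comp_left (g := fun z : ℂ => conj z) (map_zero _)).mul_right
    have h7 : ∀ x : Mink, conj (F x) * (((s ^ 3)⁻¹ : ℝ) * ∑ k, (L k m : ℂ) *
        vj Q J k (U1 Q (-(s⁻¹ • lam (linv L) x)) v)) = ∑ k, (((s ^ 3)⁻¹ : ℝ) * (L k m : ℂ)) *
          (conj (F x) * vj Q J k (U1 Q (-(s⁻¹ • lam (linv L) x)) v)) := by
      intro x
      simp only [Finset.mul_sum]
      exact Finset.sum_congr rfl fun k _ => by ring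
    simp only [h7]
    rw [integral_finset_sum _ fun k _ => (hi k).const_mul _]
    refine Finset.sum_congr rfl fun k _ => ?_
    rw [integral_const_mul, hG, inner_smul_left, Q.U_inner _ _ _ _ _ hs hL]
    have hs' : (s : ℂ) ≠ 0 := by exact_mod_cast hs.ne'
    simp only [map_mul, conj_ofReal]
    push_cast
    field_simp)
  have h2 := congrFun h1 0
  have h8 : s⁻¹ • lam (linv L) (0 : Mink) = 0 := by
    have : lam (linv L) (0 : Mink) = 0 := by
      ext n
      simp [lam_apply]
    rw [this, smul_zero]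
  simp only [h8, neg_zero, U1_zero_all] at h2
  exact h2

end Vale.Agent.P352.H746

end
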