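import Vale.Agent.P352.H746.Flow2

set_option linter.all false

noncomputable section

open MeasureTheory SchwartzMap Complex Filter Topology
open scoped SchwartzMap ComplexConjugate ENNReal LineDeriv

namespace Vale.Agent.P352.H746

open GF (Ix V Fn Sch ev pd bar sim bas o)
open H246 H496 H755 H15
open UniformSpace (Completion)

variable {D : Type*} [NormedAddCommGroup D] [InnerProductSpace ℂ D]
variable {Q : GF.Theory D} {T : Ix → Ix → GF.Fld D} {J : Ix → GF.Fld D}
variable {A : (V → V) → D → D}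

lemma sum_one' {M : Type*} [AddCommGroup M] [Module ℂ M] (u : Ix → M) (m : Ix) :
    ∑ k, (GF.one k m : ℂ) • u k = u m := by
  rw [Finset.sum_eq_single m]
  · simp [GF.one, bas]
  · intro k _ hk
    simp [GF.one, bas, hk.symm]
  · intro h; exact absurd (Finset.mem_univ _) h

lemma fld_smul {B : GF.Fld D} (hB : Q.fld B) {f : Fn} (hf : GF.IsTest f) (c : ℂ) (v : D) :
    B f (c • v) = c • B f v := by
  obtain ⟨B1, -, hadj⟩ := Q.adj B hB
  refine ext_inner_left ℂ fun z => ?_
  have h : ∀ u, inner ℂ z (B f u) = inner ℂ (B1 (bar f) z) u := by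
    intro u
    rw [← inner_conj_symm, hadj f u z hf, inner_conj_symm]
  rw [h, inner_smul_right, inner_smul_right, h]

theorem A_vac (h : H15.Rep Q A) {r : ℝ} {X : V → V} (hX : IsSim r X) : A X Q.vac = 0 := by
  obtain ⟨c, w, hw, hX⟩ := hX
  obtain ⟨s, L, a, K⟩ := exists_crv hw r c
  have h1 := der_U0 h K hX Q.vac
  have h2 : (fun e => Q.U (s e) (L e) (a e) Q.vac) = fun _ => Q.vac := by
    funext e
    exact Q.U_vac _ _ _ (K.sp e) (K.lor e)
  rw [h2] at h1
  have h3 := h1.unique (hasDerivAt_const _ _)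
  exact (smul_eq_zero.1 h3).resolve_left I_ne_zero

theorem A_symm (h : H15.Rep Q A) {r : ℝ} {X : V → V} (hX : IsSim r X) (v w : D) :
    inner ℂ (A X v) w = inner ℂ v (A X w) := by
  obtain ⟨c, w', hw, hX⟩ := hX
  obtain ⟨s, L, a, K⟩ := exists_crv hw r c
  have h1 := (der_U0 h K hX v).inner ℂ (der_U0 h K hX w)
  have h2 : (fun e => inner ℂ (Q.U (s e) (L e) (a e) v) (Q.U (s e) (L e) (a e) w)) =
      fun _ => inner ℂ v w := by
    funext e
    exact Q.U_inner _ _ _ v w (K.sp e) (K.lor e)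
  rw [h2] at h1
  have h3 := h1.unique (hasDerivAt_const _ _)
  rw [U_at0 K, U_at0 K, inner_smul_right, inner_smul_left, conj_I] at h3
  have h4 : I * (inner ℂ v (A X w) - inner ℂ (A X v) w) = 0 := by linear_combination h3
  have h5 := (mul_eq_zero.1 h4).resolve_left I_ne_zero
  exact (sub_eq_zero.1 h5).symm

theorem A_J (h : H15.Rep Q A) (hJ : IsVirial Q T J) {X : V → V} {c : V} {w : Ix → V} {r : ℝ}
    (hw : ∀ m n, GF.eta n * w m n = -(GF.eta m * w n m))
    (hX : ∀ z n, X z n = c n + r * z n + ∑ m, z m * w m n) {f : Fn} (hf : GF.IsTest f) (m : Ix)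
    (v : D) : A X (J m f v) = J m f (A X v) + Complex.I • ((r : ℂ) • J m f v +
      ∑ k, (w k m : ℂ) • J k f v + J m (vf X f) v) := by
  obtain ⟨s, L, a, K⟩ := exists_crv hw r c
  obtain ⟨F, rfl⟩ := exists_fl hf
  have hfld : ∀ k, Q.fld (J k) := fun k => Q.bose_fld _ (hJ.bose k)
  have h1 := comm_gen h K hX hfld (hfld m) (C := fun e k => s e * L e k m)
    (C' := fun k => r * GF.one k m + w k m) (fun k => by
      have h2 := K.ds.mul (K.dL k m)
      rw [K.s0, K.L0, one_mul] at h2
      exact h2) F v (fun e => by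
      rw [hJ.cov m _ _ _ _ v (K.sp e) (K.lor e) (isTest_fl F)]
      refine Finset.sum_congr rfl fun k _ => ?_
      rw [fl_sim (s e) (K.sp e) (K.lor e)]
      push_cast
      rfl)
  rw [← fl_vfS hX]
  simp only [K.s0, K.L0, one_mul] at h1
  rw [sum_one' (fun k => J k (fl F) v), fld_smul (hfld m) (isTest_fl F)] at h1
  have e1 : ∑ k, (((r * GF.one k m + w k m : ℝ) : ℂ) • J k (fl F) v +
      (GF.one k m : ℂ) • J k (fl (vfS w r c F)) v) =
      (r : ℂ) • J m (fl F) v + ∑ k, (w k m : ℂ) • J k (fl F) v +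
      J m (fl (vfS w r c F)) v := by
    rw [Finset.sum_add_distrib, sum_one' (fun k => J k (fl (vfS w r c F)) v)]
    congr 1
    have : ∀ k, (((r * GF.one k m + w k m : ℝ)) : ℂ) • J k (fl F) v =
        (GF.one k m : ℂ) • ((r : ℂ) • J k (fl F) v) + (w k m : ℂ) • J k (fl F) v := by
      intro k
      rw [smul_smul, ← add_smul]
      congr 1
      push_cast
      ring
    simp only [this]
    rw [Finset.sum_add_distrib, sum_one' (fun k => (r : ℂ) • J k (fl F) v)]
  rw [e1] at h1
  have h2 := congrArg (fun u => (-I) • u) h1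
  simp only [smul_add, smul_smul] at h2
  have e2 : -I * I = 1 := by rw [neg_mul, I_mul_I, neg_neg]
  simp only [e2, one_smul] at h2
  rw [h2]
  simp only [smul_add, smul_smul, neg_mul, neg_smul, add_assoc]
  abel

theorem A_T (h : H15.Rep Q A) (hT : Q.IsStress T) {X : V → V} {c : V} {w : Ix → V} {r : ℝ}
    (hw : ∀ m n, GF.eta n * w m n = -(GF.eta m * w n m))
    (hX : ∀ z n, X z n = c n + r * z n + ∑ m, z m * w m n) {f : Fn} (hf : GF.IsTest f) (m n : Ix)
    (v : D) : A X (T m n f v) = T m n f (A X v) + Complex.I • (∑ k, (w k m : ℂ) • T k n f v +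
      ∑ l, (w l n : ℂ) • T m l f v + T m n (vf X f) v) := by
  obtain ⟨s, L, a, K⟩ := exists_crv hw r c
  obtain ⟨F, rfl⟩ := exists_fl hf
  have hfld : ∀ k : Ix × Ix, Q.fld (T k.1 k.2) := fun k => Q.bose_fld _ (hT.bose k.1 k.2)
  have h1 := comm_gen h K hX hfld (hfld (m, n)) (C := fun e k => L e k.1 m * L e k.2 n)
    (C' := fun k => w k.1 m * GF.one k.2 n + GF.one k.1 m * w k.2 n) (fun k => by
      have h2 := (K.dL k.1 m).mul (K.dL k.2 n)
      rw [K.L0] at h2
      exact h2) F v (fun e => by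
      show T m n _ _ = _
      rw [hT.cov m n _ _ _ _ v (K.sp e) (K.lor e) (isTest_fl F), Fintype.sum_prod_type]
      refine Finset.sum_congr rfl fun k _ => Finset.sum_congr rfl fun l _ => ?_
      rw [fl_sim (s e) (K.sp e) (K.lor e)]
      push_cast
      rfl)
  rw [← fl_vfS hX]
  simp only [K.L0, Fintype.sum_prod_type] at h1
  have s2 : ∀ u : Ix → Ix → D, ∑ k, ∑ l, ((GF.one k m * GF.one l n : ℝ) : ℂ) • u k l = u m n := by
    intro u
    have : ∀ k l, ((GF.one k m * GF.one l n : ℝ) : ℂ) • u k l =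
        (GF.one k m : ℂ) • ((GF.one l n : ℂ) • u k l) := by
      intro k l
      rw [smul_smul]
      push_cast
      rfl
    simp only [this, ← Finset.smul_sum]
    rw [sum_one' (fun k => ∑ l, (GF.one l n : ℂ) • u k l), sum_one' (fun l => u m l)]
  rw [s2 (fun k l => T k l (fl F) v), fld_smul (hfld (m, n)) (isTest_fl F)] at h1
  have e1 : ∑ k, ∑ l, (((w k m * GF.one l n + GF.one k m * w l n : ℝ) : ℂ) • T k l (fl F) v +
      ((GF.one k m * GF.one l n : ℝ) : ℂ) • T k l (fl (vfS w r c F)) v) =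
      ∑ k, (w k m : ℂ) • T k n (fl F) v + ∑ l, (w l n : ℂ) • T m l (fl F) v +
      T m n (fl (vfS w r c F)) v := by
    simp only [Finset.sum_add_distrib]
    rw [s2 (fun k l => T k l (fl (vfS w r c F)) v)]
    congr 1
    have : ∀ k l, (((w k m * GF.one l n + GF.one k m * w l n : ℝ)) : ℂ) • T k l (fl F) v =
        (GF.one l n : ℂ) • ((w k m : ℂ) • T k l (fl F) v) +
        (GF.one k m : ℂ) • ((w l n : ℂ) • T k l (fl F) v) := by
      intro k l
      rw [smul_smul, smul_smul, ← add_smul]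
      congr 1
      push_cast
      ring
    simp only [this, Finset.sum_add_distrib]
    congr 1
    · refine Finset.sum_congr rfl fun k _ => ?_
      rw [sum_one' (fun l => (w k m : ℂ) • T k l (fl F) v)]
    · simp only [← Finset.smul_sum]
      rw [sum_one' (fun k => ∑ l, (w l n : ℂ) • T k l (fl F) v)]
  rw [e1] at h1
  have h2 := congrArg (fun u => (-I) • u) h1
  simp only [smul_add, smul_smul] at h2
  have e2 : -I * I = 1 := by rw [neg_mul, I_mul_I, neg_neg]
  simp only [e2, one_smul] at h2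
  rw [h2]
  simp only [smul_add, smul_smul, neg_mul, neg_smul, add_assoc]
  abel

/-- vector valued distributions as continuous linear maps -/
def ycl (Y : Fn → D) (hl : ∀ f g c, GF.IsTest f → GF.IsTest g →
    Y (fun x => f x + c * g x) = Y f + c • Y g) (hc : Continuous fun g => Y (ev g)) :
    𝓢(Mink, ℂ) →L[ℂ] D where
  toFun F := Y (fl F)
  map_add' F G := by
    have h1 := hl (fl F) (fl G) 1 (isTest_fl F) (isTest_fl G)
    have h2 : (fun x => fl F x + 1 * fl G x) = fl (F + G) := by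
      funext x; simp
    rw [h2, one_smul] at h1
    exact h1
  map_smul' c F := by
    have h0 := hl (fl 0) (fl 0) (-1) (isTest_fl 0) (isTest_fl 0)
    have h00 : (fun x => fl (0 : 𝓢(Mink, ℂ)) x + (-1) * fl (0 : 𝓢(Mink, ℂ)) x) =
        fl 0 := by
      funext x; simp
    rw [h00] at h0
    have h01 : Y (fl 0) = 0 := by
      rw [h0, neg_one_smul, add_neg_cancel]
    have h1 := hl (fl 0) (fl F) c (isTest_fl 0) (isTest_fl F)
    have h2 : (fun x => fl (0 : 𝓢(Mink, ℂ)) x + c * fl F x) = fl (c • F) := by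
      funext x; simp
    rw [h2, h01, zero_add] at h1
    exact h1
  cont := hc.comp toSchL.continuous

theorem A_vec (h : H15.Rep Q A) {Y : Fn → D} (hl : ∀ f g c, GF.IsTest f → GF.IsTest g →
    Y (fun x => f x + c * g x) = Y f + c • Y g) (hc : Continuous fun g => Y (ev g)) {d : ℕ}
    (hcov : ∀ s L x f, 0 < s → GF.IsLor L → GF.IsTest f →
      Y f = ((s ^ d : ℝ) : ℂ) • Q.U s L x (Y fun z => f (sim s L x z)))
    {X : V → V} {r : ℝ} (hX : IsSim r X) {f : Fn} (hf : GF.IsTest f) :
    A X (Y f) = Complex.I • (((d * r : ℝ) : ℂ) • Y f + Y (vf X f)) := by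
  obtain ⟨c, w, hw, hX⟩ := hX
  obtain ⟨s, L, a, K⟩ := exists_crv hw r c
  obtain ⟨F, rfl⟩ := exists_fl hf
  set ψ : ℝ → D := fun e => ((s e ^ d : ℝ) : ℂ) • Y (fl (K.cs F e)) with hψ
  have dψ : HasDerivAt ψ (((d * r : ℝ) : ℂ) • Y (fl F) + Y (fl (vfS w r c F))) 0 := by
    have h2 := K.der ((ycl Y hl hc).restrictScalars ℝ) F
    have h3 : HasDerivAt (fun e => s e ^ d) (d * r) 0 := by
      have := K.ds.pow d
      rw [K.s0, one_pow, mul_one] at this
      exact this
    have h4 := h3.smul h2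
    rw [K.cs_zero, K.s0, one_pow, one_smul, add_comm] at h4
    exact h4
  have h1 := der_U h K hX dψ
  have h2 : (fun e => Q.U (s e) (L e) (a e) (ψ e)) = fun _ => Y (fl F) := by
    funext e
    rw [hψ]
    simp only
    rw [U_smul (K.sp e) (K.lor e)]
    have h3 := hcov (s e) (L e) (a e) (fl F) (K.sp e) (K.lor e) (isTest_fl F)
    rw [fl_sim (s e) (K.sp e) (K.lor e)] at h3
    exact h3.symm
  rw [h2] at h1
  have h3 := h1.unique (hasDerivAt_const _ _)
  have h4 : ψ 0 = Y (fl F) := by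
    simp only [hψ, K.cs_zero, K.s0, one_pow, ofReal_one, one_smul]
  rw [h4] at h3
  rw [← fl_vfS hX]
  have h5 := congrArg (fun u => (-I) • u) h3
  simp only [smul_add, smul_smul, smul_zero] at h5
  have e2 : -I * I = 1 := by rw [neg_mul, I_mul_I, neg_neg]
  rw [e2, one_smul] at h5
  have h6 := eq_neg_of_add_eq_zero_left h5
  rw [h6]
  simp only [smul_add, smul_smul, neg_mul, neg_smul, neg_add, neg_neg]

end Vale.Agent.P352.H746

end
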