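import Vale.Agent.P352.H746.Chg
import Vale.Agent.P352.H246.Cov

/-!
# The stress tensor of a theory is a stress tensor for every enlargement of the theory
-/

set_option linter.all false

noncomputable section

open MeasureTheory SchwartzMap Complex Filter Topology
open scoped SchwartzMap ComplexConjugate ENNReal LineDeriv

namespace Vale.Agent.P352.H746

open GF (Ix V Fn Sch ev pd bar sim bas o)
open H755 (Tst dr Tst.fl pd_real)
open H246 H731 H15

variable {D : Type*} [NormedAddCommGroup D] [InnerProductSpace ℂ D]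
variable {Q Q' : GF.Theory D} {T : Ix → Ix → GF.Fld D}

lemma pw_enl (hE : IsEnl Q Q') {W : Set Mink} {v : D} (hv : PW Q W v) : PW Q' W v := by
  induction hv with
  | vac => rw [← hE.vac]; exact .vac
  | add _ _ h1 h2 => exact .add h1 h2
  | smul c _ h => exact .smul c h
  | fld hB hg _ h => exact .fld (hE.fld _ hB) hg h

lemma Dv_enl (hE : IsEnl Q Q') (m : Ix) (v : D) : Dv Q' m v = Dv Q m v := by
  unfold Dv
  rw [hE.U]

lemma tloc_enl (hE : IsEnl Q Q') (hT : Q.IsStress T) {B : GF.Fld D} (hB : Q'.fld B)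
    (f : 𝓢(Mink, ℂ)) : TLoc Q T B f where
  addv v w := fld_add hB f v w
  loc m n F v h := Q'.loc (T m n) B _ _ v (hE.bose _ (hT.bose m n)) hB (isTest_fl _)
    (isTest_fl _) (sep_fl h)

/-- skew symmetry of the derivatives -/
lemma Dv_skew {v w : D} (m : Ix) (hv : PW Q Set.univ v) (hw : PW Q Set.univ w) :
    inner ℂ (Dv Q m v) w = -inner ℂ v (Dv Q m w) := by
  have h1 := (hasDeriv m hv).inner ℂ (hasDeriv m hw)
  have h2 : (fun t : ℝ => inner ℂ (U1 Q (t • eb m) v) (U1 Q (t • eb m) w)) =
      fun _ => inner ℂ v w := by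
    funext t
    exact Q.U_inner _ _ _ v w one_pos isLor_one
  rw [h2] at h1
  have h3 := h1.unique (hasDerivAt_const _ _)
  simp only [zero_smul] at h3
  have h4 : ∀ u : D, U1 Q (0 : Mink) u = u := fun u => U1_zero_all (Q := Q) u
  rw [h4, h4] at h3
  linear_combination h3

/-- the time scaled charges converge on polynomial vectors -/
theorem gr_tend (hT : Q.IsStress T) (n : Ix) {v : D} (hv : PW Q Set.univ v) (w : D) :
    Tendsto (fun R => inner ℂ w (T o n (fl (GR R)) v)) atTop
      (𝓝 (inner ℂ w (-(I * GF.eta n) • Dv Q n v))) := by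
  induction hv generalizing w with
  | vac =>
    rw [Dv_vac, smul_zero]
    exact tendsto_const_nhds.inner (charge_vac hT o n)
  | @add v1 v2 h1 h2 t1 t2 =>
    have e : ∀ R, T o n (fl (GR R)) (v1 + v2) = T o n (fl (GR R)) v1 + T o n (fl (GR R)) v2 :=
      fun R => fld_add (Q.bose_fld _ (hT.bose o n)) _ _ _
    simp only [e, Dv_add n h1 h2, smul_add, inner_add_right]
    exact (t1 w).add (t2 w)
  | @smul c v1 h1 t1 =>
    have e : ∀ R, T o n (fl (GR R)) (c • v1) = c • T o n (fl (GR R)) v1 :=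
      fun R => P352.fld_smul (Q.bose_fld _ (hT.bose o n)) _ _ _
    rw [Dv_smul n c h1, smul_comm]
    simp only [e, inner_smul_right _ _ c]
    exact (t1 w).const_mul c
  | @fld B g v1 hB hg h1 t1 =>
    obtain ⟨B', hB', hadj⟩ := Q.adj B hB
    obtain ⟨R0, hR0⟩ := charge_fld hT hg.1
    have hz : ∀ u z : D, inner ℂ z (B (fl g) u) = inner ℂ (B' (bar (fl g)) z) u := by
      intro u z
      have h1 := hadj (fl g) u z (isTest_fl g)
      rw [← inner_conj_symm, h1, inner_conj_symm]
    have h2 : Tendsto (fun R => inner ℂ (B' (bar (fl g)) w) (T o n (fl (GR R)) v1) +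
        inner ℂ w ((I * GF.eta n) • B (fl (∂_{eb n} g : 𝓢(Mink, ℂ))) v1)) atTop
        (𝓝 (inner ℂ (B' (bar (fl g)) w) (-(I * GF.eta n) • Dv Q n v1) +
          inner ℂ w ((I * GF.eta n) • B (fl (∂_{eb n} g : 𝓢(Mink, ℂ))) v1))) :=
      (t1 _).add tendsto_const_nhds
    have e1 : inner ℂ (B' (bar (fl g)) w) (-(I * GF.eta n) • Dv Q n v1) +
          inner ℂ w ((I * GF.eta n) • B (fl (∂_{eb n} g : 𝓢(Mink, ℂ))) v1) =
          inner ℂ w (-(I * GF.eta n) • Dv Q n (B (fl g) v1)) := by
      rw [Dv_fld n hB hg h1, ← hz, ← inner_add_right]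
      congr 1
      rw [P352.fld_smul hB, fld_negf hB]
      simp only [smul_add, smul_neg, neg_smul]
      abel
    rw [e1] at h2
    refine h2.congr' ?_
    filter_upwards [eventually_ge_atTop R0] with R hR
    rw [hR0 B hB n v1 R hR, inner_add_right, hz]

/-- the commutator with the charge is the translation -/
theorem com_enl (hE : IsEnl Q Q') (hT : Q.IsStress T) {f : 𝓢(Mink, ℂ)}
    (hf : HasCompactSupport f) : ∃ R0 : ℝ, ∀ (B : GF.Fld D), Q'.fld B → ∀ (n : Ix) (v : D) R,
    R0 ≤ R → T o n (fl (GR R)) (B (fl f) v) - B (fl f) (T o n (fl (GR R)) v) =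
      (I * GF.eta n) • B (fl (∂_{eb n} f : 𝓢(Mink, ℂ))) v := by
  obtain ⟨R0, h1, hc⟩ := com_const (Q := Q) hT hf
  refine ⟨R0, fun B hB n v R hR => ?_⟩
  have hP := tloc_enl hE hT hB f
  obtain ⟨B', hB', hadj⟩ := Q'.adj B hB
  have hz : ∀ (g : 𝓢(Mink, ℂ)) (u z : D), inner ℂ z (B (fl g) u) =
      inner ℂ (B' (bar (fl g)) z) u := by
    intro g u z
    have h1 := hadj (fl g) u z (isTest_fl g)
    rw [← inner_conj_symm, h1, inner_conj_symm]
  have hTz : ∀ (R : ℝ) (u z : D), inner ℂ z (T o n (fl (GR R)) u) =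
      inner ℂ (T o n (fl (GR R)) z) u := by
    intro R u z
    have h1 := hT.herm o n (fl (GR R)) z u (isTest_fl _)
    rw [bar_fl, conj_GR] at h1
    exact h1.symm
  set C : D → D := fun v => T o n (fl (GR R)) (B (fl f) v) - B (fl f) (T o n (fl (GR R)) v)
    with hC
  have hconst : ∀ (v : D) R', R0 ≤ R' →
      T o n (fl (GR R')) (B (fl f) v) - B (fl f) (T o n (fl (GR R')) v) = C v := by
    intro v R' hR'
    have h2 := hc B hP n v R R hR hR (by linarith [h1, hR] : R ≠ 0)
    have h3 := hc B hP n v R' R hR' hR (by linarith [h1, hR] : R ≠ 0)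
    have h4 : T o n (fl (GR R)) (B (fl f) v) - B (fl f) (T o n (fl (GR R)) v) =
        Zc hT hP n v 0 (F1 R (by linarith [h1, hR] : R ≠ 0)) := h2
    have h5 : T o n (fl (GR R')) (B (fl f) v) - B (fl f) (T o n (fl (GR R')) v) =
        Zc hT hP n v 0 (F1 R (by linarith [h1, hR] : R ≠ 0)) := h3
    rw [hC]
    simp only
    rw [h4, h5]
  -- matrix elements between polynomial vectors
  have key : ∀ v w, PW Q Set.univ v → PW Q Set.univ w →
      inner ℂ w (C v) = inner ℂ w ((I * GF.eta n) • B (fl (∂_{eb n} f : 𝓢(Mink, ℂ))) v) := by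
    intro v w hv hw
    have hv' := pw_enl hE hv
    have hw' := pw_enl hE hw
    have t1 := gr_tend hT n hv (B' (bar (fl f)) w)
    have t2 := gr_tend hT n hw (B (fl f) v)
    have t2' := (Complex.continuous_conj.tendsto _).comp t2
    have e1 : ∀ R', R0 ≤ R' → (starRingEnd ℂ) (inner ℂ (B (fl f) v) (T o n (fl (GR R')) w)) -
        inner ℂ (B' (bar (fl f)) w) (T o n (fl (GR R')) v) = inner ℂ w (C v) := by
      intro R' hR'
      rw [← hconst v R' hR', inner_sub_right, hTz, inner_conj_symm, hz]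
    have t3 := (t2'.sub t1).congr' (f₂ := fun _ => inner ℂ w (C v)) (by
      filter_upwards [eventually_ge_atTop R0] with R' hR'
      exact e1 R' hR')
    have e2 := tendsto_nhds_unique tendsto_const_nhds t3
    rw [e2, inner_conj_symm, inner_smul_left, inner_smul_right, ← hz, inner_smul_right]
    have hfT : IsTest Set.univ f := ⟨hf, Set.subset_univ _⟩
    have e3 := Dv_skew (Q := Q') n hw' (.fld hB hfT hv')
    rw [Dv_fld n hB hfT hv', Dv_enl hE, Dv_enl hE, inner_add_right, fld_negf hB,
      inner_neg_right] at e3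
    rw [e3]
    have e4 : (starRingEnd ℂ) (-(I * GF.eta n)) = I * GF.eta n := by
      simp
    rw [e4]
    ring
  have key2 : ∀ v, PW Q Set.univ v → C v = (I * GF.eta n) • B (fl (∂_{eb n} f : 𝓢(Mink, ℂ))) v := by
    intro v hv
    rw [← sub_eq_zero]
    refine PW.orth (Q := Q) fun w hw => ?_
    have h2 := key v w hv hw
    rw [← sub_eq_zero, ← inner_sub_right] at h2
    rw [← inner_conj_symm, h2, map_zero]
  -- the adjoint
  set C' : D → D := fun w => B' (bar (fl f)) (T o n (fl (GR R)) w) -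
    T o n (fl (GR R)) (B' (bar (fl f)) w) with hC'
  have hCC : ∀ v w, inner ℂ w (C v) = inner ℂ (C' w) v := by
    intro v w
    rw [hC, hC']
    simp only
    rw [inner_sub_right, inner_sub_left, hTz, hz, hz, hTz]
  set E : D → D := fun w => (starRingEnd ℂ) (I * GF.eta n) •
    B' (bar (fl (∂_{eb n} f : 𝓢(Mink, ℂ)))) w with hEd
  have hEE : ∀ v w, inner ℂ w ((I * GF.eta n) • B (fl (∂_{eb n} f : 𝓢(Mink, ℂ))) v) =
      inner ℂ (E w) v := by
    intro v w
    rw [hEd]
    simp only
    rw [inner_smul_right, inner_smul_left, Complex.conj_conj, hz]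
  have key3 : ∀ w, C' w = E w := by
    intro w
    rw [← sub_eq_zero]
    refine PW.orth (Q := Q) fun v hv => ?_
    rw [inner_sub_left, ← hCC, ← hEE, key2 v hv, sub_self]
  refine ext_inner_left ℂ fun w => ?_
  have h4 := hCC v w
  rw [key3 w, ← hEE] at h4
  exact h4

/-- the charges of the stress tensor generate the translations of all fields of the
enlargement -/
theorem isStress_enl (hE : IsEnl Q Q') (hT : Q.IsStress T) : Q'.IsStress T where
  bose m n := hE.bose _ (hT.bose m n)
  symm := hT.symm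
  herm := hT.herm
  cov m n s L a f v hs hL hf := by
    rw [hE.U]
    exact hT.cov m n s L a f v hs hL hf
  conserved := hT.conserved
  charge F n B f v w hF hB hf hfc := by
    obtain ⟨f, rfl⟩ := exists_fl hf
    have hfs : HasCompactSupport f := by
      have h1 : (f : Mink → ℂ) = fun x => fl f x.ofLp := rfl
      rw [h1]
      exact hfc.comp_homeomorph (EuclideanSpace.equiv (Fin 4) ℝ).toHomeomorph
    obtain ⟨R1, h1, hR1⟩ := two_cut hT hF isCutoff_cutF hfs
    obtain ⟨R2, h2, hR2⟩ := com_const (Q := Q) hT hfs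
    obtain ⟨R3, hR3⟩ := com_enl hE hT hfs
    have hP := tloc_enl hE hT hB f
    refine tendsto_const_nhds.congr' ?_
    filter_upwards [eventually_ge_atTop (max R1 (max R2 R3))] with R hR
    have g1 : R1 ≤ R := (le_max_left _ _).trans hR
    have g2 : R2 ≤ R := ((le_max_left _ _).trans (le_max_right _ _)).trans hR
    have g3 : R3 ≤ R := ((le_max_right _ _).trans (le_max_right _ _)).trans hR
    obtain ⟨G, G', hG, hG', hZ⟩ := hR1 R R g1 g1
    have hne : R ≠ 0 := by
      have : 0 < R := by linarith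
      exact this.ne'
    have e1 : G' = F1 R hne := by
      apply fl_inj
      rw [hG']
      simp only [cutF, dif_pos hne]
    have e2 := hZ B hP n v
    have e3 : T o n (fl G) (B (fl f) v) - B (fl f) (T o n (fl G) v) =
        T o n (fl (GR R)) (B (fl f) v) - B (fl f) (T o n (fl (GR R)) v) := by
      rw [e1, ← hR2 B hP n v R R g2 g2 hne] at e2
      exact e2
    rw [hR3 B hB n v R g3, hG] at e3
    rw [e3, pd_fl]

end Vale.Agent.P352.H746

end
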