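import Vale.Agent.P352.H496.Defs4

open MeasureTheory Filter Topology
open scoped ComplexConjugate

namespace Vale.Agent.P352.H746

open GF H246 H496 H755
open UniformSpace (Completion)

noncomputable section

variable {D : Type*} [NormedAddCommGroup D] [InnerProductSpace ℂ D]

/-- The null deformations leave the potential at the origin invariant:
`⟨l(0), S_a(s) v⟩ = ⟨l(0), v⟩`. -/
def Inv (S : V → ℝ → D → D) (l : Fn → Completion D) : Prop :=
  ∀ a s v c c', IsNull a → Val l v c → Val l (S a s v) c' → c' = c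

/-- The first order response of the potential to the null deformations `S a` is a Hilbert space
valued field: smeared with test functions it is bounded, `|∫ f(y)^* ⟨l(0), G_a U(-y) v⟩ dy| ≤
C ‖v‖`. -/
def Reg (Q : Theory D) (G : V → D → D) (l : Fn → Completion D) (a : V) : Prop :=
  ∀ f, IsTest f → ∃ C : ℝ, ∀ v (L : V → ℂ),
    (∀ y, Val l (G a (Q.U 1 GF.one (-y) v)) (L y)) → ‖∫ y, star (f y) * L y‖ ≤ C * ‖v‖

/-- The on-shell two dilaton amplitude for all vectors `v = J^m(g) Ω`, `g` with Fourier transform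
compactly supported in the open forward cone: when the cutoff of the source `σ(b·x)` is removed,
the amplitude tends to the contact term `-6i ∫ Φ''(a·y) σ'(b·y) ⟨l(y), v⟩ dy` of the on-shell
dilaton plus `k` times an explicit integral. -/
def TwoDilaton (Q : Theory D) (J : Ix → Fld D) (G : V → D → D) (l : Fn → Completion D)
    (κ : V → ℝ) (k : ℂ) : Prop :=
  ∀ (a b : V) (Φ σ : ℝ → ℝ) (m : Ix) (g : Fn) (L : V → ℂ), IsNull a → IsNull b →
    mdot a b = 1 → Tst Φ → Tst σ → IsTest g → Fwd g →
    (∀ y, Val l (Q.U 1 GF.one (-y) (J m g Q.vac)) (L y)) →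
    Tendsto (fun R => Amp Q J G a b Φ
      (fun i => dr i fun x => cut b a κ R x * σ (mdot b x)) (J m g Q.vac)) atTop
    (𝓝 (-6 * Complex.I *
        (∫ y : V, ((deriv (deriv Φ) (mdot a y) * deriv σ (mdot b y) : ℝ) : ℂ) * L y) +
      3 * k * ∫ y : V,
        ((a m * deriv (deriv (deriv Φ)) (mdot a y) * deriv σ (mdot b y) : ℝ) : ℂ) * g y))

end

end Vale.Agent.P352.H746
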