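import Vale.Agent.P352.H746.Br1
import Vale.Agent.P352.H746.Iff2
import Vale.Agent.P352.H148.BoxTh
import Vale.Agent.P352.H755.R7h
import Vale.Agent.P352.H496.Word
import Vale.Agent.P352.H496.Resp
import Vale.Agent.P352.H246.Ext

/-!
# Cutoffs of null planes, multiplied by a function of the affine parameter
-/

set_option linter.all false

noncomputable section

open MeasureTheory SchwartzMap Filter Topology
open scoped SchwartzMap ComplexConjugate ENNReal ContDiff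

namespace Vale.Agent.P352.H746

open GF (Ix V Fn Sch ev pd bar bas o eta)
open H246 H496 H846
open H755 (Tst dr cut bst isLor_bst sim_bst md_add md_sub md_smul md_comm md_add_l md_sub_l md_smul_l)
open H15 (ctf Adm)

/-- spacelike vectors in the coordinates of two null vectors -/
lemma sep_ab {a b : V} (ha : IsNull a) (hb : IsNull b) (hab : GF.mdot a b = 1) {z : V}
    (h : GF.mdot a z * GF.mdot b z < 0) : GF.mdot z z < 0 := by
  set w : V := z - GF.mdot a z • b - GF.mdot b z • a with hw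
  have hba : GF.mdot b a = 1 := by rw [md_comm]; exact hab
  have h1 : GF.mdot a w = 0 := by
    rw [hw, md_sub, md_sub, md_smul, md_smul, hab, ha.1]; ring
  have h2 := orth_nonpos ha h1
  have hz : z = w + GF.mdot a z • b + GF.mdot b z • a := by rw [hw]; abel
  have h3 : GF.mdot b w = 0 := by
    rw [hw, md_sub, md_sub, md_smul, md_smul, hba, hb.1]; ring
  have h4 : GF.mdot z z = GF.mdot w w + 2 * (GF.mdot a z * GF.mdot b z) := by
    have e : GF.mdot z z = GF.mdot (w + GF.mdot a z • b + GF.mdot b z • a)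
        (w + GF.mdot a z • b + GF.mdot b z • a) := by rw [← hz]
    rw [e]
    simp only [md_add, md_add_l, md_smul, md_smul_l, ha.1, hb.1, hab, hba, h1, h3, md_comm w a,
      md_comm w b]
    ring
  rw [h4]; linarith

/-- a smooth step -/
def chi (t : ℝ) : ℝ := Real.smoothTransition ((1 - t) / 2)

lemma chi_smooth : ContDiff ℝ ∞ chi := Real.smoothTransition.contDiff.comp (by fun_prop)

lemma chi_le {t : ℝ} (h : t ≤ -1) : chi t = 1 :=
  Real.smoothTransition.one_of_one_le (by linarith)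

lemma chi_ge {t : ℝ} (h : 1 ≤ t) : chi t = 0 :=
  Real.smoothTransition.zero_of_nonpos (by linarith)

lemma chi_nonneg (t : ℝ) : 0 ≤ chi t := Real.smoothTransition.nonneg _

lemma chi_le_one (t : ℝ) : chi t ≤ 1 := Real.smoothTransition.le_one _

/-- the d'Alembertian of a real function -/
def bx (g : V → ℝ) (x : V) : ℝ := ∑ i, eta i * dr i (dr i g) x

lemma tst_bx {g : V → ℝ} (hg : Tst g) : Tst (bx g) := by
  unfold bx
  exact Tst.sum fun i => ((hg.dr i).dr i).cmul (eta i)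

lemma bx_congr {f g : V → ℝ} {x : V} (h : f =ᶠ[𝓝 x] g) : bx f x = bx g x := by
  unfold bx
  refine Finset.sum_congr rfl fun i _ => ?_
  have key : ∀ {f g : V → ℝ} {y : V}, f =ᶠ[𝓝 y] g → dr i f y = dr i g y := by
    intro f g y h
    unfold H755.dr
    refine Filter.EventuallyEq.deriv_eq ?_
    have hc : Continuous fun t : ℝ => y + bas i t := by
      refine continuous_pi fun n => ?_
      simp only [Pi.add_apply, bas]
      split_ifs <;> fun_prop
    have h0 : y + bas i (0:ℝ) = y := by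
      funext n; simp [bas]
    have h3 : Tendsto (fun t : ℝ => y + bas i t) (𝓝 0) (𝓝 (y + bas i (0:ℝ))) := hc.tendsto 0
    rw [h0] at h3
    exact h3.eventually h
  have h2 : dr i f =ᶠ[𝓝 x] dr i g := by
    filter_upwards [h.eventuallyEq_nhds] with y hy
    exact key hy
  rw [key h2]

lemma bx_cmul (c : ℝ) (f : V → ℝ) (x : V) : bx (fun y => c * f y) x = c * bx f x := by
  unfold bx
  rw [Finset.mul_sum]
  refine Finset.sum_congr rfl fun i _ => ?_
  have h1 : dr i (fun y => c * f y) = fun y => c * dr i f y := by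
    funext y
    unfold H755.dr
    exact deriv_const_mul_field c
  have h2 : dr i (dr i (fun y => c * f y)) x = c * dr i (dr i f) x := by
    rw [h1]
    show deriv (fun t : ℝ => c * dr i f (x + bas i t)) 0 = _
    exact deriv_const_mul_field c
  rw [h2]; ring

section

variable {a b : V} (ha : IsNull a) (hb : IsNull b) (hab : GF.mdot a b = 1)
include ha hb hab

/-- the contraction onto the null plane -/
lemma cut_scale {R : ℝ} (hR : 0 < R) (ν : V → ℝ) (φ : ℝ → ℝ) (x : Mink) :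
    ∃ hL : GF.IsLor (bst a b (R⁻¹ - 1) (R - 1)), ∀ x : Mink,
      cut a b ν R x.ofLp * φ (GF.mdot a x.ofLp) =
      cut a b ν 1 (R⁻¹ • lam (bst a b (R⁻¹ - 1) (R - 1)) x).ofLp *
        φ (GF.mdot a (R⁻¹ • lam (bst a b (R⁻¹ - 1) (R - 1)) x).ofLp) := by
  have hL : GF.IsLor (bst a b (R⁻¹ - 1) (R - 1)) := by
    refine isLor_bst ha hb hab ?_ ?_
    · have := inv_pos.2 hR; linarith
    · field_simp; ring
  refine ⟨hL, fun x => ?_⟩
  have hba : GF.mdot b a = 1 := by rw [md_comm]; exact hab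
  have e0 : (R⁻¹ • lam (bst a b (R⁻¹ - 1) (R - 1)) x).ofLp =
      R⁻¹ • (x.ofLp + ((R⁻¹ - 1) * GF.mdot b x.ofLp) • a + ((R - 1) * GF.mdot a x.ofLp) • b) := by
    have h1 : (lam (bst a b (R⁻¹ - 1) (R - 1)) x).ofLp = GF.sim 1 (bst a b (R⁻¹ - 1) (R - 1)) 0
        x.ofLp := by
      funext n
      simp [GF.sim, lam_apply]
    rw [WithLp.ofLp_smul, h1, sim_bst]
  rw [e0]
  set y : V := x.ofLp
  have hRi : R⁻¹ * R = 1 := inv_mul_cancel₀ hR.ne'
  have e1 : GF.mdot a (R⁻¹ • (y + ((R⁻¹ - 1) * GF.mdot b y) • a + ((R - 1) * GF.mdot a y) • b)) =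
      GF.mdot a y := by
    rw [md_smul, md_add, md_add, md_smul, md_smul, ha.1, hab]
    linear_combination GF.mdot a y * hRi
  have e2 : GF.mdot b (R⁻¹ • (y + ((R⁻¹ - 1) * GF.mdot b y) • a + ((R - 1) * GF.mdot a y) • b)) =
      GF.mdot b y / R ^ 2 := by
    rw [md_smul, md_add, md_add, md_smul, md_smul, hb.1, hba]
    field_simp
    ring
  have e3 : cut a b ν 1 (R⁻¹ • (y + ((R⁻¹ - 1) * GF.mdot b y) • a +
      ((R - 1) * GF.mdot a y) • b)) = cut a b ν R y := by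
    unfold H755.cut
    rw [e1, e2]
    congr 1
    funext n
    simp only [Pi.add_apply, Pi.sub_apply, Pi.smul_apply, smul_eq_mul]
    field_simp
    ring
  rw [e1, e3]

/-- `L²` norms of the cutoffs -/
lemma cut_int {R : ℝ} (hR : 0 < R) (ν : V → ℝ) (φ : ℝ → ℝ) :
    ∫ x : Mink, (cut a b ν R x.ofLp * φ (GF.mdot a x.ofLp)) ^ 2 =
      R ^ 4 * ∫ x : Mink, (cut a b ν 1 x.ofLp * φ (GF.mdot a x.ofLp)) ^ 2 := by
  obtain ⟨hL, h⟩ := cut_scale ha hb hab hR ν φ 0
  have h1 := int_sim (inv_pos.2 hR) hL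
    (fun x : Mink => (((cut a b ν 1 x.ofLp * φ (GF.mdot a x.ofLp)) ^ 2 : ℝ) : ℂ))
  have h2 : ∀ x : Mink, ((((cut a b ν 1 (R⁻¹ • lam (bst a b (R⁻¹ - 1) (R - 1)) x).ofLp *
      φ (GF.mdot a (R⁻¹ • lam (bst a b (R⁻¹ - 1) (R - 1)) x).ofLp)) ^ 2 : ℝ) : ℂ)) =
      (((cut a b ν R x.ofLp * φ (GF.mdot a x.ofLp)) ^ 2 : ℝ) : ℂ) := by
    intro x
    rw [← h x]
  simp only [h2] at h1
  have e1 : ∫ x : Mink, (((cut a b ν R x.ofLp * φ (GF.mdot a x.ofLp)) ^ 2 : ℝ) : ℂ) =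
      ((∫ x : Mink, (cut a b ν R x.ofLp * φ (GF.mdot a x.ofLp)) ^ 2 : ℝ) : ℂ) := integral_ofReal
  have e2 : ∫ x : Mink, (((cut a b ν 1 x.ofLp * φ (GF.mdot a x.ofLp)) ^ 2 : ℝ) : ℂ) =
      ((∫ x : Mink, (cut a b ν 1 x.ofLp * φ (GF.mdot a x.ofLp)) ^ 2 : ℝ) : ℂ) := integral_ofReal
  rw [e1, e2] at h1
  have h3 : ((R⁻¹ ^ 4)⁻¹ : ℝ) = R ^ 4 := by rw [inv_pow, inv_inv]
  rw [h3] at h1
  exact_mod_cast h1

end

/-- the cut off profiles leave compact sets -/
lemma cv_small (a b : V) (r : ℝ) {δ : ℝ} (hδ : 0 < δ) : ∀ᶠ R : ℝ in atTop, ∀ x : V, ‖x‖ ≤ r →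
    ‖cv a b R x‖ < δ := by
  have hc1 : Continuous fun x : V => GF.mdot b x • a :=
    ((contDiff_mdot b).continuous).smul continuous_const
  have hc2 : Continuous fun x : V => x - GF.mdot a x • b - GF.mdot b x • a :=
    (continuous_id.sub (((contDiff_mdot a).continuous).smul continuous_const)).sub hc1
  obtain ⟨C1, hC1⟩ := (isCompact_closedBall (0:V) r).exists_bound_of_continuousOn hc1.continuousOn
  obtain ⟨C2, hC2⟩ := (isCompact_closedBall (0:V) r).exists_bound_of_continuousOn hc2.continuousOn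
  have h1 : Tendsto (fun R : ℝ => (R ^ 2)⁻¹ * |C1| + R⁻¹ * |C2|) atTop (𝓝 0) := by
    have t1 : Tendsto (fun R : ℝ => R⁻¹) atTop (𝓝 0) := tendsto_inv_atTop_zero
    have t2 : Tendsto (fun R : ℝ => (R ^ 2)⁻¹) atTop (𝓝 0) :=
      tendsto_inv_atTop_zero.comp (tendsto_pow_atTop two_ne_zero)
    have := (t2.mul_const |C1|).add (t1.mul_const |C2|)
    simpa using this
  filter_upwards [h1.eventually (gt_mem_nhds hδ), eventually_gt_atTop 0] with R hR hR0 x hx
  refine lt_of_le_of_lt ?_ hR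
  have k1 := hC1 x (by rwa [mem_closedBall_zero_iff])
  have k2 := hC2 x (by rwa [mem_closedBall_zero_iff])
  have e : cv a b R x = (R ^ 2)⁻¹ • (GF.mdot b x • a) +
      R⁻¹ • (x - GF.mdot a x • b - GF.mdot b x • a) := by
    unfold cv
    rw [smul_smul, div_eq_inv_mul]
  rw [e]
  refine (norm_add_le _ _).trans ?_
  rw [norm_smul ((R ^ 2)⁻¹), norm_smul R⁻¹, Real.norm_of_nonneg (r := (R ^ 2)⁻¹) (by positivity),
    Real.norm_of_nonneg (r := R⁻¹) (by positivity)]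
  exact add_le_add (mul_le_mul_of_nonneg_left (k1.trans (le_abs_self _)) (by positivity))
    (mul_le_mul_of_nonneg_left (k2.trans (le_abs_self _)) (by positivity))

lemma cut_zero {a b : V} {ν : V → ℝ} (hν : ∀ᶠ z in 𝓝 0, ν z = 0) (r : ℝ) :
    ∀ᶠ R : ℝ in atTop, ∀ x : V, ‖x‖ ≤ r → cut a b ν R x = 0 := by
  obtain ⟨δ, hδ, h⟩ := Metric.eventually_nhds_iff_ball.1 hν
  filter_upwards [cv_small a b r hδ] with R hR x hx
  rw [cut_cv]
  refine h _ ?_
  rw [mem_ball_zero_iff]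
  exact hR x hx

section

variable {a b : V} {κ : V → ℝ} {ψ : ℝ → ℝ} (hA : Adm a b κ ψ)
include hA

lemma bx_ctf (R : ℝ) (x : V) : bx (ctf a b κ 0 ψ R) x =
    (R ^ 2)⁻¹ * (2 * (cut a b (H148.Da a κ) R x * deriv ψ (GF.mdot a x)) +
      cut a b (H148.Lap a b κ) R x * ψ (GF.mdot a x)) := by
  have h1 := H148.E2 hA.1.1 hA.2.1.1 hA.2.2.1 hA.2.2.2.2.2.1 hA.2.2.2.1.1 R x
  have e : (fun x => ψ (GF.mdot a x) * cut a b κ R x) = ctf a b κ 0 ψ R := by
    funext x
    rw [ctf0]; ring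
  rw [e] at h1
  unfold bx
  rw [h1]
  ring

/-- the d'Alembertians of the cutoffs are bounded in `L²` -/
lemma bx_L2 : ∃ M : ℝ, ∀ R : ℝ, 1 ≤ R →
    ∫ x : Mink, (bx (ctf a b κ 0 ψ R) x.ofLp) ^ 2 ≤ M := by
  have ha := hA.1
  have hb := hA.2.1
  have hab := hA.2.2.1
  have hκ := hA.2.2.2.1
  have hψ := hA.2.2.2.2.2
  have hψ' : Tst (deriv ψ) := H746.tder hψ
  set I1 := ∫ x : Mink, (cut a b (H148.Da a κ) 1 x.ofLp * deriv ψ (GF.mdot a x.ofLp)) ^ 2
  set I2 := ∫ x : Mink, (cut a b (H148.Lap a b κ) 1 x.ofLp * ψ (GF.mdot a x.ofLp)) ^ 2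
  refine ⟨2 * (4 * I1) + 2 * I2, fun R hR => ?_⟩
  have hR0 : 0 < R := by linarith
  have t1 : Tst fun x => cut a b (H148.Da a κ) R x * deriv ψ (GF.mdot a x) :=
    cut_tst ha.1 hb.1 hab (H148.tst_Da hκ a) hψ' hR
  have t2 : Tst fun x => cut a b (H148.Lap a b κ) R x * ψ (GF.mdot a x) :=
    cut_tst ha.1 hb.1 hab (H148.tst_Lap hκ a b) hψ hR
  have int2 : ∀ {g : V → ℝ}, Tst g → Integrable fun x : Mink => (g x.ofLp) ^ 2 := by
    intro g hg
    have hc : Continuous fun x : Mink => (g x.ofLp) ^ 2 :=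
      (hg.cont.comp (by fun_prop : Continuous fun x : Mink => x.ofLp)).pow 2
    refine hc.integrable_of_hasCompactSupport ?_
    have h1 : HasCompactSupport fun x : Mink => g x.ofLp :=
      hg.2.comp_homeomorph (EuclideanSpace.equiv (Fin 4) ℝ).toHomeomorph
    exact h1.comp_left (g := fun r : ℝ => r ^ 2) (by simp)
  have j1 := cut_int ha hb hab hR0 (H148.Da a κ) (deriv ψ)
  have j2 := cut_int ha hb hab hR0 (H148.Lap a b κ) ψ
  have hle : ∀ x : Mink, (bx (ctf a b κ 0 ψ R) x.ofLp) ^ 2 ≤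
      (R ^ 4)⁻¹ * (2 * (4 * (cut a b (H148.Da a κ) R x.ofLp * deriv ψ (GF.mdot a x.ofLp)) ^ 2) +
        2 * (cut a b (H148.Lap a b κ) R x.ofLp * ψ (GF.mdot a x.ofLp)) ^ 2) := by
    intro x
    rw [bx_ctf hA, mul_pow]
    have e : ((R ^ 2)⁻¹) ^ 2 = (R ^ 4)⁻¹ := by rw [← inv_pow, ← pow_mul, inv_pow]
    rw [e]
    refine mul_le_mul_of_nonneg_left ?_ (by positivity)
    nlinarith [sq_nonneg (2 * (cut a b (H148.Da a κ) R x.ofLp * deriv ψ (GF.mdot a x.ofLp)) -
      cut a b (H148.Lap a b κ) R x.ofLp * ψ (GF.mdot a x.ofLp))]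
  have tb : Tst (bx (ctf a b κ 0 ψ R)) := tst_bx (by
    have h1 := cut_tst ha.1 hb.1 hab hκ hψ hR
    refine (congrArg Tst (funext fun x => ?_)).mp h1
    rw [ctf0])
  calc ∫ x : Mink, (bx (ctf a b κ 0 ψ R) x.ofLp) ^ 2
      ≤ ∫ x : Mink, (R ^ 4)⁻¹ * (2 * (4 * (cut a b (H148.Da a κ) R x.ofLp *
        deriv ψ (GF.mdot a x.ofLp)) ^ 2) +
        2 * (cut a b (H148.Lap a b κ) R x.ofLp * ψ (GF.mdot a x.ofLp)) ^ 2) :=
        integral_mono (int2 tb)
          (((((int2 t1).const_mul 4).const_mul 2).add ((int2 t2).const_mul 2)).const_mul _) hle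
    _ = (R ^ 4)⁻¹ * (2 * (4 * (R ^ 4 * I1)) + 2 * (R ^ 4 * I2)) := by
        rw [integral_const_mul, integral_add (((int2 t1).const_mul 4).const_mul 2)
          ((int2 t2).const_mul 2), integral_const_mul, integral_const_mul, integral_const_mul,
          j1, j2]
    _ = 2 * (4 * I1) + 2 * I2 := by
        have : R ^ 4 ≠ 0 := by positivity
        field_simp

/-- and leave every compact set -/
lemma bx_zero (r : ℝ) : ∀ᶠ R : ℝ in atTop, ∀ x : V, ‖x‖ ≤ r → bx (ctf a b κ 0 ψ R) x = 0 := by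
  have hκ1 := hA.2.2.2.2.1
  have h1 : ∀ᶠ z in 𝓝 (0:V), H148.Da a κ z = 0 := H148.Da_const (c := 1) hκ1 a
  have h2 : ∀ᶠ z in 𝓝 (0:V), H148.Lap a b κ z = 0 := H148.Lap_const (c := 1) hκ1 a b
  filter_upwards [cut_zero (a := a) (b := b) h1 r, cut_zero (a := a) (b := b) h2 r] with R h1 h2 x hx
  rw [bx_ctf hA, h1 x hx, h2 x hx]
  ring

end

end Vale.Agent.P352.H746

end
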