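import Vale.Agent.P352.H746.Br4
import Vale.Agent.P352.H121.Vir

/-!
# Null plane integrals of the trace in theories with null deformations
-/

set_option linter.all false

noncomputable section

open MeasureTheory SchwartzMap Filter Topology
open scoped SchwartzMap ComplexConjugate ENNReal ContDiff

namespace Vale.Agent.P352.H746

open GF (Ix V Fn Sch ev pd bar bas o eta)
open H246 H496 H846
open H755 (Tst dr cut md_sub Xw_sim const_sim)
open H15 (ctf Adm NullCharges)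
open UniformSpace (Completion)

variable {D : Type*} [NormedAddCommGroup D] [InnerProductSpace ℂ D]
variable {Q : GF.Theory D} {T : Ix → Ix → GF.Fld D} {J : Ix → GF.Fld D}
  {A : (V → V) → D → D} {K : V → D → D}

/-- the smeared deviation -/
def Ph (Q : GF.Theory D) (A : (V → V) → D → D) (K : V → D → D) (a b : V) (G : ℝ → ℝ)
    (v w : D) : ℂ := ∫ u, ((G u : ℝ) : ℂ) * kh Q A K a b v w u

section

variable (h : NullCharges Q T J A K) {a b : V} (ha : IsNull a) (hb : IsNull b) {G : ℝ → ℝ}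
  (hG : Tst G)
include h ha hb hG

lemma Ph_sub_right (v w w' : D) :
    Ph Q A K a b G v (w - w') = Ph Q A K a b G v w - Ph Q A K a b G v w' := by
  unfold Ph
  rw [← integral_sub (tst_intg hG (kh_cont h ha hb v w)) (tst_intg hG (kh_cont h ha hb v w'))]
  congr 1
  funext u
  unfold kh
  rw [inner_sub_left, inner_sub_left, inner_sub_left]
  ring

omit hb hG in
lemma Ph_bound {v : D} (hv : ∃ (C : ℝ) (m : ℕ), ∀ x, ‖K a (Q.U 1 GF.one x v)‖ ≤ C * (1 + ‖x‖) ^ m)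
    (hG : Tst G) : ∃ C : ℝ, ∀ w, ‖Ph Q A K a b G v w‖ ≤ C * ‖w‖ := by
  obtain ⟨C, m, hC⟩ := hv
  set p : ℝ → ℝ := fun u => C * (1 + ‖-(u • b)‖) ^ m + ‖2 * (u:ℂ)‖ * ‖A (H755.Xw a b) v‖ +
    ‖2 * (u:ℂ) ^ 2‖ * ‖A (fun _ => b) v‖ with hp
  have hpc : Continuous p := by rw [hp]; fun_prop
  have hint : Integrable fun u => ‖G u‖ * p u := by
    refine ((hG.1.continuous.norm).mul hpc).integrable_of_hasCompactSupport ?_
    exact HasCompactSupport.mul_right (hG.2.norm)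
  refine ⟨∫ u, ‖G u‖ * p u, fun w => ?_⟩
  rw [← integral_mul_const]
  refine norm_integral_le_of_norm_le (hint.mul_const _) (Eventually.of_forall fun u => ?_)
  have h1 : ‖kh Q A K a b v w u‖ ≤ p u * ‖w‖ := by
    unfold kh
    refine (norm_sub_le _ _).trans ?_
    refine (add_le_add (norm_add_le _ _) le_rfl).trans ?_
    rw [hp]
    show _ ≤ (C * (1 + ‖-(u • b)‖) ^ m + ‖2 * (u:ℂ)‖ * ‖A (H755.Xw a b) v‖ +
      ‖2 * (u:ℂ) ^ 2‖ * ‖A (fun _ => b) v‖) * ‖w‖
    rw [add_mul, add_mul]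
    refine add_le_add (add_le_add ?_ ?_) ?_
    · refine (norm_inner_le_norm _ _).trans ?_
      rw [mul_comm]
      refine mul_le_mul_of_nonneg_right ?_ (norm_nonneg _)
      have h2 : ‖Q.U 1 GF.one (u • b) (K a (Q.U 1 GF.one (-(u • b)) v))‖ =
          ‖K a (Q.U 1 GF.one (-(u • b)) v)‖ := by
        have h3 := Q.U_inner 1 GF.one (u • b) (K a (Q.U 1 GF.one (-(u • b)) v))
          (K a (Q.U 1 GF.one (-(u • b)) v)) one_pos isLor_one
        rw [inner_self_eq_norm_sq_to_K, inner_self_eq_norm_sq_to_K] at h3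
        have h4 : ‖Q.U 1 GF.one (u • b) (K a (Q.U 1 GF.one (-(u • b)) v))‖ ^ 2 =
          ‖K a (Q.U 1 GF.one (-(u • b)) v)‖ ^ 2 := by exact_mod_cast h3
        exact (sq_eq_sq₀ (norm_nonneg _) (norm_nonneg _)).1 h4
      rw [h2]
      exact hC _
    · rw [norm_mul, mul_assoc]
      refine mul_le_mul_of_nonneg_left ?_ (norm_nonneg _)
      rw [mul_comm]
      exact norm_inner_le_norm _ _
    · rw [norm_mul, mul_assoc]
      refine mul_le_mul_of_nonneg_left ?_ (norm_nonneg _)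
      rw [mul_comm]
      exact norm_inner_le_norm _ _
  rw [norm_mul, Complex.norm_real, mul_assoc]
  exact mul_le_mul_of_nonneg_left h1 (norm_nonneg _)

omit hG in
lemma Ph_conj (hT : Q.IsStress T) (v w : D) :
    Ph Q A K a b G v w = conj (Ph Q A K a b G w v) := by
  unfold Ph
  rw [← integral_conj]
  congr 1
  funext u
  rw [map_mul, Complex.conj_ofReal]
  congr 1
  unfold kh
  rw [map_sub, map_add, map_mul, map_mul, map_mul, map_mul, inner_conj_symm, inner_conj_symm,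
    inner_conj_symm, map_pow, Complex.conj_ofReal]
  have e1 : inner ℂ (Q.U 1 GF.one (u • b) (K a (Q.U 1 GF.one (-(u • b)) w))) v =
      inner ℂ w (Q.U 1 GF.one (u • b) (K a (Q.U 1 GF.one (-(u • b)) v))) := by
    have h1 : inner ℂ (Q.U 1 GF.one (u • b) (K a (Q.U 1 GF.one (-(u • b)) w))) v =
        inner ℂ (K a (Q.U 1 GF.one (-(u • b)) w)) (Q.U 1 GF.one (-(u • b)) v) := by
      rw [← inner_conj_symm, ← inner_U1, inner_conj_symm]
    rw [h1, H755.nc_symm hT h ha, inner_U1]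
  have e2 : inner ℂ (A (H755.Xw a b) w) v = inner ℂ w (A (H755.Xw a b) v) :=
    A_symm h.toRep (Xw_sim a b) w v
  have e3 : inner ℂ (A (fun _ => b) w) v = inner ℂ w (A (fun _ => b) v) :=
    A_symm h.toRep (const_sim b) w v
  rw [e1, e2, e3]
  have h2 : (starRingEnd ℂ) (2 : ℂ) = 2 := by
    have := Complex.conj_ofReal 2
    simpa using this
  rw [h2]

/-- extension by continuity -/
theorem Ph_zero (hT : Q.IsStress T)
    (hK : ∀ v, ∃ (C : ℝ) (m : ℕ), ∀ x, ‖K a (Q.U 1 GF.one x v)‖ ≤ C * (1 + ‖x‖) ^ m)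
    {P P' : D → Prop} (hP : ∀ v : D, ∀ ε > 0, ∃ x, P x ∧ ‖x - v‖ < ε)
    (hP' : ∀ v : D, ∀ ε > 0, ∃ x, P' x ∧ ‖x - v‖ < ε)
    (hz : ∀ x y, P x → P' y → Ph Q A K a b G x y = 0) (v w : D) : Ph Q A K a b G v w = 0 := by
  have key : ∀ {P : D → Prop}, (∀ v : D, ∀ ε > 0, ∃ x, P x ∧ ‖x - v‖ < ε) → ∀ v : D,
      (∀ y, P y → Ph Q A K a b G v y = 0) → ∀ w, Ph Q A K a b G v w = 0 := by
    intro P hP v hv w
    obtain ⟨C, hC⟩ := Ph_bound (b := b) h ha (hK v) hG
    by_contra hne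
    have hpos : 0 < ‖Ph Q A K a b G v w‖ := norm_pos_iff.2 hne
    have hC0 : 0 < |C| + 1 := by positivity
    obtain ⟨y, hy, hyw⟩ := hP w (‖Ph Q A K a b G v w‖ / (|C| + 1)) (by positivity)
    have e1 : Ph Q A K a b G v w = Ph Q A K a b G v (w - y) := by
      rw [Ph_sub_right h ha hb hG, hv y hy, sub_zero]
    have e2 := hC (w - y)
    rw [← e1] at e2
    rw [norm_sub_rev] at hyw
    have e3 : (|C| + 1) * ‖w - y‖ < ‖Ph Q A K a b G v w‖ := by
      rw [lt_div_iff₀ hC0] at hyw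
      linarith [hyw]
    have e4 : C * ‖w - y‖ ≤ (|C| + 1) * ‖w - y‖ :=
      mul_le_mul_of_nonneg_right (by linarith [le_abs_self C]) (norm_nonneg _)
    linarith
  refine key hP' v (fun y hy => ?_) w
  rw [Ph_conj h ha hb hT]
  rw [key hP y (fun x hx => ?_) v, map_zero]
  rw [Ph_conj h ha hb hT, hz x y hx hy, map_zero]

end

/-- null plane integrals of the trace vanish on the whole domain -/
theorem tr_of_dens (hT : Q.IsStress T) (hJ : IsVirial Q T J) (h : NullCharges Q T J A K)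
    {l : Fn → Completion D} (hl : IsPot Q T l) (hR : Herm Q l)
    (hK : ∀ a, IsNull a → ∀ v, ∃ (C : ℝ) (m : ℕ), ∀ x,
      ‖K a (Q.U 1 GF.one x v)‖ ≤ C * (1 + ‖x‖) ^ m)
    (hWA : ∀ a b M, IsNull a → IsNull b → GF.mdot a b = 1 → ∀ v : D, ∀ ε > 0, ∃ X X',
      Al Q (WA a b M) X X' ∧ ‖X Q.vac - v‖ < ε)
    (hWB : ∀ a b M, IsNull a → IsNull b → GF.mdot a b = 1 → ∀ v : D, ∀ ε > 0, ∃ X X',
      Al Q (WB a b M) X X' ∧ ‖X Q.vac - v‖ < ε) : H121.TrNull T := by
  have key : ∀ a b κ ψ v w, Adm a b κ ψ →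
      ∫ u, ((deriv (deriv ψ) u : ℝ) : ℂ) * kh Q A K a b v w u = 0 := by
    intro a b κ ψ v w hA
    obtain ⟨r, hr⟩ := (hA.2.2.2.2.2.2.isCompact).isBounded.subset_closedBall (0:ℝ)
    have hM : ∀ t, r < |t| → ψ t = 0 := by
      intro t ht
      by_contra hne
      have h1 := hr (subset_tsupport _ (Function.mem_support.2 hne))
      rw [mem_closedBall_zero_iff, Real.norm_eq_abs] at h1
      linarith
    refine Ph_zero h hA.1 hA.2.1 (H746.tder (H746.tder hA.2.2.2.2.2)) hT (hK a hA.1)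
      (P := fun x => ∃ X X', Al Q (WA a b r) X X' ∧ x = X Q.vac)
      (P' := fun x => ∃ X X', Al Q (WB a b r) X X' ∧ x = X Q.vac) ?_ ?_ ?_ v w
    · intro v ε hε
      obtain ⟨X, X', hX, h1⟩ := hWA a b r hA.1 hA.2.1 hA.2.2.1 v ε hε
      exact ⟨_, ⟨X, X', hX, rfl⟩, h1⟩
    · intro v ε hε
      obtain ⟨X, X', hX, h1⟩ := hWB a b r hA.1 hA.2.1 hA.2.2.1 v ε hε
      exact ⟨_, ⟨X, X', hX, rfl⟩, h1⟩
    · rintro x y ⟨X, X', hX, rfl⟩ ⟨Y, Y', hY, rfl⟩
      exact br_kh hT hJ h hl hR hA hM hX hY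
  intro a b κ y ψ v w hA
  have hs : Tst fun u => ψ (u + GF.mdot a y) := tst_shift hA.2.2.2.2.2 _
  have h1 := tg_lim hT hJ h (adm_of hA hs) (Q.U 1 GF.one (-y) v) (Q.U 1 GF.one (-y) w)
  rw [key a b κ _ _ _ (adm_of hA hs), mul_zero, neg_zero] at h1
  refine h1.congr' ?_
  filter_upwards [eventually_ge_atTop (1:ℝ)] with R hR
  exact tgy hT hA y hR v w

end Vale.Agent.P352.H746

end
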