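import Vale.Agent.P352.H746.Nec1
import Vale.Agent.P352.H746.Br6
import Vale.Agent.P352.H496.Br5
import Vale.Agent.P352.H496.InvC

/-!
# A traceless improvement implies the on-shell dilaton constraint
-/

set_option linter.all false

noncomputable section

open MeasureTheory SchwartzMap Filter Topology
open scoped SchwartzMap ComplexConjugate ENNReal ContDiff

namespace Vale.Agent.P352.H746

open GF (Ix V Fn Sch ev pd bar bas o eta)
open H246 H496 H846
open H755 (Tst dr cut md_sub Xw_sim const_sim)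
open H15 (ctf Adm NullCharges IsEnl)
open UniformSpace (Completion)

variable {D : Type*} [NormedAddCommGroup D] [InnerProductSpace ℂ D]
variable {Q Q' : GF.Theory D} {T : Ix → Ix → GF.Fld D} {J : Ix → GF.Fld D}
  {A : (V → V) → D → D} {K : V → D → D} {L : GF.Fld D}

/-- the vector of the deviation -/
def kv (Q : GF.Theory D) (A : (V → V) → D → D) (K : V → D → D) (a b : V) (v : D) (u : ℝ) : D :=
  Q.U 1 GF.one (u • b) (K a (Q.U 1 GF.one (-(u • b)) v)) +
    (2 * u : ℂ) • (A (H755.Xw a b) v) - (2 * u ^ 2 : ℂ) • A (fun _ => b) v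

lemma kh_kv (a b : V) (v w : D) (u : ℝ) : kh Q A K a b v w u = inner ℂ w (kv Q A K a b v u) := by
  unfold kh kv
  rw [inner_sub_right, inner_add_right, inner_smul_right, inner_smul_right]

/-- hermiticity of the deviation -/
lemma kh_conj (hT : Q.IsStress T) (h : NullCharges Q T J A K) {a b : V} (ha : IsNull a)
    (v w : D) (u : ℝ) : kh Q A K a b v w u = conj (kh Q A K a b w v u) := by
  unfold kh
  rw [map_sub, map_add, map_mul, map_mul, map_mul, map_mul, inner_conj_symm, inner_conj_symm,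
    inner_conj_symm, map_pow, Complex.conj_ofReal]
  have e1 : inner ℂ (Q.U 1 GF.one (u • b) (K a (Q.U 1 GF.one (-(u • b)) w))) v =
      inner ℂ w (Q.U 1 GF.one (u • b) (K a (Q.U 1 GF.one (-(u • b)) v))) := by
    have h1 : inner ℂ (Q.U 1 GF.one (u • b) (K a (Q.U 1 GF.one (-(u • b)) w))) v =
        inner ℂ (K a (Q.U 1 GF.one (-(u • b)) w)) (Q.U 1 GF.one (-(u • b)) v) := by
      rw [← inner_conj_symm, ← inner_U1, inner_conj_symm]
    rw [h1, H755.nc_symm hT h ha, inner_U1]
  have e2 : inner ℂ (A (H755.Xw a b) w) v = inner ℂ w (A (H755.Xw a b) v) :=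
    A_symm h.toRep (Xw_sim a b) w v
  have e3 : inner ℂ (A (fun _ => b) w) v = inner ℂ w (A (fun _ => b) v) :=
    A_symm h.toRep (const_sim b) w v
  rw [e1, e2, e3]
  have h2 : (starRingEnd ℂ) (2 : ℂ) = 2 := by
    have := Complex.conj_ofReal 2
    simpa using this
  rw [h2]

/-- a vector orthogonal to a dense set vanishes -/
lemma zero_of_dens {P : D → Prop} (hP : ∀ v : D, ∀ ε > 0, ∃ x, P x ∧ ‖x - v‖ < ε) {d : D}
    (h : ∀ y, P y → inner ℂ y d = 0) : d = 0 := by
  by_contra hne
  have hpos : 0 < ‖d‖ := norm_pos_iff.2 hne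
  obtain ⟨y, hy, h1⟩ := hP d ‖d‖ hpos
  have h2 := h y hy
  have h3 : inner ℂ d d = inner ℂ (d - y) d := by rw [inner_sub_left, h2, sub_zero]
  have h4 : ‖(inner ℂ d d : ℂ)‖ = ‖d‖ * ‖d‖ := by
    rw [inner_self_eq_norm_sq_to_K]
    simp [sq]
  have h5 : ‖(inner ℂ (d - y) d : ℂ)‖ ≤ ‖d - y‖ * ‖d‖ := norm_inner_le_norm _ _
  rw [← h3, h4] at h5
  rw [norm_sub_rev] at h1
  nlinarith

/-- the second differences of the deviation vanish -/
theorem sd_kh (hT : Q.IsStress T) (hJ : IsVirial Q T J) (h : NullCharges Q T J A K)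
    {l : Fn → Completion D} (hl : IsPot Q T l) (hR : Herm Q l) {a b : V} (ha : IsNull a)
    (hb : IsNull b) (hab : GF.mdot a b = 1) (v w : D) (u t : ℝ) :
    kh Q A K a b v w (u + t) + kh Q A K a b v w (u - t) = 2 * kh Q A K a b v w u := by
  set M : ℝ := |u| + |t| + 1 with hM
  set P : D → Prop := fun x => ∃ X X', Al Q (WA a b M) X X' ∧ x = X Q.vac with hP
  set P' : D → Prop := fun x => ∃ X X', Al Q (WB a b M) X X' ∧ x = X Q.vac with hP'
  have dP : ∀ v : D, ∀ ε > 0, ∃ x, P x ∧ ‖x - v‖ < ε := by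
    intro v ε hε
    obtain ⟨X, X', hX, h1⟩ := dens_wa (Q := Q) ha.1 hb.1 hab M v hε
    exact ⟨_, ⟨X, X', hX, rfl⟩, h1⟩
  have dP' : ∀ v : D, ∀ ε > 0, ∃ x, P' x ∧ ‖x - v‖ < ε := by
    intro v ε hε
    obtain ⟨X, X', hX, h1⟩ := dens_wb (Q := Q) ha.1 hb.1 hab M v hε
    exact ⟨_, ⟨X, X', hX, rfl⟩, h1⟩
  obtain ⟨κ, hκ, hκ1⟩ := H755.exists_kp
  have s1 : ∀ x y, P x → P' y → kh Q A K a b x y (u + t) + kh Q A K a b x y (u - t) -
      2 * kh Q A K a b x y u = 0 := by
    rintro x y ⟨X, X', hX, rfl⟩ ⟨Y, Y', hY, rfl⟩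
    have h1 := local_affine (kh_cont h ha hb (X Q.vac) (Y Q.vac)) (M := M)
      (fun ψ hψ hψM => br_kh hT hJ h hl hR ⟨ha, hb, hab, hκ, hκ1, hψ⟩ hψM hX hY)
      (u := u) (t := t) (by rw [hM]; linarith)
    rw [h1, sub_self]
  have s2 : ∀ x, P x → ∀ w, kh Q A K a b x w (u + t) + kh Q A K a b x w (u - t) -
      2 * kh Q A K a b x w u = 0 := by
    intro x hx w
    have h1 : kv Q A K a b x (u + t) + kv Q A K a b x (u - t) -
        (2 : ℂ) • kv Q A K a b x u = 0 := by
      refine zero_of_dens dP' fun y hy => ?_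
      have h2 := s1 x y hx hy
      rw [kh_kv, kh_kv, kh_kv] at h2
      rw [inner_sub_right, inner_add_right, inner_smul_right]
      exact h2
    have h3 := congrArg (fun z => inner ℂ w z) h1
    simp only [inner_sub_right, inner_add_right, inner_smul_right, inner_zero_right] at h3
    rw [kh_kv, kh_kv, kh_kv]
    exact h3
  have h1 : kv Q A K a b v (u + t) + kv Q A K a b v (u - t) - (2 : ℂ) • kv Q A K a b v u = 0 := by
    refine zero_of_dens dP fun x hx => ?_
    have h2 := congrArg conj (s2 x hx v)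
    rw [map_sub, map_add, map_mul, ← kh_conj hT h ha, ← kh_conj hT h ha, ← kh_conj hT h ha,
      map_zero] at h2
    have h3 : (starRingEnd ℂ) (2 : ℂ) = 2 := by
      have := Complex.conj_ofReal 2
      simpa using this
    rw [h3, kh_kv, kh_kv, kh_kv] at h2
    rw [inner_sub_right, inner_add_right, inner_smul_right]
    exact h2
  have h3 := congrArg (fun z => inner ℂ w z) h1
  simp only [inner_sub_right, inner_add_right, inner_smul_right, inner_zero_right] at h3
  rw [kh_kv, kh_kv, kh_kv]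
  linear_combination h3

/-- **Hermiticity of the potential implies the on-shell dilaton constraint.** -/
theorem tr_of_herm (hT : Q.IsStress T) (hJ : IsVirial Q T J) (h : NullCharges Q T J A K)
    {l : Fn → Completion D} (hl : IsPot Q T l) (hR : Herm Q l) : H121.TrNull T := by
  intro a b κ y ψ v w hA
  have hs : Tst fun u => ψ (u + GF.mdot a y) := tst_shift hA.2.2.2.2.2 _
  have h1 := tg_lim hT hJ h (adm_of hA hs) (Q.U 1 GF.one (-y) v) (Q.U 1 GF.one (-y) w)
  rw [int_affine hs (kh_cont h hA.1 hA.2.1 _ _)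
    (sd_kh hT hJ h hl hR hA.1 hA.2.1 hA.2.2.1 _ _), mul_zero, neg_zero] at h1
  refine h1.congr' ?_
  filter_upwards [eventually_ge_atTop (1:ℝ)] with R hR
  exact tgy hT hA y hR v w

/-- fields of the larger theory commute with the polynomials at spacelike distance -/
lemma al_comm (he : IsEnl Q Q') (hL : Q'.IsScalar L 2) {f : Fn} (hf : GF.IsTest f) {W : Set V}
    (hW : W ⊆ cc (tsupport f)) {X X' : D → D} (hX : Al Q W X X') :
    ∀ v, L f (X v) = X (L f v) := by
  have hadd : ∀ v w, L f (v + w) = L f v + L f w := by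
    intro v w
    refine ext_inner_right ℂ fun z => ?_
    rw [hL.2.1 _ _ _ hf, inner_add_left, inner_add_left, hL.2.1 _ _ _ hf, hL.2.1 _ _ _ hf]
  have hsmul : ∀ (c : ℂ) v, L f (c • v) = c • L f v := by
    intro c v
    refine ext_inner_right ℂ fun z => ?_
    rw [hL.2.1 _ _ _ hf, inner_smul_left, inner_smul_left, hL.2.1 _ _ _ hf]
  induction hX with
  | one => intro v; rfl
  | add X X' Y Y' _ _ ih1 ih2 => intro v; rw [hadd, ih1, ih2]
  | smul c X X' _ ih => intro v; rw [hsmul, ih]
  | fld B B' g X X' hB hB' hh hg _ ih =>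
    intro v
    have hsep : GF.Sep f g := by
      intro x hx y hy
      exact hW (hg.2.2 hy) x hx
    rw [Q'.loc L B f g (X v) hL.1 (he.fld B hB) hf hg.1 hsep, ih]

/-- the potential of a local improvement field is hermitian -/
lemma herm_of_L (he : IsEnl Q Q') (hL : Q'.IsScalar L 2) {l : Fn → Completion D}
    (hlL : ∀ f, GF.IsTest f → l f = ((L f Q.vac : D) : Completion D)) : Herm Q l := by
  intro f X X' hf hX
  rw [hlL f hf.1, hlL _ (isTest_bar hf.1), Completion.inner_coe, Completion.inner_coe]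
  have h1 := hL.2.1 (bar f) Q.vac (X Q.vac) (isTest_bar hf.1)
  rw [bar_bar] at h1
  rw [h1, al_comm he hL hf.1 (subset_refl _) hX, hX.adj']

/-- **A traceless improvement implies the on-shell dilaton constraint.** If `T` has charges on null
hyperplanes and a scalar field of dimension two, in the theory or in an enlargement, improves `T`
to a traceless tensor, the integrals of the trace of `T` over null hyperplanes vanish. -/
theorem tr_of_impr (hT : Q.IsStress T) (hJ : IsVirial Q T J) (h : NullCharges Q T J A K)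
    (he : IsEnl Q Q') (hL : Q'.IsScalar L 2)
    (htr : ∀ f v, GF.IsTest f → GF.tr (GF.improve T L) f v = 0) : H121.TrNull T := by
  obtain ⟨l, hl, -⟩ := H246.main hT
  exact tr_of_herm hT hJ h hl (herm_of_L he hL fun f hf => pot_of_L hT he hL htr hl hf)

end Vale.Agent.P352.H746

end
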