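import Vale.Agent.P352.G.Main
import Vale.Agent.P352.H746.Nec2
import Vale.Agent.P352.H846.Tn3

/-!
# The on-shell dilaton constraint and conformal invariance

No hypothesis on the fields besides the stress tensor and the virial current.
-/

set_option linter.all false

noncomputable section

open MeasureTheory Filter Topology SchwartzMap
open scoped SchwartzMap ComplexConjugate ContDiff

namespace Vale.Agent.P352.H746

open GF (Ix V Fn Fld Theory Sch IsLor bas eta o sim pd tr improve ev bar Sep IsTest)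
open H246 H496 H755 H15 H846
open H121 (Cop TrNull)
open GMain (JLim)

variable {D : Type*} [NormedAddCommGroup D] [InnerProductSpace ℂ D]
variable {Q : GF.Theory D} {T : Ix → Ix → GF.Fld D} {J : Ix → GF.Fld D}
  {A : (V → V) → D → D} {K : V → D → D}

/-- the stress tensor is a tensor field of dimension four -/
lemma isTen_T (hT : Q.IsStress T) : IsTen Q 2 4 (fun μ => T (μ 0) (μ 1)) := by
  refine ⟨fun μ => hT.bose _ _, fun μ s L a f v hs hL hf => ?_⟩
  simp only
  rw [hT.cov _ _ s L a f v hs hL hf]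
  have e := (finTwoArrowEquiv Ix).symm.sum_comp fun ν : Fin 2 → Ix =>
    ((s ^ ((4:ℝ) - 4) * ∏ i, L (ν i) (μ i) : ℝ) : ℂ) •
      Q.U s L a (T (ν 0) (ν 1) (fun x => f (sim s L a x)) v)
  rw [← e, Fintype.sum_prod_type]
  refine Finset.sum_congr rfl fun k _ => Finset.sum_congr rfl fun l _ => ?_
  simp [finTwoArrowEquiv, Fin.prod_univ_two]

/-- the virial current is a vector field of dimension three -/
lemma isTen_J (hJ : IsVirial Q T J) : IsTen Q 1 3 (fun μ => J (μ 0)) := by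
  refine ⟨fun μ => hJ.bose _, fun μ s L a f v hs hL hf => ?_⟩
  simp only
  rw [hJ.cov _ s L a f v hs hL hf]
  have e := (Equiv.funUnique (Fin 1) Ix).symm.sum_comp fun ν : Fin 1 → Ix =>
    ((s ^ ((4:ℝ) - 3) * ∏ i, L (ν i) (μ i) : ℝ) : ℂ) •
      Q.U s L a (J (ν 0) (fun x => f (sim s L a x)) v)
  rw [← e]
  refine Finset.sum_congr rfl fun k _ => ?_
  have h1 : (4:ℝ) - 3 = 1 := by norm_num
  simp [Equiv.funUnique, h1]

/-- two limits of the same quantity -/
lemma C_eq (hT : Q.IsStress T) (hJ : IsVirial Q T J) (h : NullCharges Q T J A K) (ht : TrNull T)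
    {C : V → D → D} (hC : JLim J C) {a b : V} (ha : IsNull a) (hb : IsNull b)
    (hab : GF.mdot a b = 1) (v : D) : C a v = Cop Q A K a b v := by
  obtain ⟨κ, hκ, hκ1⟩ := exists_kp
  obtain ⟨ψ, hψ, hψ1⟩ := GMain.exists_one
  have hA : Adm a b κ ψ := ⟨ha, hb, hab, hκ, hκ1, hψ⟩
  refine ext_inner_left ℂ fun w => ?_
  have h1 := hC a b κ 0 ψ v w hA
  have h2 := H121.lim0 (J := J) hT hJ h ht hA v w
  rw [hψ1, one_mul] at h1 h2
  exact tendsto_nhds_unique h1 h2

/-- **The on-shell dilaton constraint implies conformal invariance.** -/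
theorem main_key (hT : Q.IsStress T) (hJ : IsVirial Q T J) (h : NullCharges Q T J A K)
    (ht : TrNull T)
    (key : ∀ a b, IsNull a → IsNull b → GF.mdot a b = 1 → ∀ p q Y, YB Q a p q Y →
      ∀ F, Cop Q A K a b (Y F) = 0) :
    ∃ L : Fld D, ∀ Q₁ : Theory D, IsEnl Q Q₁ → ∃ Q₂ : Theory D, IsEnl Q₁ Q₂ ∧
      Q₂.IsScalar L 2 ∧ Q₂.IsStress (improve T L) ∧ IsImpr Q₂ T (improve T L) ∧
      ConfAct Q₂ (improve T L) := by
  obtain ⟨C, h1, h2, h3⟩ := GMain.main_neutral hT hJ h ht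
  refine h3 (fun a m n f v ha hf => ?_) (fun a m f v ha hf => ?_)
  · obtain ⟨b, hb, hab⟩ := H755.exists_dual ha
    rw [C_eq hT hJ h ht h1 ha hb hab, C_eq hT hJ h ht h1 ha hb hab]
    exact cop_ten hT hJ h ht ha hb hab (key a b ha hb hab) (isTen_T hT) ![m, n] hf v
  · obtain ⟨b, hb, hab⟩ := H755.exists_dual ha
    rw [C_eq hT hJ h ht h1 ha hb hab, C_eq hT hJ h ht h1 ha hb hab]
    exact cop_ten hT hJ h ht ha hb hab (key a b ha hb hab) (isTen_J hJ) ![m] hf v

/-- **The on-shell dilaton constraint is equivalent to conformal invariance.** -/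
theorem iff_key (hT : Q.IsStress T) (hJ : IsVirial Q T J) (h : NullCharges Q T J A K)
    (key : TrNull T → ∀ a b, IsNull a → IsNull b → GF.mdot a b = 1 → ∀ p q Y, YB Q a p q Y →
      ∀ F, Cop Q A K a b (Y F) = 0) :
    TrNull T ↔ ∃ L : Fld D, ∀ Q₁ : Theory D, IsEnl Q Q₁ → ∃ Q₂ : Theory D, IsEnl Q₁ Q₂ ∧
      Q₂.IsScalar L 2 ∧ Q₂.IsStress (improve T L) ∧ IsImpr Q₂ T (improve T L) ∧
      ConfAct Q₂ (improve T L) := by
  refine ⟨fun ht => main_key hT hJ h ht (key ht), ?_⟩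
  rintro ⟨L, hL⟩
  obtain ⟨Q₂, h1, h2, h3, h4, h5⟩ := hL Q ⟨rfl, rfl, fun _ h => h, fun _ h => h⟩
  exact tr_of_impr hT hJ h h1 h2 h4.traceless

end Vale.Agent.P352.H746

end
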