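import Vale.Agent.P352.H746.AddDefs
import Vale.Agent.P352.H746.Nec2
import Vale.Agent.P352.H755.R7

/-!
# Additivity of the second moments implies the on-shell dilaton constraint
-/

set_option linter.all false

noncomputable section

open MeasureTheory SchwartzMap Filter Topology
open scoped SchwartzMap ComplexConjugate ENNReal ContDiff

namespace Vale.Agent.P352.H746

open GF (Ix V Fn Sch ev pd bar bas o eta)
open H246 H496 H846
open H755 (Tst dr cut md_sub md_add md_smul md_comm md_smul_l md_add_l md_sub_l XX XX_sim)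
open H15 (ctf Adm NullCharges IsEnl IsSim cK)

variable {D : Type*} [NormedAddCommGroup D] [InnerProductSpace ℂ D]
variable {Q : GF.Theory D} {T : Ix → Ix → GF.Fld D} {J : Ix → GF.Fld D}
  {A : (V → V) → D → D} {K : V → D → D}

lemma cs3 (x1 x2 x3 y1 y2 y3 : ℝ) : (x1 * y1 + x2 * y2 + x3 * y3) ^ 2 ≤
    (x1 ^ 2 + x2 ^ 2 + x3 ^ 2) * (y1 ^ 2 + y2 ^ 2 + y3 ^ 2) := by
  nlinarith [sq_nonneg (x1 * y2 - x2 * y1), sq_nonneg (x1 * y3 - x3 * y1),
    sq_nonneg (x2 * y3 - x3 * y2)]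

lemma md4 (x y : V) : GF.mdot x y = x 0 * y 0 - x 1 * y 1 - x 2 * y 2 - x 3 * y 3 := by
  simp only [GF.mdot, Fin.sum_univ_four, eta, o]
  simp
  ring

/-- a null vector whose product with a future directed null vector is positive -/
lemma fut_of {a x : V} (ha : IsNull a) (hx : GF.mdot x x = 0) (hax : 0 < GF.mdot a x) :
    IsNull x := by
  refine ⟨hx, ?_⟩
  show 0 < x 0
  by_contra hn
  push Not at hn
  have ha1 := ha.1
  have ha0 : 0 < a 0 := ha.2
  rw [md4] at ha1 hx hax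
  have h1 := cs3 (a 1) (a 2) (a 3) (x 1) (x 2) (x 3)
  have e1 : a 1 ^ 2 + a 2 ^ 2 + a 3 ^ 2 = a 0 ^ 2 := by linear_combination -ha1
  have e2 : x 1 ^ 2 + x 2 ^ 2 + x 3 ^ 2 = x 0 ^ 2 := by linear_combination -hx
  rw [e1, e2] at h1
  set p : ℝ := a 1 * x 1 + a 2 * x 2 + a 3 * x 3 with hp
  have h2 : p < a 0 * x 0 := by linarith
  have h3 : a 0 * x 0 ≤ 0 := mul_nonpos_of_nonneg_of_nonpos ha0.le hn
  nlinarith

lemma zero_of_sq {p0 x0 n s : ℝ} (hp : n = p0 ^ 2 - 2) (hs : 0 ≤ s) (hsx : s ≤ x0 ^ 2)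
    (hc : (p0 * x0) ^ 2 ≤ n * s) : s = 0 := by
  have h1 : p0 ^ 2 * s ≤ p0 ^ 2 * x0 ^ 2 := mul_le_mul_of_nonneg_left hsx (sq_nonneg p0)
  have h2 : (p0 * x0) ^ 2 = p0 ^ 2 * x0 ^ 2 := by ring
  rw [hp, h2] at hc
  linarith

lemma zero_of_sum {x y z : ℝ} (h : x ^ 2 + y ^ 2 + z ^ 2 = 0) : x = 0 ∧ y = 0 ∧ z = 0 := by
  have h1 := sq_nonneg x
  have h2 := sq_nonneg y
  have h3 := sq_nonneg z
  refine ⟨pow_eq_zero_iff two_ne_zero |>.1 ?_, pow_eq_zero_iff two_ne_zero |>.1 ?_,
    pow_eq_zero_iff two_ne_zero |>.1 ?_⟩ <;> linarith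

lemma zero_of_perp {a b x : V} (ha : IsNull a) (hb : IsNull b) (hab : GF.mdot a b = 1)
    (h1 : GF.mdot a x = 0) (h2 : GF.mdot b x = 0) (hn : 0 ≤ GF.mdot x x) : x = 0 := by
  have ha1 := ha.1
  have hb1 := hb.1
  rw [md4] at h1 h2 hn ha1 hb1 hab
  have hpp : 0 < a 0 + b 0 := add_pos ha.2 hb.2
  have hp : (a 1 + b 1) ^ 2 + (a 2 + b 2) ^ 2 + (a 3 + b 3) ^ 2 = (a 0 + b 0) ^ 2 - 2 := by
    linear_combination -ha1 - hb1 - 2 * hab
  have hx' : (a 1 + b 1) * x 1 + (a 2 + b 2) * x 2 + (a 3 + b 3) * x 3 = (a 0 + b 0) * x 0 := by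
    linear_combination -h1 - h2
  have c := cs3 (a 1 + b 1) (a 2 + b 2) (a 3 + b 3) (x 1) (x 2) (x 3)
  rw [hx'] at c
  have hs : x 1 ^ 2 + x 2 ^ 2 + x 3 ^ 2 ≤ x 0 ^ 2 := by linarith
  have hz := zero_of_sq hp (by positivity) hs c
  obtain ⟨z1, z2, z3⟩ := zero_of_sum hz
  have z0 : x 0 = 0 := by
    rw [z1, z2, z3] at hx'
    have : (a 0 + b 0) * x 0 = 0 := by linarith
    exact (mul_eq_zero.1 this).resolve_left hpp.ne'
  funext n
  fin_cases n
  · exact z0
  · exact z1
  · exact z2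
  · exact z3

/-- a unit vector orthogonal to two null vectors -/
lemma exists_e {a b : V} (ha : IsNull a) (hb : IsNull b) (hab : GF.mdot a b = 1) :
    ∃ e : V, GF.mdot a e = 0 ∧ GF.mdot b e = 0 ∧ GF.mdot e e = -(1 / 2) := by
  let f : V →ₗ[ℝ] ℝ × ℝ :=
    { toFun := fun x => (GF.mdot a x, GF.mdot b x)
      map_add' := fun x y => by simp only [md_add, Prod.mk_add_mk]
      map_smul' := fun c x => by simp only [md_smul, Prod.smul_mk, smul_eq_mul, RingHom.id_apply] }
  have hk : LinearMap.ker f ≠ ⊥ := by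
    refine LinearMap.ker_ne_bot_of_finrank_lt ?_
    simp
  obtain ⟨x, hx, hx0⟩ := Submodule.exists_mem_ne_zero_of_ne_bot hk
  have hfx : f x = 0 := hx
  have h1 : GF.mdot a x = 0 := congrArg Prod.fst hfx
  have h2 : GF.mdot b x = 0 := congrArg Prod.snd hfx
  have h3 : GF.mdot x x < 0 := by
    by_contra hn
    push Not at hn
    exact hx0 (zero_of_perp ha hb hab h1 h2 hn)
  set q : ℝ := -(2 * GF.mdot x x) with hq
  have hq0 : 0 < q := by rw [hq]; linarith
  refine ⟨(Real.sqrt q)⁻¹ • x, ?_, ?_, ?_⟩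
  · rw [md_smul, h1, mul_zero]
  · rw [md_smul, h2, mul_zero]
  · rw [md_smul, md_smul_l]
    have hs : Real.sqrt q * Real.sqrt q = q := Real.mul_self_sqrt hq0.le
    have hs0 : Real.sqrt q ≠ 0 := (Real.sqrt_pos.2 hq0).ne'
    field_simp
    rw [pow_two, hs, hq]
    ring

/-- two null vectors with the same sum as `a` and `b` and with equal products with them -/
lemma exists_pair {a b : V} (ha : IsNull a) (hb : IsNull b) (hab : GF.mdot a b = 1) :
    ∃ c d : V, IsNull c ∧ IsNull d ∧ a + b = c + d ∧ GF.mdot c a = GF.mdot c b ∧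
      GF.mdot d a = GF.mdot d b := by
  obtain ⟨e, h1, h2, h3⟩ := exists_e ha hb hab
  have hba : GF.mdot b a = 1 := by rw [md_comm, hab]
  have h1' : GF.mdot e a = 0 := by rw [md_comm, h1]
  have h2' : GF.mdot e b = 0 := by rw [md_comm, h2]
  refine ⟨(1 / 2 : ℝ) • (a + b) + e, (1 / 2 : ℝ) • (a + b) - e, fut_of ha ?_ ?_,
    fut_of ha ?_ ?_, by module, ?_, ?_⟩
  · simp only [md_add, md_add_l, md_smul, md_smul_l, ha.1, hb.1, hab, hba, h1, h2, h3, h1', h2']
    norm_num
  · simp only [md_add, md_add_l, md_smul, md_smul_l, ha.1, hb.1, hab, hba, h1, h2, h3, h1', h2']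
    norm_num
  · simp only [md_add, md_add_l, md_sub, md_sub_l, md_smul, md_smul_l, ha.1, hb.1, hab, hba, h1,
      h2, h3, h1', h2']
    norm_num
  · simp only [md_add, md_add_l, md_sub, md_sub_l, md_smul, md_smul_l, ha.1, hb.1, hab, hba, h1,
      h2, h3, h1', h2']
    norm_num
  · simp only [md_add, md_add_l, md_sub, md_sub_l, md_smul, md_smul_l, ha.1, hb.1, hab, hba, h1,
      h2, h3, h1', h2']
    norm_num
  · simp only [md_add, md_add_l, md_sub, md_sub_l, md_smul, md_smul_l, ha.1, hb.1, hab, hba, h1,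
      h2, h3, h1', h2']
    norm_num

/-- the deviation from the special conformal generators -/
def zt (Q : GF.Theory D) (A : (V → V) → D → D) (K : V → D → D) (a x : V) (v : D) : D :=
  Q.U 1 GF.one x (K a (Q.U 1 GF.one (-x) v)) - K a v - A (XX a x) v

lemma zt_perp (hT : Q.IsStress T) (hJ : IsVirial Q T J) (h : NullCharges Q T J A K) {a x0 : V}
    (ha : IsNull a) (hx : GF.mdot a x0 = 0) (y : V) (v : D) :
    zt Q A K a (y + x0) v = zt Q A K a y v := by
  have hs0 : IsSim 0 (XX a x0) := by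
    have h1 := XX_sim a x0
    rw [hx] at h1
    simpa using h1
  have e1 : Q.U 1 GF.one (y + x0) (K a (Q.U 1 GF.one (-(y + x0)) v)) = Q.U 1 GF.one y
      (Q.U 1 GF.one x0 (K a (Q.U 1 GF.one (-x0) (Q.U 1 GF.one (-y) v)))) := by
    rw [H755.UU, H755.UU]
    have c2 : -x0 + -y = -(y + x0) := by module
    rw [c2]
  have e4 : A (XX a (y + x0)) v = A (XX a y) v + A (fun z => XX a x0 (z - y)) v := by
    rw [← H755.A_addX h.toRep v (XX_sim a y) (H755.sim_shift hs0 y)]
    refine congrArg (fun X => A X v) (funext fun z => ?_)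
    funext n
    simp only [XX, cK, md_smul, md_smul_l, md_add, md_add_l, md_sub, md_sub_l, hx,
      Pi.add_apply, Pi.sub_apply, Pi.smul_apply, smul_eq_mul]
    rw [md_comm x0 y]
    ring
  unfold zt
  rw [e1, H755.tra_zero hT h ha hx, Vale.Agent.P352.U_add one_pos Vale.Agent.P352.isLor_one,
    H846.conj_A hT hJ h hs0 ha, e4]
  abel

lemma zt_eq (hT : Q.IsStress T) (hJ : IsVirial Q T J) (h : NullCharges Q T J A K) {a x y : V}
    (ha : IsNull a) (hxy : GF.mdot a x = GF.mdot a y) (v : D) :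
    zt Q A K a x v = zt Q A K a y v := by
  have h1 := zt_perp hT hJ h ha (x0 := x - y) (by rw [md_sub, hxy, sub_self]) y v
  rwa [add_sub_cancel] at h1

lemma A_zero_of (h : NullCharges Q T J A K) (v : D) : A (fun _ => 0) v = 0 := by
  have h1 := h.add 0 0 0 (fun _ => 0) (fun _ => 0) v ⟨0, 0, by simp, by simp⟩
    ⟨0, 0, by simp, by simp⟩
  have h2 := h.add 0 0 1 (fun _ => 0) (fun _ => 0) v ⟨0, 0, by simp, by simp⟩
    ⟨0, 0, by simp, by simp⟩
  simp at h2
  exact h2

lemma zt_zero (hT : Q.IsStress T) (hJ : IsVirial Q T J) (h : NullCharges Q T J A K) {a x : V}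
    (ha : IsNull a) (hx : GF.mdot a x = 0) (v : D) : zt Q A K a x v = 0 := by
  unfold zt
  rw [H755.tra_zero hT h ha hx]
  abel

lemma zt_add (hT : Q.IsStress T) (hJ : IsVirial Q T J) (h : NullCharges Q T J A K)
    (hK : AddK K) {a b c d : V} (ha : IsNull a) (hb : IsNull b) (hc : IsNull c) (hd : IsNull d)
    (he : a + b = c + d) (x : V) (v : D) :
    zt Q A K a x v + zt Q A K b x v = zt Q A K c x v + zt Q A K d x v := by
  have h1 := hK a b c d v ha hb hc hd he
  have h2 := hK a b c d (Q.U 1 GF.one (-x) v) ha hb hc hd he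
  have h3 := congrArg (fun z => Q.U 1 GF.one x z) h2
  simp only [Vale.Agent.P352.U_add one_pos Vale.Agent.P352.isLor_one] at h3
  have h4 : A (XX a x) v + A (XX b x) v = A (XX c x) v + A (XX d x) v := by
    rw [← H755.A_addX h.toRep v (XX_sim a x) (XX_sim b x),
      ← H755.A_addX h.toRep v (XX_sim c x) (XX_sim d x)]
    refine congrArg (fun X => A X v) (funext fun z => ?_)
    have hd' : d = a + b - c := by rw [he]; abel
    rw [hd']
    funext n
    simp only [XX, cK, md_smul, md_smul_l, md_add, md_add_l, md_sub, md_sub_l,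
      Pi.add_apply, Pi.sub_apply, Pi.smul_apply, smul_eq_mul]
    ring
  unfold zt
  calc _ = (Q.U 1 GF.one x (K a (Q.U 1 GF.one (-x) v)) + Q.U 1 GF.one x (K b
        (Q.U 1 GF.one (-x) v))) - (K a v + K b v) - (A (XX a x) v + A (XX b x) v) := by abel
    _ = (Q.U 1 GF.one x (K c (Q.U 1 GF.one (-x) v)) + Q.U 1 GF.one x (K d
        (Q.U 1 GF.one (-x) v))) - (K c v + K d v) - (A (XX c x) v + A (XX d x) v) := by
      rw [h3, h1, h4]
    _ = _ := by abel

/-- the Cauchy equation -/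
lemma zt_cauchy (hT : Q.IsStress T) (hJ : IsVirial Q T J) (h : NullCharges Q T J A K)
    (hK : AddK K) {a b : V} (ha : IsNull a) (hb : IsNull b) (hab : GF.mdot a b = 1) (s t : ℝ)
    (v : D) : zt Q A K a (s • b) v + zt Q A K b (t • a) v = zt Q A K a ((s + t) • b) v := by
  obtain ⟨c, d, hc, hd, he, h1, h2⟩ := exists_pair ha hb hab
  have hba : GF.mdot b a = 1 := by rw [md_comm, hab]
  have k1 := zt_add hT hJ h hK ha hb hc hd he (s • b + t • a) v
  have k2 := zt_add hT hJ h hK ha hb hc hd he ((s + t) • b) v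
  rw [zt_eq hT hJ h ha (y := s • b) (by
      rw [md_add, md_smul, md_smul, ha.1]; ring),
    zt_eq hT hJ h hb (y := t • a) (by
      rw [md_add, md_smul, md_smul, hb.1]; ring),
    zt_eq hT hJ h hc (y := (s + t) • b) (by
      rw [md_add, md_smul, md_smul, md_smul, h1]; ring),
    zt_eq hT hJ h hd (y := (s + t) • b) (by
      rw [md_add, md_smul, md_smul, md_smul, h2]; ring), ← k2,
    zt_zero hT hJ h hb (x := (s + t) • b) (by rw [md_smul, hb.1, mul_zero]), add_zero] at k1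
  exact k1

lemma zt_sd (hT : Q.IsStress T) (hJ : IsVirial Q T J) (h : NullCharges Q T J A K)
    (hK : AddK K) {a b : V} (ha : IsNull a) (hb : IsNull b) (hab : GF.mdot a b = 1) (u t : ℝ)
    (v : D) : zt Q A K a ((u + t) • b) v + zt Q A K a ((u - t) • b) v =
      (2 : ℂ) • zt Q A K a (u • b) v := by
  have z0 : zt Q A K a ((0:ℝ) • b) v = 0 := zt_zero hT hJ h ha (by rw [md_smul, zero_mul]) v
  have k1 := zt_cauchy hT hJ h hK ha hb hab u t v
  have k2 := zt_cauchy hT hJ h hK ha hb hab u (-t) v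
  have k3 := zt_cauchy hT hJ h hK ha hb hab 0 t v
  have k4 := zt_cauchy hT hJ h hK ha hb hab t (-t) v
  rw [z0, zero_add, zero_add] at k3
  rw [add_neg_cancel, z0, ← k3] at k4
  rw [← sub_eq_add_neg] at k2
  rw [← k1, ← k2, two_smul]
  calc _ = (zt Q A K a (u • b) v + zt Q A K a (u • b) v) +
        (zt Q A K b (t • a) v + zt Q A K b (-t • a) v) := by abel
    _ = _ := by rw [k4, add_zero]

lemma kh_zt (h : NullCharges Q T J A K) {a b : V} (hb : IsNull b) (hab : GF.mdot a b = 1)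
    (v w : D) (u : ℝ) : kh Q A K a b v w u = inner ℂ w (K a v) +
      inner ℂ w (zt Q A K a (u • b) v) := by
  unfold kh zt
  rw [H755.A_XXb h.toRep hb hab, inner_sub_right, inner_sub_right, inner_add_right,
    inner_smul_right, inner_smul_right]
  push_cast
  ring

/-- **Additivity of the second moments implies the on-shell dilaton constraint.** -/
theorem tr_of_add (hT : Q.IsStress T) (hJ : IsVirial Q T J) (h : NullCharges Q T J A K)
    (hK : AddK K) : H121.TrNull T := by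
  intro a b κ y ψ v w hA
  have hs : Tst fun u => ψ (u + GF.mdot a y) := tst_shift hA.2.2.2.2.2 _
  have h1 := tg_lim hT hJ h (adm_of hA hs) (Q.U 1 GF.one (-y) v) (Q.U 1 GF.one (-y) w)
  rw [int_affine hs (kh_cont h hA.1 hA.2.1 _ _) (fun u t => by
    rw [kh_zt h hA.2.1 hA.2.2.1, kh_zt h hA.2.1 hA.2.2.1, kh_zt h hA.2.1 hA.2.2.1]
    have k := congrArg (fun z => inner ℂ (Q.U 1 GF.one (-y) w) z)
      (zt_sd hT hJ h hK hA.1 hA.2.1 hA.2.2.1 u t (Q.U 1 GF.one (-y) v))
    simp only [inner_add_right, inner_smul_right] at k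
    linear_combination k), mul_zero, neg_zero] at h1
  refine h1.congr' ?_
  filter_upwards [eventually_ge_atTop (1:ℝ)] with R hR
  exact tgy hT hA y hR v w

end Vale.Agent.P352.H746

end
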