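import Vale.Agent.P352.H496.Defs

namespace Vale.Agent.P352.H746

open GF H496

/-- `K a + K b` depends only on `a + b`, for null vectors `a`, `b`. -/
def AddK {D : Type*} [NormedAddCommGroup D] (K : V → D → D) : Prop := ∀ a b c d v, IsNull a →
  IsNull b → IsNull c → IsNull d → a + b = c + d → K a v + K b v = K c v + K d v

end Vale.Agent.P352.H746
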