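import Vale.Agent.P352.H746.E1
import Vale.Agent.P352.H496.GnrTr
import Vale.Agent.P352.H246.Main

set_option linter.all false

noncomputable section

open MeasureTheory SchwartzMap Complex Filter Topology
open scoped SchwartzMap ComplexConjugate ENNReal NNReal LineDeriv ContDiff

namespace Vale.Agent.P352.H746

open GF (Ix V Fn Sch ev pd bar sim bas o)
open H246 H496 H755
open UniformSpace (Completion)

variable {D : Type*} [NormedAddCommGroup D] [InnerProductSpace ℂ D]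
variable {Q : GF.Theory D}
variable {H : D → D} {alg : Set V → Set (D → D)} {S : V → ℝ → D → D}

/-- the value at the origin of `x ↦ ⟨l(x), v⟩` -/
def vl (l : Fn → Completion D) (v : D) : ℂ := Classical.epsilon (Val l v)

/-- the value at the origin of `x ↦ ⟨c·J(x) Ω, v⟩` -/
def vc (Q : GF.Theory D) (J : Ix → GF.Fld D) (c : V) (v : D) : ℂ :=
  ∑ m, ((GF.eta m * c m : ℝ) : ℂ) * vj Q J m v

/-- the component of `x` orthogonal to the null vectors `a` and `b` with `a·b = 1` -/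
def prp (a b x : V) : V := x - GF.mdot a x • b - GF.mdot b x • a

/-! ### Values as point like functionals -/

/-- the data of a point like functional: the functional and its derivatives in the direction `a` -/
theorem exists_pdata (N : CNet Q H alg S) (κ : 𝓢(Mink, ℂ) →L[ℂ] Completion D)
    (cov : ∀ g (a : Mink) (z : D), inner ℂ ((U1 Q a z : D) : Completion D) (κ (tauS a g)) =
      inner ℂ (z : Completion D) (κ g)) (a : V) :
    ∃ (φ φ' φ'' : Completion D) (n : ℕ), Rep Q κ φ (pw1 H n) ∧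
      Dfb Q φ (pw1 H n) (WithLp.toLp 2 a) φ' (pw1 H (n + 1)) ∧
      Dfb Q φ' (pw1 H (n + 1)) (WithLp.toLp 2 a) φ'' (pw1 H (n + 2)) := by
  obtain ⟨μ, K⟩ := exists_cvd κ cov
  obtain ⟨w, n, h⟩ := K.exists_pt N.toNet
  obtain ⟨w', h'⟩ := K.deriv_pt N.toNet w n (WithLp.toLp 2 a)
  obtain ⟨w'', h''⟩ := K.deriv_pt N.toNet w' (n + 1) (WithLp.toLp 2 a)
  exact ⟨K.J w, K.J w', K.J w'', n, h, h', h''⟩

section

variable (N : CNet Q H alg S) {G : V → D → D} (Gg : Gnr Q alg S G)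
include N Gg

/-- the plane formula for a point like functional -/
theorem plane_gen {a : V} (ha : IsNull a) {φ φ' φ'' : Completion D} {n : ℕ}
    (d1 : Dfb Q φ (pw1 H n) (WithLp.toLp 2 a) φ' (pw1 H (n + 1)))
    (d2 : Dfb Q φ' (pw1 H (n + 1)) (WithLp.toLp 2 a) φ'' (pw1 H (n + 2)))
    (hinv : ∀ L v, GF.IsLor L → sim 1 L 0 a = a → pt φ (pw1 H n) (Q.U 1 L 0 v) = pt φ (pw1 H n) v)
    {z : V} (hp : ∀ s, Ptr Q S a s z) (v : D) :
    HasDerivAt (fun t : ℝ => pt φ (pw1 H n) (U1 Q (t • WithLp.toLp 2 a) v))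
        (pt φ' (pw1 H (n + 1)) v) 0 ∧
      pt φ (pw1 H n) (Q.U 1 GF.one (-z) (G a (Q.U 1 GF.one z v))) =
        pt φ (pw1 H n) (G a v) + (-I * (-GF.mdot z z : ℝ)) * pt φ' (pw1 H (n + 1)) v := by
  constructor
  · have := d1 v 0
    rwa [zero_smul, U1_zero_all] at this
  · exact plane_G N ha (fun s t v => Gg.tr a s t v ha) hinv (fun v => Gg.der a v ha)
      (pw1_mem N.toNet n) (fun x v => pw1_comm N.toNet n x v) (pw1_mem N.toNet (n + 1))
      (pw1_mem N.toNet (n + 2)) (fun x v => pw1_comm N.toNet (n + 2) x v) d1 d2 hp v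

/-- the vector on the null hyperplane through `y` -/
def pl (Q : GF.Theory D) (G : V → D → D) (a b : V) (X : D) (y : V) : D :=
  Q.U 1 GF.one (-y) (Q.U 1 GF.one (GF.mdot a y • b)
    (G a (Q.U 1 GF.one (-(GF.mdot a y • b)) X)))

omit N Gg in
lemma pl_eq (a b : V) (X : D) (y : V) : pl Q G a b X y =
    Q.U 1 GF.one (-(y - GF.mdot a y • b)) (G a (Q.U 1 GF.one (y - GF.mdot a y • b)
      (Q.U 1 GF.one (-y) X))) := by
  unfold pl
  set u : V := GF.mdot a y • b with hu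
  have h1 : ∀ (x x' : V) (v : D), Q.U 1 GF.one x (Q.U 1 GF.one x' v) = Q.U 1 GF.one (x + x') v :=
    fun x x' v => U1_U1_all (Q := Q) (WithLp.toLp 2 x) (WithLp.toLp 2 x') v
  rw [h1, h1]
  congr 1
  · abel
  · congr 2
    abel

omit N Gg in
lemma mdot_zz {a b : V} (hb : GF.mdot b b = 0) (y : V) :
    -GF.mdot (y - GF.mdot a y • b) (y - GF.mdot a y • b) = Wq a b y := by
  have h0 : ∀ x, GF.mdot (y - GF.mdot a y • b) x = GF.mdot y x - GF.mdot a y * GF.mdot b x := by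
    intro x
    rw [gm_comm, gm_sub, gm_smul, gm_comm x y, gm_comm x b]
  rw [h0, gm_sub, gm_sub, gm_smul, gm_smul, hb, gm_comm y b]
  unfold Wq
  ring

omit N Gg in
lemma mdot_az {a b : V} (hab : GF.mdot a b = 1) (y : V) :
    GF.mdot a (y - GF.mdot a y • b) = 0 := by
  rw [gm_sub, gm_smul, hab]
  ring

omit N Gg in
lemma hasDeriv_sch (A : 𝓢(V, ℂ)) (a y : V) :
    HasDerivAt (fun t : ℝ => A (-(t • a - y))) (-(∂_{a} A : 𝓢(V, ℂ)) y) 0 := by
  have h1 : HasFDerivAt (fun y => A y) (fderiv ℝ A y) y :=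
    ((A.smooth 1).differentiable (by norm_num) y).hasFDerivAt
  have h2 : HasDerivAt (fun t : ℝ => -(t • a - y)) (-a) 0 := by
    have h0 := (((hasDerivAt_id (0 : ℝ)).smul_const a).sub_const y).neg
    rw [one_smul] at h0
    exact h0
  have e : -((0 : ℝ) • a - y) = y := by simp
  have h3 : HasFDerivAt (fun y => A y) (fderiv ℝ A y) (-((0 : ℝ) • a - y)) := by rw [e]; exact h1
  have h4 := h3.comp_hasDerivAt (0 : ℝ) h2
  have h5 : (fderiv ℝ A y) (-a) = -(∂_{a} A : 𝓢(V, ℂ)) y := by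
    rw [map_neg]; rfl
  rw [h5] at h4
  exact h4

/-- the plane formula for values along an orbit that are given by a Schwartz function -/
theorem plane_sch {a b : V} (ha : IsNull a) (hb : IsNull b) (hab : GF.mdot a b = 1)
    (hp : ∀ s w, GF.mdot a w = 0 → Ptr Q S a s w) {f : D → ℂ}
    {φ φ' φ'' : Completion D} {n : ℕ} (hf : ∀ v, f v = pt φ (pw1 H n) v)
    (d1 : Dfb Q φ (pw1 H n) (WithLp.toLp 2 a) φ' (pw1 H (n + 1)))
    (d2 : Dfb Q φ' (pw1 H (n + 1)) (WithLp.toLp 2 a) φ'' (pw1 H (n + 2)))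
    (hinv : ∀ L v, GF.IsLor L → sim 1 L 0 a = a → f (Q.U 1 L 0 v) = f v)
    {X : D} (A : 𝓢(V, ℂ)) (hA : ∀ y, f (Q.U 1 GF.one (-y) X) = A y) (y : V) :
    f (pl Q G a b X y) = f (G a (Q.U 1 GF.one (-y) X)) +
      I * (Wq a b y : ℂ) * (∂_{a} A : 𝓢(V, ℂ)) y := by
  obtain ⟨h1, h2⟩ := plane_gen N Gg ha d1 d2 (fun L v hL hLa => by rw [← hf, ← hf, hinv L v hL hLa])
    (z := y - GF.mdot a y • b) (fun s => hp s _ (mdot_az hab y)) (Q.U 1 GF.one (-y) X)
  have h3 : (fun t : ℝ => pt φ (pw1 H n) (U1 Q (t • WithLp.toLp 2 a) (Q.U 1 GF.one (-y) X))) =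
      fun t : ℝ => A (-(t • a - y)) := by
    funext t
    rw [← hf, ← hA]
    congr 1
    have h4 := U1_U1_all (Q := Q) (t • WithLp.toLp 2 a) (WithLp.toLp 2 (-y)) X
    have h5 : -(-(t • a - y)) = t • a + -y := by abel
    rw [h5]
    exact h4
  rw [h3] at h1
  have h6 := h1.unique (hasDeriv_sch A a y)
  rw [pl_eq, hf, h2, h6, ← hf, mdot_zz hb.1]
  ring

/-! ### The virial current -/

omit N Gg in
lemma mdot_fix {a : V} {L : Ix → V} (hL : GF.IsLor L) (hLa : sim 1 L 0 a = a) (k : Ix) :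
    GF.mdot a (L k) = GF.eta k * a k := by
  have h1 : GF.mdot a (L k) = GF.mdot (sim 1 L 0 a) (L k) := by rw [hLa]
  rw [h1]
  have h2 : GF.mdot (sim 1 L 0 a) (L k) = ∑ m, a m * GF.mdot (L m) (L k) := by
    unfold GF.mdot sim
    simp only [Pi.zero_apply, zero_add, one_mul, Finset.mul_sum, Finset.sum_mul]
    rw [Finset.sum_comm]
    refine Finset.sum_congr rfl fun m _ => Finset.sum_congr rfl fun n _ => by ring
  rw [h2, Finset.sum_eq_single k]
  · rw [hL.1 k k]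
    simp [bas, mul_comm]
  · intro m _ hm
    rw [hL.1 m k]
    simp [bas, Ne.symm hm]
  · intro h
    exact absurd (Finset.mem_univ k) h

omit Gg in
/-- invariance of the values of `a·J` under the Lorentz transformations that fix `a` -/
lemma vc_inv {T : Ix → Ix → GF.Fld D} {J : Ix → GF.Fld D} (hJ : IsVirial Q T J) {a : V}
    {L : Ix → V} (hL : GF.IsLor L) (hLa : sim 1 L 0 a = a) (v : D) :
    vc Q J a (Q.U 1 L 0 v) = vc Q J a v := by
  unfold vc
  simp only [vj_cov N hJ one_pos hL, one_pow, inv_one, ofReal_one, one_mul, Finset.mul_sum]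
  rw [Finset.sum_comm]
  refine Finset.sum_congr rfl fun k _ => ?_
  have h1 : ∑ m, ((GF.eta m * a m : ℝ) : ℂ) * ((L k m : ℂ) * vj Q J k v) =
      ((GF.mdot a (L k) : ℝ) : ℂ) * vj Q J k v := by
    unfold GF.mdot
    push_cast
    rw [Finset.sum_mul]
    exact Finset.sum_congr rfl fun m _ => by ring
  rw [h1, mdot_fix hL hLa]

theorem plane_vc {T : Ix → Ix → GF.Fld D} {J : Ix → GF.Fld D} (hJ : IsVirial Q T J) {a b : V}
    (ha : IsNull a) (hb : IsNull b) (hab : GF.mdot a b = 1)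
    (hp : ∀ s w, GF.mdot a w = 0 → Ptr Q S a s w) {X : D} (A : 𝓢(V, ℂ))
    (hA : ∀ y, vc Q J a (Q.U 1 GF.one (-y) X) = A y) (y : V) :
    vc Q J a (pl Q G a b X y) = vc Q J a (G a (Q.U 1 GF.one (-y) X)) +
      I * (Wq a b y : ℂ) * (∂_{a} A : 𝓢(V, ℂ)) y := by
  have hf : ∀ m, Q.fld (J m) := fun m => Q.bose_fld _ (hJ.bose m)
  obtain ⟨φ, φ', φ'', n, h, d1, d2⟩ := exists_pdata N (kc hf fun m => GF.eta m * a m)
    (kc_cov hf _) a
  refine plane_sch N Gg ha hb hab hp (f := vc Q J a) (fun v => ?_) d1 d2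
    (fun L v hL hLa => vc_inv N hJ hL hLa v) A hA y
  exact sum_vj N.toNet hf (pw1_mem N.toNet n) h v

/-! ### The potential -/

omit Gg in
lemma vl_rep {T : Ix → Ix → GF.Fld D} {l : Fn → Completion D} (hl : IsPot Q T l)
    {κ : 𝓢(Mink, ℂ) →L[ℂ] Completion D} (hκ : ∀ f, κ f = l (fl f)) {φ : Completion D} {n : ℕ}
    (h : Rep Q κ φ (pw1 H n)) (v : D) : vl l v = pt φ (pw1 H n) v := by
  have h1 := val_iff_gen N.toNet (j := l) (fun F => (hκ F).symm) (pw1_mem N.toNet n) h v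
  have h2 : Val l v (vl l v) := Classical.epsilon_spec ⟨_, (h1 _).2 rfl⟩
  exact (h1 _).1 h2

omit N Gg in
lemma pot_cov {T : Ix → Ix → GF.Fld D} {l : Fn → Completion D} (hl : IsPot Q T l)
    {κ : 𝓢(Mink, ℂ) →L[ℂ] Completion D} (hκ : ∀ f, κ f = l (fl f)) (g : 𝓢(Mink, ℂ))
    (a : Mink) (z : D) : inner ℂ ((U1 Q a z : D) : Completion D) (κ (tauS a g)) =
      inner ℂ (z : Completion D) (κ g) := by
  rw [hκ, hκ]
  have h1 := hl.cov 1 GF.one a.ofLp (fl (tauS a g)) z one_pos isLor_one (isTest_fl _)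
  rw [fl_shift, tauS_tauS] at h1
  have h2 : a + -WithLp.toLp 2 a.ofLp = 0 := by ext i; simp
  rw [h2, tauS_zero'] at h1
  rw [one_pow, ofReal_one, one_mul] at h1
  exact h1

omit Gg in
/-- the potential is a scalar -/
lemma vl_inv {T : Ix → Ix → GF.Fld D} {l : Fn → Completion D} (hl : IsPot Q T l)
    {L : Ix → V} (hL : GF.IsLor L) (v : D) : vl l (Q.U 1 L 0 v) = vl l v := by
  obtain ⟨κ, hκ⟩ := hl.exists_clm
  obtain ⟨φ, φ', φ'', n, h, d1, d2⟩ := exists_pdata N κ (pot_cov hl hκ) 0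
  have hv := fun v => vl_rep N hl hκ h v
  have hB := pw1_mem N.toNet n
  rw [hv, hv]
  have hc1 : Continuous fun x : Mink => pt φ (pw1 H n) (U1 Q (-x) (Q.U 1 L 0 v)) :=
    cont_pt N.toNet hB _
  have hc2 : Continuous fun x : Mink => pt φ (pw1 H n) (U1 Q (-(lam (linv L) x)) v) :=
    (cont_pt N.toNet hB v).comp (continuous_lam (linv L))
  have h1 := fun_unique hc1 hc2 (fun F hF => by
    rw [← h F]
    have h2 := hl.cov 1 L 0 (fl F) v one_pos hL (isTest_fl _)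
    rw [one_pow, ofReal_one, one_mul, fl_sim 1 one_pos hL 0, ← hκ, ← hκ] at h2
    have h3 := congrArg (starRingEnd ℂ) h2
    rw [inner_conj_symm, inner_conj_symm] at h3
    rw [h3, h]
    have h4 := int_sim one_pos hL
      (fun x => conj (F x) * pt φ (pw1 H n) (U1 Q (-(lam (linv L) x)) v))
    have h5 : ∀ y : Mink, lam (linv L) ((1 : ℝ) • lam L y) = y := by
      intro y
      rw [one_smul, linv_lam hL]
    simp only [h5] at h4
    simp only [simS0_apply]
    rw [h4]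
    simp)
  have h2 := congrFun h1 0
  have h6 : lam (linv L) (0 : Mink) = 0 := by
    ext n
    simp [lam_apply]
  simp only [h6, neg_zero, U1_zero_all] at h2
  exact h2

theorem plane_vl {T : Ix → Ix → GF.Fld D} {l : Fn → Completion D} (hl : IsPot Q T l) {a b : V}
    (ha : IsNull a) (hb : IsNull b) (hab : GF.mdot a b = 1)
    (hp : ∀ s w, GF.mdot a w = 0 → Ptr Q S a s w) {X : D} (A : 𝓢(V, ℂ))
    (hA : ∀ y, vl l (Q.U 1 GF.one (-y) X) = A y) (y : V) :
    vl l (pl Q G a b X y) = vl l (G a (Q.U 1 GF.one (-y) X)) +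
      I * (Wq a b y : ℂ) * (∂_{a} A : 𝓢(V, ℂ)) y := by
  obtain ⟨κ, hκ⟩ := hl.exists_clm
  obtain ⟨φ, φ', φ'', n, h, d1, d2⟩ := exists_pdata N κ (pot_cov hl hκ) a
  exact plane_sch N Gg ha hb hab hp (f := vl l) (fun v => vl_rep N hl hκ h v) d1 d2
    (fun L v hL hLa => vl_inv N hl hL v) A hA y

/-! ### Reciprocity -/

omit N Gg in
lemma prp_symm (a b y : V) : prp a b y = prp b a y := by
  unfold prp
  abel

omit N Gg in
lemma int_perp {a b : V} {θ τ : ℝ → ℝ} (hθ : Bd θ) (hτ : Bd τ) (Am : Ix → 𝓢(V, ℂ)) :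
    Integrable fun y : V => ((θ (GF.mdot a y) * τ (GF.mdot b y) : ℝ) : ℂ) *
      ∑ m, ((GF.eta m * prp a b y m : ℝ) : ℂ) * Am m y := by
  obtain ⟨C1, h1⟩ := hθ.2
  obtain ⟨C2, h2⟩ := hτ.2
  have hC1 : 0 ≤ C1 := (abs_nonneg _).trans (h1 0)
  have hC2 : 0 ≤ C2 := (abs_nonneg _).trans (h2 0)
  have hi : ∀ m, Integrable fun y : V => ((θ (GF.mdot a y) * τ (GF.mdot b y) *
      (GF.eta m * prp a b y m) : ℝ) : ℂ) * Am m y := by
    intro m
    refine int_pol (Am m) (M := C1 * C2 * (1 + 8 * ‖a‖ * ‖b‖)) ?_ fun y => ?_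
    · have h3 : Continuous fun y : V => prp a b y m := by
        have : (fun y : V => prp a b y m) = fun y : V => y m - GF.mdot a y * b m -
            GF.mdot b y * a m := by
          funext y
          simp [prp]
        rw [this]
        have := continuous_gm a
        have := continuous_gm b
        fun_prop
      exact continuous_ofReal.comp (((hθ.1.comp (continuous_gm a)).mul
        (hτ.1.comp (continuous_gm b))).mul (continuous_const.mul h3))
    · have h3 : |prp a b y m| ≤ (1 + 8 * ‖a‖ * ‖b‖) * ‖y‖ := by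
        have e : prp a b y m = y m - GF.mdot a y * b m - GF.mdot b y * a m := by simp [prp]
        rw [e]
        have g1 := abs_gm_le a y
        have g2 := abs_gm_le b y
        have g3 : |y m| ≤ ‖y‖ := norm_le_pi_norm y m
        have g4 : |b m| ≤ ‖b‖ := norm_le_pi_norm b m
        have g5 : |a m| ≤ ‖a‖ := norm_le_pi_norm a m
        refine (abs_sub _ _).trans ((add_le_add_left (abs_sub _ _) _).trans ?_)
        rw [abs_mul, abs_mul]
        calc |y m| + |GF.mdot a y| * |b m| + |GF.mdot b y| * |a m|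
            ≤ ‖y‖ + (4 * ‖a‖ * ‖y‖) * ‖b‖ + (4 * ‖b‖ * ‖y‖) * ‖a‖ := by gcongr
          _ = _ := by ring
      have h4 : |GF.eta m| = 1 := by unfold GF.eta; split_ifs <;> simp
      rw [norm_real, Real.norm_eq_abs, abs_mul, abs_mul, abs_mul, h4, one_mul]
      have h5 : ‖y‖ ≤ 1 + ‖y‖ ^ 2 := by nlinarith [sq_nonneg (‖y‖ - 1)]
      calc |θ (GF.mdot a y)| * |τ (GF.mdot b y)| * |prp a b y m| ≤
            C1 * C2 * ((1 + 8 * ‖a‖ * ‖b‖) * ‖y‖) := by
            gcongr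
            · exact h1 _
            · exact h2 _
        _ ≤ C1 * C2 * ((1 + 8 * ‖a‖ * ‖b‖) * (1 + ‖y‖ ^ 2)) := by gcongr
        _ = _ := by ring
  have hs := integrable_finset_sum (Finset.univ : Finset Ix) fun m _ => hi m
  refine hs.congr (Eventually.of_forall fun y => ?_)
  simp only
  rw [Finset.mul_sum]
  refine Finset.sum_congr rfl fun m _ => ?_
  push_cast
  ring

/-- RECIPROCITY from the symmetry of the light front forms -/
theorem recip_main {T : Ix → Ix → GF.Fld D} {J : Ix → GF.Fld D} (hJ : IsVirial Q T J)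
    {l : Fn → Completion D} (hl : IsPot Q T l) {a b : V}
    (ha : IsNull a) (hb : IsNull b) (hab : GF.mdot a b = 1)
    (hpa : ∀ s w, GF.mdot a w = 0 → Ptr Q S a s w) (hpb : ∀ s w, GF.mdot b w = 0 → Ptr Q S b s w)
    {φ σ : ℝ → ℝ} (hφ : Tst φ) (hσ : Tst σ) {X : D}
    (n0a : ∀ y, vc Q J a (G a (Q.U 1 GF.one (-y) X)) = 0)
    (n0b : ∀ y, vc Q J b (G b (Q.U 1 GF.one (-y) X)) = 0)
    (Am : Ix → 𝓢(V, ℂ)) (hAm : ∀ m y, vj Q J m (Q.U 1 GF.one (-y) X) = Am m y)
    (Lm : 𝓢(V, ℂ)) (hLm : ∀ y, vl l (Q.U 1 GF.one (-y) X) = Lm y)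
    (Z Z' : 𝓢(V, ℂ)) (hZ : ∀ y, vl l (G a (Q.U 1 GF.one (-y) X)) = Z y)
    (hZ' : ∀ y, vl l (G b (Q.U 1 GF.one (-y) X)) = Z' y)
    (h : Sid a b φ σ (fun y => vc Q J a (pl Q G a b X y)) (fun y => vl l (pl Q G a b X y))
        (fun y => vc Q J b (Q.U 1 GF.one (-y) X))
        (fun y => vc Q J (prp a b y) (Q.U 1 GF.one (-y) X)) =
      Sid b a σ φ (fun y => vc Q J b (pl Q G b a X y)) (fun y => vl l (pl Q G b a X y))
        (fun y => vc Q J a (Q.U 1 GF.one (-y) X))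
        (fun y => vc Q J (prp b a y) (Q.U 1 GF.one (-y) X))) :
    ∫ y : V, ((deriv (deriv φ) (GF.mdot a y) * deriv σ (GF.mdot b y) : ℝ) : ℂ) * Z y =
      ∫ y : V, ((deriv (deriv σ) (GF.mdot b y) * deriv φ (GF.mdot a y) : ℝ) : ℂ) * Z' y := by
  have hba : GF.mdot b a = 1 := by rw [gm_comm, hab]
  set Ac : V → 𝓢(V, ℂ) := fun c => ∑ m, ((GF.eta m * c m : ℝ) : ℂ) • Am m with hAc
  have hAc' : ∀ c y, vc Q J c (Q.U 1 GF.one (-y) X) = Ac c y := by
    intro c y
    simp only [vc, hAm, hAc, SchwartzMap.sum_apply, SchwartzMap.smul_apply, smul_eq_mul]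
  have eB : (fun y => vc Q J b (Q.U 1 GF.one (-y) X)) = Ac b := funext fun y => hAc' b y
  have eA : (fun y => vc Q J a (Q.U 1 GF.one (-y) X)) = Ac a := funext fun y => hAc' a y
  have eC : (fun y => vc Q J (prp a b y) (Q.U 1 GF.one (-y) X)) =
      fun y => ∑ m, ((GF.eta m * prp a b y m : ℝ) : ℂ) * Am m y := by
    funext y
    simp only [vc, hAm]
  have eC' : (fun y => vc Q J (prp b a y) (Q.U 1 GF.one (-y) X)) =
      fun y => ∑ m, ((GF.eta m * prp a b y m : ℝ) : ℂ) * Am m y := by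
    funext y
    rw [prp_symm b a]
    simp only [vc, hAm]
  rw [eA, eB, eC, eC'] at h
  refine recip ha.1 hb.1 hab hφ hσ (Ac a) (Ac b) Lm Z Z'
    (int_perp (tst_bd (tst_deriv hφ)) (tst_bd (tst_deriv hσ)) Am) (fun y => ?_) (fun y => ?_)
    (fun y => ?_) (fun y => ?_) h
  · rw [plane_vc N Gg hJ ha hb hab hpa (Ac a) (hAc' a) y, n0a, zero_add]
  · rw [plane_vl N Gg hl ha hb hab hpa Lm hLm y, hZ]
  · rw [plane_vc N Gg hJ hb ha hba hpb (Ac b) (hAc' b) y, n0b, zero_add]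
  · rw [plane_vl N Gg hl hb ha hba hpb Lm hLm y, hZ']

end

end Vale.Agent.P352.H746

end
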