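import Vale.Agent.P352.H496.Twin

set_option linter.all false

noncomputable section

open MeasureTheory SchwartzMap Complex Filter Topology
open scoped SchwartzMap ComplexConjugate ENNReal NNReal LineDeriv FourierTransform

namespace Vale.Agent.P352.H746

open GF (Ix V Fn Sch ev pd bar sim bas o)
open H246 H496
open UniformSpace (Completion)

/-! ### Scaling of test functions -/

lemma seminorm_scale_le (k n : ℕ) (R : ℝ) (hR : 1 ≤ R) (h0 : R ≠ 0) (g : 𝓢(Mink, ℂ)) :
    SchwartzMap.seminorm ℂ k n (scaleS R h0 g) ≤ R ^ n * SchwartzMap.seminorm ℂ k n g := by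
  have hR0 : 0 < R := lt_of_lt_of_le one_pos hR
  apply SchwartzMap.seminorm_le_bound ℂ k n _ (by positivity)
  intro x
  set L : Mink →L[ℝ] Mink := R • ContinuousLinearMap.id ℝ Mink with hL
  have hfun : (scaleS R h0 g : Mink → ℂ) = g ∘ L := by
    funext y
    rw [scaleS_apply]
    rfl
  have hLn : ‖L‖ ≤ R := by
    rw [hL, norm_smul, Real.norm_of_nonneg hR0.le]
    have := ContinuousLinearMap.norm_id_le (𝕜 := ℝ) (E := Mink)
    nlinarith
  have h1 : iteratedFDeriv ℝ n (g ∘ L) x =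
      (iteratedFDeriv ℝ n g (L x)).compContinuousLinearMap fun _ => L :=
    ContinuousLinearMap.iteratedFDeriv_comp_right L (g.smooth n) x le_rfl
  rw [hfun, h1]
  have h2 : ‖(iteratedFDeriv ℝ n g (L x)).compContinuousLinearMap fun _ => L‖ ≤
      ‖iteratedFDeriv ℝ n g (L x)‖ * R ^ n := by
    refine (ContinuousMultilinearMap.norm_compContinuousLinearMap_le _ _).trans ?_
    gcongr
    rw [Finset.prod_const, Finset.card_univ, Fintype.card_fin]
    gcongr
  have h3 : ‖x‖ ≤ ‖L x‖ := by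
    have : L x = R • x := rfl
    rw [this, norm_smul, Real.norm_of_nonneg hR0.le]
    have := norm_nonneg x
    nlinarith
  calc ‖x‖ ^ k * ‖(iteratedFDeriv ℝ n g (L x)).compContinuousLinearMap fun _ => L‖
      ≤ ‖L x‖ ^ k * (‖iteratedFDeriv ℝ n g (L x)‖ * R ^ n) := by gcongr
    _ = R ^ n * (‖L x‖ ^ k * ‖iteratedFDeriv ℝ n g (L x)‖) := by ring
    _ ≤ R ^ n * SchwartzMap.seminorm ℂ k n g := by
        gcongr
        exact SchwartzMap.le_seminorm ℂ k n g (L x)

/-- continuous linear maps are polynomially bounded on scaled test functions -/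
lemma exists_scale_bound {F : Type*} [NormedAddCommGroup F] [NormedSpace ℂ F]
    (κ : 𝓢(Mink, ℂ) →L[ℂ] F) (g : 𝓢(Mink, ℂ)) :
    ∃ (C : ℝ) (m : ℕ), 0 ≤ C ∧ ∀ (R : ℝ) (h0 : R ≠ 0), 1 ≤ R → ‖κ (scaleS R h0 g)‖ ≤ C * R ^ m := by
  obtain ⟨s, C, hC, hb⟩ := Seminorm.bound_of_continuous (schwartz_withSeminorms ℂ Mink ℂ)
    ((normSeminorm ℂ F).comp (κ : 𝓢(Mink, ℂ) →ₗ[ℂ] F))
    (by
      show Continuous fun f => ‖κ f‖
      exact κ.continuous.norm)
  set m : ℕ := s.sup fun i => i.2 with hm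
  set A : ℝ := ∑ i ∈ s, SchwartzMap.seminorm ℂ i.1 i.2 g with hA
  have hA0 : 0 ≤ A := Finset.sum_nonneg fun i hi => apply_nonneg _ _
  refine ⟨C * A, m, by positivity, fun R h0 hR => ?_⟩
  have h1 : ‖κ (scaleS R h0 g)‖ ≤ (C : ℝ) * (s.sup (schwartzSeminormFamily ℂ Mink ℂ)) (scaleS R h0 g) :=
    hb (scaleS R h0 g)
  refine h1.trans ?_
  rw [mul_assoc]
  gcongr
  apply Seminorm.finset_sup_apply_le (by positivity)
  intro i hi
  calc SchwartzMap.seminorm ℂ i.1 i.2 (scaleS R h0 g)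
      ≤ R ^ i.2 * SchwartzMap.seminorm ℂ i.1 i.2 g := seminorm_scale_le _ _ R hR h0 g
    _ ≤ R ^ m * A := by
        have e1 : R ^ i.2 ≤ R ^ m :=
          pow_le_pow_right₀ hR (Finset.le_sup (f := fun i : ℕ × ℕ => i.2) hi)
        have e2 : SchwartzMap.seminorm ℂ i.1 i.2 g ≤ A :=
          Finset.single_le_sum (f := fun i : ℕ × ℕ => SchwartzMap.seminorm ℂ i.1 i.2 g)
            (fun i hi => apply_nonneg _ _) hi
        exact mul_le_mul e1 e2 (apply_nonneg _ _) (by positivity)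
    _ = _ := by ring

/-! ### Measures of polynomial growth -/

lemma temp_of_ball {μ : Measure Mink} {C : ℝ} {m : ℕ} (hC : 0 ≤ C)
    (h : ∀ k : ℕ, μ (Metric.closedBall 0 ((k : ℝ) + 1)) ≤ ENNReal.ofReal (C * ((k : ℝ) + 1) ^ m)) :
    μ.HasTemperateGrowth := by
  refine ⟨m + 2, ?_⟩
  have hmeas : Continuous fun x : Mink => (1 + ‖x‖) ^ (-((m + 2 : ℕ) : ℝ)) := by
    apply Continuous.rpow_const (by fun_prop)
    intro x
    left
    positivity
  refine ⟨hmeas.aestronglyMeasurable, ?_⟩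
  rw [HasFiniteIntegral]
  have h1 : ∫⁻ x, ‖(1 + ‖x‖) ^ (-((m + 2 : ℕ) : ℝ))‖ₑ ∂μ ≤
      ∑' k : ℕ, ENNReal.ofReal (C * (((k : ℝ) + 1) ^ 2)⁻¹) := by
    rw [← setLIntegral_univ, ← iUnion_shell, lintegral_iUnion measurableSet_shell shell_disjoint]
    apply ENNReal.tsum_le_tsum
    intro k
    have hk : (0 : ℝ) < (k : ℝ) + 1 := by positivity
    calc ∫⁻ x in shell k, ‖(1 + ‖x‖) ^ (-((m + 2 : ℕ) : ℝ))‖ₑ ∂μ
        ≤ ∫⁻ x in shell k, ENNReal.ofReal (((k : ℝ) + 1) ^ (-((m + 2 : ℕ) : ℝ))) ∂μ := by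
          apply setLIntegral_mono' (measurableSet_shell k)
          intro x hx
          have hx1 : (k : ℝ) ≤ ‖x‖ := by
            have h : ⌊‖x‖⌋₊ = k := hx
            rw [← h]
            exact Nat.floor_le (norm_nonneg x)
          rw [← ofReal_norm, Real.norm_of_nonneg (by positivity)]
          apply ENNReal.ofReal_le_ofReal
          apply Real.rpow_le_rpow_of_nonpos hk (by linarith only [hx1])
          simp only [Left.neg_nonpos_iff, Nat.cast_nonneg]
      _ = ENNReal.ofReal (((k : ℝ) + 1) ^ (-((m + 2 : ℕ) : ℝ))) * μ (shell k) := by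
          rw [setLIntegral_const]
      _ ≤ ENNReal.ofReal (((k : ℝ) + 1) ^ (-((m + 2 : ℕ) : ℝ))) *
          μ (Metric.closedBall 0 ((k : ℝ) + 1)) := by
          gcongr
          intro x hx
          rw [Metric.mem_closedBall, dist_zero_right]
          exact norm_lt_of_shell hx
      _ ≤ ENNReal.ofReal (((k : ℝ) + 1) ^ (-((m + 2 : ℕ) : ℝ))) *
          ENNReal.ofReal (C * ((k : ℝ) + 1) ^ m) := by
          gcongr
          exact h k
      _ = ENNReal.ofReal (C * (((k : ℝ) + 1) ^ 2)⁻¹) := by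
          rw [← ENNReal.ofReal_mul (by positivity)]
          congr 1
          rw [Real.rpow_neg hk.le, Real.rpow_natCast, pow_add]
          field_simp
  refine lt_of_le_of_lt h1 ?_
  have hsum : Summable fun k : ℕ => C * (((k : ℝ) + 1) ^ 2)⁻¹ := by
    apply Summable.mul_left
    have h2 : Summable fun k : ℕ => ((k : ℝ) ^ 2)⁻¹ := by
      exact Real.summable_nat_pow_inv.2 (by norm_num)
    have h3 := (summable_nat_add_iff 1).2 h2
    refine h3.congr fun k => ?_
    push_cast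
    rfl
  exact hsum.tsum_ofReal_lt_top

/-- the spectral measure of a covariant tempered distribution has polynomial growth -/
theorem exists_ball_bound {F : Type*} [NormedAddCommGroup F] [InnerProductSpace ℂ F]
    [CompleteSpace F] (κ : 𝓢(Mink, ℂ) →L[ℂ] F) {ν : 𝓢(Mink, ℂ) → Measure Mink}
    (S : SpecData (fun g => κ g) ν) {μ : Measure Mink}
    (hμ : ∀ g, ν g = μ.withDensity (dens g)) :
    ∃ (C : ℝ) (m : ℕ), 0 ≤ C ∧ ∀ k : ℕ,
      μ (Metric.closedBall 0 ((k : ℝ) + 1)) ≤ ENNReal.ofReal (C * ((k : ℝ) + 1) ^ m) := by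
  obtain ⟨g, -, hne⟩ := exists_test_ne_zero (W := (Set.univ : Set Mink)) isOpen_univ
    ⟨0, trivial⟩ 1
  obtain ⟨C, m, hC, hb⟩ := exists_scale_bound κ g
  -- lower bound of the Fourier transform on the unit ball
  obtain ⟨p0, hp0, hmin⟩ := (isCompact_closedBall (0 : Mink) 1).exists_isMinOn
    ⟨0, by simp⟩ ((continuous_mft g).norm.continuousOn)
  set c := ‖mft g p0‖ with hc
  have hc0 : 0 < c := by
    rw [hc, norm_pos_iff]
    exact hne p0 (by simpa using hp0)
  refine ⟨(C ^ 2) * (c ^ 2)⁻¹, 2 * m + 8, by positivity, fun k => ?_⟩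
  set R : ℝ := (k : ℝ) + 1 with hR
  have hR1 : 1 ≤ R := by rw [hR]; have : (0 : ℝ) ≤ k := Nat.cast_nonneg k; linarith
  have hR0 : 0 < R := lt_of_lt_of_le one_pos hR1
  set f := scaleS R hR0.ne' g with hf
  have hfin := S.fin f
  -- total mass
  have h1 : ν f Set.univ = ENNReal.ofReal (‖κ f‖ ^ 2) := by
    have h2 := S.spec f 0
    rw [tauS_zero'] at h2
    simp only [chr_zero'] at h2
    have h3 : ∫ p : Mink, (1 : ℂ) ∂(ν f) = (((ν f).real Set.univ : ℝ) : ℂ) := by simp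
    rw [h3, inner_self_eq_norm_sq_to_K] at h2
    have h5 : (((ν f).real Set.univ : ℝ) : ℂ) = ((‖κ f‖ ^ 2 : ℝ) : ℂ) := by
      rw [← h2]; push_cast; rfl
    have h4 : (ν f).real Set.univ = ‖κ f‖ ^ 2 := Complex.ofReal_injective h5
    rw [← h4, ofReal_measureReal]
  have h2 : ENNReal.ofReal ((c * (R ^ 4)⁻¹) ^ 2) * μ (Metric.closedBall 0 R) ≤ ν f Set.univ := by
    rw [hμ f, withDensity_apply _ MeasurableSet.univ, ← setLIntegral_const]
    refine le_trans ?_ (lintegral_mono_set (Set.subset_univ (Metric.closedBall (0 : Mink) R)))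
    apply setLIntegral_mono (measurable_dens f)
    intro p hp
    unfold dens
    rw [ENNReal.ofReal_pow (by positivity)]
    gcongr
    rw [← ofReal_norm]
    apply ENNReal.ofReal_le_ofReal
    rw [hf, mft_scaleS R hR0, norm_mul, norm_real, Real.norm_of_nonneg (by positivity), mul_comm]
    gcongr
    apply hmin
    rw [Metric.mem_closedBall, dist_zero_right] at hp ⊢
    rw [norm_smul, norm_inv, Real.norm_of_nonneg hR0.le, inv_mul_le_iff₀ hR0, mul_one]
    exact hp
  have h3 : ‖κ f‖ ^ 2 ≤ (C * R ^ m) ^ 2 := by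
    have := hb R hR0.ne' hR1
    gcongr
  have h4 : ENNReal.ofReal ((c * (R ^ 4)⁻¹) ^ 2) * μ (Metric.closedBall 0 R) ≤
      ENNReal.ofReal ((C * R ^ m) ^ 2) := by
    rw [h1] at h2
    exact h2.trans (ENNReal.ofReal_le_ofReal h3)
  have h5 : μ (Metric.closedBall 0 R) ≤ (ENNReal.ofReal ((c * (R ^ 4)⁻¹) ^ 2))⁻¹ *
      ENNReal.ofReal ((C * R ^ m) ^ 2) := by
    rw [← ENNReal.mul_le_iff_le_inv]
    · exact h4
    · simp only [ne_eq, ENNReal.ofReal_eq_zero, not_le]; positivity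
    · exact ENNReal.ofReal_ne_top
  refine h5.trans (le_of_eq ?_)
  rw [← ENNReal.ofReal_inv_of_pos (by positivity), ← ENNReal.ofReal_mul (by positivity)]
  congr 1
  field_simp
  ring

/-- a measure of polynomial growth is finite on compact sets -/
lemma fin_compact {μ : Measure Mink} {C : ℝ} {m : ℕ}
    (h : ∀ k : ℕ, μ (Metric.closedBall 0 ((k : ℝ) + 1)) ≤ ENNReal.ofReal (C * ((k : ℝ) + 1) ^ m)) :
    IsFiniteMeasureOnCompacts μ := by
  constructor
  intro K hK
  obtain ⟨r, hr⟩ := hK.isBounded.subset_closedBall (0 : Mink)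
  obtain ⟨k, hk⟩ := exists_nat_ge r
  have h1 : K ⊆ Metric.closedBall 0 ((k : ℝ) + 1) :=
    hr.trans (Metric.closedBall_subset_closedBall (by linarith))
  exact lt_of_le_of_lt ((measure_mono h1).trans (h k)) ENNReal.ofReal_lt_top

/-- the Fourier transform is onto -/
lemma mftS_surj (u : 𝓢(Mink, ℂ)) : ∃ f, mftS f = u := by
  refine ⟨(FourierTransform.fourierCLE ℂ 𝓢(Mink, ℂ)).symm
    (SchwartzMap.compCLMOfContinuousLinearEquiv ℂ mftEquiv.symm u), ?_⟩
  show SchwartzMap.compCLMOfContinuousLinearEquiv ℂ mftEquiv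
    ((FourierTransform.fourierCLE ℂ 𝓢(Mink, ℂ)) ((FourierTransform.fourierCLE ℂ 𝓢(Mink, ℂ)).symm
      (SchwartzMap.compCLMOfContinuousLinearEquiv ℂ mftEquiv.symm u))) = u
  rw [ContinuousLinearEquiv.apply_symm_apply]
  ext x
  simp

/-- Fourier transforms of test functions are dense -/
theorem denseRange_toL_gen {μ : Measure Mink} (hμ : μ.HasTemperateGrowth)
    [IsFiniteMeasureOnCompacts μ] : DenseRange (toL hμ) := by
  have h1 : DenseRange (SchwartzMap.toLpCLM ℂ ℂ 2 μ) := by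
    have := SchwartzMap.denseRange_toLpCLM (E := Mink) (F := ℂ) (p := 2) (by norm_num) (μ := μ)
    exact this
  have h2 : Set.range (SchwartzMap.toLpCLM ℂ ℂ 2 μ) ⊆ Set.range (toL hμ) := by
    rintro _ ⟨u, rfl⟩
    obtain ⟨f, rfl⟩ := mftS_surj u
    refine ⟨f, ?_⟩
    rw [SchwartzMap.toLpCLM_apply]
    apply Lp.ext
    filter_upwards [coeFn_toL hμ f, SchwartzMap.coeFn_toLp (mftS f) 2 μ] with p h1 h2
    rw [h1, h2, mftS_apply]
  exact h1.mono h2

end Vale.Agent.P352.H746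

end
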