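import Vale.Agent.P352.H755.G1

set_option linter.all false

noncomputable section

open MeasureTheory Filter Topology Set
open scoped ContDiff ComplexConjugate

namespace Vale.Agent.P352.H746

open GF (Ix V Fn bas eta)
open H246 H496 H755
open UniformSpace (Completion)

/-! ### ROW LOC: the action of the vector field on the gradient of a cutoff -/

lemma eta_sq (m : Ix) : eta m * eta m = 1 := by
  unfold eta
  split_ifs <;> norm_num

lemma eta0 : eta 0 = 1 := by unfold eta; exact if_pos rfl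
lemma eta1 : eta 1 = -1 := by unfold eta; exact if_neg (by decide)
lemma eta2 : eta 2 = -1 := by unfold eta; exact if_neg (by decide)
lemma eta3 : eta 3 = -1 := by unfold eta; exact if_neg (by decide)

lemma mdot_expand (x y : V) : GF.mdot x y = x 0 * y 0 - x 1 * y 1 - x 2 * y 2 - x 3 * y 3 := by
  simp only [GF.mdot, Fin.sum_univ_four, eta0, eta1, eta2, eta3]
  ring

/-- the derivative along a coordinate direction -/
def HD (m : Ix) (f : V → ℝ) (d : ℝ) (x : V) : Prop := HasDerivAt (fun t => f (x + bas m t)) d 0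

lemma HD.dr {m : Ix} {f : V → ℝ} {d : ℝ} {x : V} (h : HD m f d x) : H755.dr m f x = d := h.deriv

lemma bas_zero (m : Ix) : bas m 0 = (0 : V) := by
  funext n
  simp [bas]

lemma hd_congr {m : Ix} {f g : V → ℝ} {x : V} (h : f =ᶠ[𝓝 x] g) :
    H755.dr m f x = H755.dr m g x := by
  unfold H755.dr
  apply Filter.EventuallyEq.deriv_eq
  have hc : Tendsto (fun t : ℝ => x + bas m t) (𝓝 0) (𝓝 x) := by
    have h1 : Continuous fun t : ℝ => x + bas m t := by
      refine continuous_const.add (continuous_pi fun n => ?_)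
      unfold bas
      split_ifs
      · exact continuous_id
      · exact continuous_const
    have h2 := h1.tendsto 0
    simpa [bas_zero] using h2
  exact hc.eventually h

lemma hd_coord (m j : Ix) (x : V) : HD m (fun y => y j) (bas m 1 j) x := by
  unfold HD
  have : (fun t : ℝ => (x + bas m t) j) = fun t => x j + t * bas m 1 j := by
    funext t
    simp [bas]
  rw [this]
  simpa using ((hasDerivAt_id (0 : ℝ)).mul_const (bas m 1 j)).const_add (x j)

lemma hd_mdot (m : Ix) (a x : V) : HD m (fun y => GF.mdot a y) (eta m * a m) x := by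
  unfold HD
  have : (fun t : ℝ => GF.mdot a (x + bas m t)) = fun t => GF.mdot a x + t * (eta m * a m) := by
    funext t
    have h1 : GF.mdot a (x + bas m t) = GF.mdot a x + GF.mdot a (bas m t) := by
      simp only [GF.mdot, Pi.add_apply, mul_add, Finset.sum_add_distrib]
    rw [h1]
    simp only [GF.mdot, bas, mul_ite, mul_zero, Finset.sum_ite_eq', Finset.mem_univ, if_true]
    simp
    ring
  rw [this]
  simpa using ((hasDerivAt_id (0 : ℝ)).mul_const (eta m * a m)).const_add (GF.mdot a x)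

lemma HD.add {m : Ix} {f g : V → ℝ} {d e : ℝ} {x : V} (hf : HD m f d x) (hg : HD m g e x) :
    HD m (fun y => f y + g y) (d + e) x := HasDerivAt.fun_add hf hg

lemma HD.sub {m : Ix} {f g : V → ℝ} {d e : ℝ} {x : V} (hf : HD m f d x) (hg : HD m g e x) :
    HD m (fun y => f y - g y) (d - e) x := HasDerivAt.fun_sub hf hg

lemma HD.mul {m : Ix} {f g : V → ℝ} {d e : ℝ} {x : V} (hf : HD m f d x) (hg : HD m g e x) :
    HD m (fun y => f y * g y) (d * g x + f x * e) x := by
  have h := HasDerivAt.fun_mul hf hg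
  simpa [HD, bas_zero] using h

lemma HD.const {m : Ix} (c : ℝ) (x : V) : HD m (fun _ => c) 0 x := hasDerivAt_const _ _

lemma HD.comp {m : Ix} {f : V → ℝ} {d : ℝ} {x : V} {φ : ℝ → ℝ} (hφ : Differentiable ℝ φ)
    (hf : HD m f d x) : HD m (fun y => φ (f y)) (deriv φ (f x) * d) x := by
  unfold HD at hf ⊢
  have h1 : HasDerivAt φ (deriv φ (f x)) (f (x + bas m 0)) := by
    rw [bas_zero, add_zero]
    exact (hφ _).hasDerivAt
  exact h1.comp (0 : ℝ) hf

lemma HD.congr_d {m : Ix} {f : V → ℝ} {d e : ℝ} {x : V} (hf : HD m f d x) (h : d = e) :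
    HD m f e x := h ▸ hf

lemma tder {φ : ℝ → ℝ} (h : Tst φ) : Tst (deriv φ) := by
  refine ⟨?_, h.2.deriv⟩
  have := h.1
  rw [show (∞ : WithTop ℕ∞) = ∞ + 1 by rfl] at this
  exact ((contDiff_succ_iff_deriv (𝕜 := ℝ)).1 this).2.2

lemma tdif {φ : ℝ → ℝ} (h : Tst φ) : Differentiable ℝ φ := h.1.differentiable (by simp)

/-- components of the vector field -/
lemma yf_apply (a b : V) (haa : GF.mdot a a = 0) (hbb : GF.mdot b b = 0) (hab : GF.mdot a b = 1)
    (Φ : ℝ → ℝ) (x : V) (j : Ix) : Yf a b Φ x j =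
      deriv Φ (GF.mdot a x) * (x j - GF.mdot a x * b j - GF.mdot b x * a j) +
      1 / 2 * deriv (deriv Φ) (GF.mdot a x) * (2 * (GF.mdot a x * GF.mdot b x) - GF.mdot x x) * a j +
      2 * Φ (GF.mdot a x) * b j := by
  have hw : GF.mdot (x - GF.mdot a x • b - GF.mdot b x • a) (x - GF.mdot a x • b - GF.mdot b x • a) =
      GF.mdot x x - 2 * (GF.mdot a x * GF.mdot b x) := by
    rw [mdot_expand] at haa hbb hab
    rw [mdot_expand (x - GF.mdot a x • b - GF.mdot b x • a)]
    simp only [Pi.sub_apply, Pi.smul_apply, smul_eq_mul]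
    have ea := mdot_expand a x
    have eb := mdot_expand b x
    have ex := mdot_expand x x
    generalize GF.mdot a x = u at *
    generalize GF.mdot b x = v at *
    rw [ex]
    linear_combination u ^ 2 * hbb + v ^ 2 * haa + 2 * u * v * hab + 2 * v * ea + 2 * u * eb
  simp only [Yf]
  rw [hw]
  simp only [Pi.add_apply, Pi.sub_apply, Pi.smul_apply, smul_eq_mul]
  ring

/-- the derivatives of the vector field -/
lemma hd_yf {a b : V} (haa : GF.mdot a a = 0) (hbb : GF.mdot b b = 0) (hab : GF.mdot a b = 1)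
    {Φ : ℝ → ℝ} (hΦ : Tst Φ) (x : V) (m j : Ix) : HD m (fun y => Yf a b Φ y j)
      (deriv Φ (GF.mdot a x) * (bas m 1 j + eta m * a m * b j - eta m * b m * a j) +
      deriv (deriv Φ) (GF.mdot a x) * (eta m * a m * (x j - GF.mdot a x * b j - GF.mdot b x * a j) -
        eta m * (x m - GF.mdot a x * b m - GF.mdot b x * a m) * a j) +
      1 / 2 * deriv (deriv (deriv Φ)) (GF.mdot a x) * (eta m * a m) *
        (2 * (GF.mdot a x * GF.mdot b x) - GF.mdot x x) * a j) x := by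
  have e : (fun y => Yf a b Φ y j) = fun y =>
      deriv Φ (GF.mdot a y) * (y j - GF.mdot a y * b j - GF.mdot b y * a j) +
      1 / 2 * deriv (deriv Φ) (GF.mdot a y) * (2 * (GF.mdot a y * GF.mdot b y) - GF.mdot y y) * a j +
      2 * Φ (GF.mdot a y) * b j := funext fun y => yf_apply a b haa hbb hab Φ y j
  rw [e]
  have hu := hd_mdot m a x
  have hv := hd_mdot m b x
  have h0 := HD.comp (tdif hΦ) hu
  have h1 := HD.comp (tdif (tder hΦ)) hu
  have h2 := HD.comp (tdif (tder (tder hΦ))) hu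
  have hc : ∀ k : ℝ, HD m (fun _ : V => k) 0 x := fun k => HD.const k x
  have hxx : HD m (fun y : V => GF.mdot y y) (2 * (eta m * x m)) x := by
    have : (fun y : V => GF.mdot y y) = fun y => y 0 * y 0 - y 1 * y 1 - y 2 * y 2 - y 3 * y 3 :=
      funext fun y => mdot_expand y y
    rw [this]
    refine (((((hd_coord m 0 x).mul (hd_coord m 0 x)).sub ((hd_coord m 1 x).mul (hd_coord m 1 x))).sub
      ((hd_coord m 2 x).mul (hd_coord m 2 x))).sub ((hd_coord m 3 x).mul (hd_coord m 3 x))).congr_d ?_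
    fin_cases m <;> simp [bas, eta0, eta1, eta2, eta3] <;> ring
  have hw := ((hd_coord m j x).sub (hu.mul (hc (b j)))).sub (hv.mul (hc (a j)))
  have hW := ((hc 2).mul (hu.mul hv)).sub hxx
  refine (((h1.mul hw).add (((((hc (1 / 2)).mul h2).mul hW).mul (hc (a j))))).add
    (((hc 2).mul h0).mul (hc (b j)))).congr_d ?_
  ring

/-- the source near a point -/
lemma cut_ev {a b : V} {κ : V → ℝ} (hκ1 : ∀ᶠ x in 𝓝 (0 : V), κ x = 1) (y : V) :
    ∀ᶠ R in atTop, ∀ᶠ x in 𝓝 y, cut a b κ R x = 1 := by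
  obtain ⟨U, hU, hUo, h0⟩ := eventually_nhds_iff.1 hκ1
  have hc : Continuous fun p : ℝ × V => (GF.mdot b p.2 * p.1 ^ 2) • a +
      p.1 • (p.2 - GF.mdot a p.2 • b - GF.mdot b p.2 • a) := by
    simp only [mdot_expand]
    fun_prop
  have h1 : ∀ᶠ p in 𝓝 ((0 : ℝ), y), (GF.mdot b p.2 * p.1 ^ 2) • a +
      p.1 • (p.2 - GF.mdot a p.2 • b - GF.mdot b p.2 • a) ∈ U := by
    apply hc.tendsto (0, y)
    simpa using hUo.mem_nhds h0
  rw [nhds_prod_eq] at h1
  have h2 := h1.curry
  have h3 : ∀ᶠ R : ℝ in atTop, ∀ᶠ x in 𝓝 y, (GF.mdot b x * R⁻¹ ^ 2) • a +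
      R⁻¹ • (x - GF.mdot a x • b - GF.mdot b x • a) ∈ U := tendsto_inv_atTop_zero.eventually h2
  filter_upwards [h3] with R hR
  filter_upwards [hR] with x hx
  unfold cut
  apply hU
  rw [div_eq_mul_inv, ← inv_pow]
  exact hx

theorem act_ev {a b : V} (haa : GF.mdot a a = 0) (hbb : GF.mdot b b = 0) (hab : GF.mdot a b = 1)
    {κ : V → ℝ} (hκ : Tst κ) (hκ1 : ∀ᶠ x in 𝓝 (0 : V), κ x = 1) {Φ σ : ℝ → ℝ} (hΦ : Tst Φ)
    (hσ : Tst σ) (c : Ix) (y : V) : ∀ᶠ R in atTop,
      act (Yf a b Φ) (fun x => deriv Φ (GF.mdot a x))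
        (fun i => dr i fun x => cut b a κ R x * σ (GF.mdot b x)) c y =
      -(1 / 2) * deriv (deriv Φ) (GF.mdot a y) * deriv (deriv σ) (GF.mdot b y) *
        (2 * GF.mdot a y * GF.mdot b y - GF.mdot y y) * (eta c * b c) +
      deriv (deriv Φ) (GF.mdot a y) * deriv σ (GF.mdot b y) *
        (eta c * (y c - GF.mdot a y * b c - GF.mdot b y * a c)) := by
  filter_upwards [cut_ev (a := b) (b := a) hκ1 y] with R hR
  -- the source near `y`
  have hh : ∀ i : Ix, ∀ᶠ x in 𝓝 y, dr i (fun x => cut b a κ R x * σ (GF.mdot b x)) x =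
      deriv σ (GF.mdot b x) * (eta i * b i) := by
    intro i
    have h1 := eventually_eventually_nhds.2 hR
    filter_upwards [h1] with x hx
    have h2 : (fun z => cut b a κ R z * σ (GF.mdot b z)) =ᶠ[𝓝 x] fun z => σ (GF.mdot b z) := by
      filter_upwards [hx] with z hz
      rw [hz, one_mul]
    rw [hd_congr h2]
    exact (HD.comp (tdif hσ) (hd_mdot i b x)).dr
  have hs : ∀ i m : Ix, HD m (fun x => deriv σ (GF.mdot b x) * (eta i * b i))
      (deriv (deriv σ) (GF.mdot b y) * (eta m * b m) * (eta i * b i)) y := by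
    intro i m
    refine ((HD.comp (tdif (tder hσ)) (hd_mdot m b y)).mul (HD.const (eta i * b i) y)).congr_d ?_
    ring
  have hY := fun m j => hd_yf haa hbb hab hΦ y m j
  have hYv : ∀ j, Yf a b Φ y j = _ := fun j => yf_apply a b haa hbb hab Φ y j
  unfold act
  have h1 : ∀ m : Ix, dr m (fun y => Yf a b Φ y m *
      (fun i => dr i fun x => cut b a κ R x * σ (GF.mdot b x)) c y) y =
      (deriv Φ (GF.mdot a y) * (bas m 1 m + eta m * a m * b m - eta m * b m * a m) +
      deriv (deriv Φ) (GF.mdot a y) * (eta m * a m * (y m - GF.mdot a y * b m - GF.mdot b y * a m) -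
        eta m * (y m - GF.mdot a y * b m - GF.mdot b y * a m) * a m) +
      1 / 2 * deriv (deriv (deriv Φ)) (GF.mdot a y) * (eta m * a m) *
        (2 * (GF.mdot a y * GF.mdot b y) - GF.mdot y y) * a m) *
      (deriv σ (GF.mdot b y) * (eta c * b c)) +
      (deriv Φ (GF.mdot a y) * (y m - GF.mdot a y * b m - GF.mdot b y * a m) +
      1 / 2 * deriv (deriv Φ) (GF.mdot a y) * (2 * (GF.mdot a y * GF.mdot b y) - GF.mdot y y) * a m +
      2 * Φ (GF.mdot a y) * b m) * (deriv (deriv σ) (GF.mdot b y) * (eta m * b m) * (eta c * b c)) := by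
    intro m
    have h2 : (fun z => Yf a b Φ z m *
        (fun i => dr i fun x => cut b a κ R x * σ (GF.mdot b x)) c z) =ᶠ[𝓝 y]
        fun z => Yf a b Φ z m * (deriv σ (GF.mdot b z) * (eta c * b c)) := by
      filter_upwards [hh c] with z hz
      simp only [hz]
    rw [hd_congr h2, ((hY m m).mul (hs c m)).dr, hYv m]
  have hc := (hh c).self_of_nhds
  simp only [h1, fun m j => (hY m j).dr]
  simp only [fun i => (hh i).self_of_nhds]
  set w : V := fun j => y j - GF.mdot a y * b j - GF.mdot b y * a j with hw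
  have hwj : ∀ j, y j - GF.mdot a y * b j - GF.mdot b y * a j = w j := fun j => rfl
  simp only [hwj]
  have hwa : a 0 * w 0 - a 1 * w 1 - a 2 * w 2 - a 3 * w 3 = 0 := by
    have e1 := mdot_expand a y
    rw [mdot_expand] at haa hab
    simp only [hw]
    generalize GF.mdot a y = u at *
    generalize GF.mdot b y = v at *
    linear_combination -e1 - u * hab - v * haa
  have hwb : b 0 * w 0 - b 1 * w 1 - b 2 * w 2 - b 3 * w 3 = 0 := by
    have e1 := mdot_expand b y
    rw [mdot_expand] at hbb hab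
    simp only [hw]
    generalize GF.mdot a y = u at *
    generalize GF.mdot b y = v at *
    linear_combination -e1 - v * hab - u * hbb
  clear_value w
  clear hh hs hY hYv h1 hc hwj hR
  rw [mdot_expand] at haa hbb hab
  generalize GF.mdot a y = u at *
  generalize GF.mdot b y = v at *
  generalize GF.mdot y y = q at *
  generalize deriv (deriv (deriv Φ)) u = f3 at *
  generalize deriv (deriv Φ) u = f2 at *
  generalize deriv Φ u = f1 at *
  generalize Φ u = f0 at *
  generalize deriv (deriv σ) v = s2 at *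
  generalize deriv σ v = s1 at *
  simp only [Fin.sum_univ_four]
  have key : ∀ c : Ix, c = 0 ∨ c = 1 ∨ c = 2 ∨ c = 3 := by decide
  have hbas : ∀ m j : Ix, bas m 1 j = if j = m then 1 else 0 := fun m j => rfl
  have d01 : ((0 : Ix) = 1) = False := by decide
  have d02 : ((0 : Ix) = 2) = False := by decide
  have d03 : ((0 : Ix) = 3) = False := by decide
  have d10 : ((1 : Ix) = 0) = False := by decide
  have d12 : ((1 : Ix) = 2) = False := by decide
  have d13 : ((1 : Ix) = 3) = False := by decide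
  have d20 : ((2 : Ix) = 0) = False := by decide
  have d21 : ((2 : Ix) = 1) = False := by decide
  have d23 : ((2 : Ix) = 3) = False := by decide
  have d30 : ((3 : Ix) = 0) = False := by decide
  have d31 : ((3 : Ix) = 1) = False := by decide
  have d32 : ((3 : Ix) = 2) = False := by decide
  rcases key c with rfl | rfl | rfl | rfl
  all_goals simp only [hbas, eta0, eta1, eta2, eta3, d01, d02, d03, d10, d12, d13, d20, d21, d23,
    d30, d31, d32, if_true, if_false]
  · linear_combination (-s1 * b 0 * (1 / 2) * f3 * (2 * (u * v) - q)) * haa +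
      (-s2 * b 0 * f1 - s1 * f2 * a 0) * hwb +
      (-s2 * b 0 * (1 / 2) * f2 * (2 * (u * v) - q) + s1 * (f1 * b 0 + f2 * w 0)) * hab +
      (-s2 * b 0 * 2 * f0 - s1 * f1 * a 0) * hbb
  · linear_combination (-s1 * (-b 1) * (1 / 2) * f3 * (2 * (u * v) - q)) * haa +
      (-s2 * (-b 1) * f1 + s1 * f2 * a 1) * hwb +
      (-s2 * (-b 1) * (1 / 2) * f2 * (2 * (u * v) - q) - s1 * (f1 * b 1 + f2 * w 1)) * hab +
      (-s2 * (-b 1) * 2 * f0 + s1 * f1 * a 1) * hbb
  · linear_combination (-s1 * (-b 2) * (1 / 2) * f3 * (2 * (u * v) - q)) * haa +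
      (-s2 * (-b 2) * f1 + s1 * f2 * a 2) * hwb +
      (-s2 * (-b 2) * (1 / 2) * f2 * (2 * (u * v) - q) - s1 * (f1 * b 2 + f2 * w 2)) * hab +
      (-s2 * (-b 2) * 2 * f0 + s1 * f1 * a 2) * hbb
  · linear_combination (-s1 * (-b 3) * (1 / 2) * f3 * (2 * (u * v) - q)) * haa +
      (-s2 * (-b 3) * f1 + s1 * f2 * a 3) * hwb +
      (-s2 * (-b 3) * (1 / 2) * f2 * (2 * (u * v) - q) - s1 * (f1 * b 3 + f2 * w 3)) * hab +
      (-s2 * (-b 3) * 2 * f0 + s1 * f1 * a 3) * hbb

/-- functions bounded by a power, uniformly in the parameter -/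
def PB (k : ℕ) (f : ℝ → V → ℝ) : Prop :=
  ∃ C : ℝ, 0 ≤ C ∧ ∀ R, 1 ≤ R → ∀ y, |f R y| ≤ C * (1 + ‖y‖) ^ k

lemma PB.add {k : ℕ} {f g : ℝ → V → ℝ} (hf : PB k f) (hg : PB k g) :
    PB k fun R y => f R y + g R y := by
  obtain ⟨C, hC, h⟩ := hf
  obtain ⟨D, hD, h'⟩ := hg
  refine ⟨C + D, by positivity, fun R hR y => ?_⟩
  calc |f R y + g R y| ≤ |f R y| + |g R y| := abs_add_le _ _
    _ ≤ C * (1 + ‖y‖) ^ k + D * (1 + ‖y‖) ^ k := add_le_add (h R hR y) (h' R hR y)
    _ = _ := by ring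

lemma PB.mul {k l : ℕ} {f g : ℝ → V → ℝ} (hf : PB k f) (hg : PB l g) :
    PB (k + l) fun R y => f R y * g R y := by
  obtain ⟨C, hC, h⟩ := hf
  obtain ⟨D, hD, h'⟩ := hg
  refine ⟨C * D, by positivity, fun R hR y => ?_⟩
  calc |f R y * g R y| = |f R y| * |g R y| := abs_mul _ _
    _ ≤ (C * (1 + ‖y‖) ^ k) * (D * (1 + ‖y‖) ^ l) :=
      mul_le_mul (h R hR y) (h' R hR y) (abs_nonneg _) (by positivity)
    _ = _ := by rw [pow_add]; ring

lemma PB.mono {k l : ℕ} (hkl : k ≤ l) {f : ℝ → V → ℝ} (hf : PB k f) : PB l f := by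
  obtain ⟨C, hC, h⟩ := hf
  refine ⟨C, hC, fun R hR y => (h R hR y).trans ?_⟩
  exact mul_le_mul_of_nonneg_left (pow_le_pow_right₀ (by linarith [norm_nonneg y]) hkl) hC

lemma PB.const (c : ℝ) : PB 0 fun _ _ => c :=
  ⟨|c|, abs_nonneg _, fun R _ y => by simp⟩

lemma PB.neg {k : ℕ} {f : ℝ → V → ℝ} (hf : PB k f) : PB k fun R y => -f R y := by
  obtain ⟨C, hC, h⟩ := hf
  exact ⟨C, hC, fun R hR y => by rw [abs_neg]; exact h R hR y⟩

lemma PB.sub {k : ℕ} {f g : ℝ → V → ℝ} (hf : PB k f) (hg : PB k g) :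
    PB k fun R y => f R y - g R y := by
  simp only [sub_eq_add_neg]
  exact hf.add hg.neg

lemma PB.congr {k : ℕ} {f g : ℝ → V → ℝ} (hf : PB k f) (h : ∀ R, 1 ≤ R → ∀ y, g R y = f R y) :
    PB k g := by
  obtain ⟨C, hC, h'⟩ := hf
  exact ⟨C, hC, fun R hR y => by rw [h R hR y]; exact h' R hR y⟩

lemma PB.bdd {f : ℝ → V → ℝ} (C : ℝ) (h : ∀ R, 1 ≤ R → ∀ y, |f R y| ≤ C) : PB 0 f :=
  ⟨|C|, abs_nonneg _, fun R hR y => by simpa using (h R hR y).trans (le_abs_self C)⟩

lemma PB.coord (j : Ix) : PB 1 fun _ y => y j :=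
  ⟨1, zero_le_one, fun R _ y => by
    have := norm_le_pi_norm y j
    rw [Real.norm_eq_abs] at this
    linarith⟩

lemma PB.sum {k : ℕ} {f : Ix → ℝ → V → ℝ} (hf : ∀ i, PB k (f i)) :
    PB k fun R y => ∑ i, f i R y := by
  simp only [Fin.sum_univ_four]
  exact (((hf 0).add (hf 1)).add (hf 2)).add (hf 3)

lemma PB.mdot (a : V) : PB 1 fun _ y => GF.mdot a y := by
  simp only [GF.mdot]
  exact PB.sum fun i => (PB.const (eta i * a i)).mul (PB.coord i)

lemma PB.quad : PB 2 fun _ y => GF.mdot y y := by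
  simp only [GF.mdot]
  exact PB.sum fun i => ((PB.const (eta i)).mul (PB.coord i)).mul (PB.coord i)

lemma tst_bdd {E : Type*} [NormedAddCommGroup E] [NormedSpace ℝ E] {f : E → ℝ} (h : Tst f) :
    ∃ C, ∀ x, |f x| ≤ C := by
  obtain ⟨C, hC⟩ := h.2.exists_bound_of_continuous h.1.continuous
  exact ⟨C, hC⟩

lemma PB.tst {φ : ℝ → ℝ} (h : Tst φ) (g : V → ℝ) : PB 0 fun _ y => φ (g y) := by
  obtain ⟨C, hC⟩ := tst_bdd h
  exact PB.bdd C fun R _ y => hC _

/-- the linear map of the cutoff -/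
def Mc (a b : V) (R : ℝ) : V →L[ℝ] V :=
  (R ^ 2)⁻¹ • (ml b).smulRight a +
    R⁻¹ • (ContinuousLinearMap.id ℝ V - (ml a).smulRight b - (ml b).smulRight a)

lemma Mc_apply (a b : V) (R : ℝ) (x : V) : Mc a b R x = (GF.mdot b x / R ^ 2) • a +
    R⁻¹ • (x - GF.mdot a x • b - GF.mdot b x • a) := by
  simp only [Mc, ContinuousLinearMap.add_apply, ContinuousLinearMap.smul_apply,
    ContinuousLinearMap.smulRight_apply, ContinuousLinearMap.sub_apply,
    ContinuousLinearMap.id_apply, ml_apply, smul_smul]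
  rw [div_eq_inv_mul]

lemma cut_eq (a b : V) (κ : V → ℝ) (R : ℝ) (x : V) : cut a b κ R x = κ (Mc a b R x) := by
  rw [Mc_apply]
  rfl

lemma vec_sum (v : V) : v = ∑ j, v j • (bas j 1 : V) := by
  funext n
  simp [bas, Finset.sum_apply]

lemma hd_M {κ : V → ℝ} (hκ : Tst κ) (M : V →L[ℝ] V) (i : Ix) (x : V) :
    HD i (fun y => κ (M y)) (∑ j, M (bas i 1) j * dr j κ (M x)) x := by
  unfold HD
  have h1 : (fun t : ℝ => κ (M (x + bas i t))) = fun t => κ (M x + t • M (bas i 1)) := by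
    funext t
    rw [map_add, bas_smul, map_smul]
  rw [h1]
  have h2 : HasDerivAt (fun t : ℝ => M x + t • M (bas i 1)) (M (bas i 1)) 0 := by
    simpa using ((hasDerivAt_id (0 : ℝ)).smul_const (M (bas i 1))).const_add (M x)
  have h3 : HasFDerivAt κ (fderiv ℝ κ (M x)) (M x + (0 : ℝ) • M (bas i 1)) := by
    rw [zero_smul, add_zero]
    exact (hκ.diff _).hasFDerivAt
  have h4 := h3.comp_hasDerivAt (0 : ℝ) h2
  refine HasDerivAt.congr_deriv h4 ?_
  conv_lhs => rw [vec_sum (M (bas i 1)), map_sum]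
  refine Finset.sum_congr rfl fun j _ => ?_
  rw [map_smul, smul_eq_mul, dr_eq hκ.diff]

lemma PB.Rinv : PB 0 fun R _ => R⁻¹ := PB.bdd 1 fun R hR y => by
  rw [abs_of_nonneg (by positivity)]
  exact inv_le_one_of_one_le₀ hR

lemma PB.M (a b : V) (i j : Ix) : PB 0 fun R _ => Mc a b R (bas i 1) j := by
  have h : PB 0 fun R _ => GF.mdot b (bas i 1) * R⁻¹ * R⁻¹ * a j +
      R⁻¹ * (bas i 1 j - GF.mdot a (bas i 1) * b j - GF.mdot b (bas i 1) * a j) :=
    ((((PB.const _).mul PB.Rinv).mul PB.Rinv).mul (PB.const _)).add (PB.Rinv.mul (PB.const _))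
  refine h.congr fun R hR y => ?_
  rw [Mc_apply]
  simp only [Pi.add_apply, Pi.sub_apply, Pi.smul_apply, smul_eq_mul]
  rw [div_eq_mul_inv, pow_two, mul_inv]
  ring

lemma PB.tM {κ : V → ℝ} (h : Tst κ) (a b : V) : PB 0 fun R y => κ (Mc a b R y) := by
  obtain ⟨C, hC⟩ := tst_bdd h
  exact PB.bdd C fun R _ y => hC _

theorem act_dom {a b : V} (haa : GF.mdot a a = 0) (hbb : GF.mdot b b = 0) (hab : GF.mdot a b = 1)
    {κ : V → ℝ} (hκ : Tst κ) (hκ1 : ∀ᶠ x in 𝓝 (0 : V), κ x = 1) {Φ σ : ℝ → ℝ} (hΦ : Tst Φ)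
    (hσ : Tst σ) : ∃ C : ℝ, ∀ R, 1 ≤ R → ∀ c y,
      |act (Yf a b Φ) (fun x => deriv Φ (GF.mdot a x))
        (fun i => dr i fun x => cut b a κ R x * σ (GF.mdot b x)) c y| ≤ C * (1 + ‖y‖) ^ 2 := by
  -- the source
  set k : ℝ → Ix → V → ℝ := fun R i x => ∑ j, Mc b a R (bas i 1) j * dr j κ (Mc b a R x) with hk
  set k2 : ℝ → Ix → Ix → V → ℝ := fun R m i x => ∑ j, Mc b a R (bas i 1) j *
    ∑ l, Mc b a R (bas m 1) l * dr l (dr j κ) (Mc b a R x) with hk2
  set h : ℝ → Ix → V → ℝ := fun R i x => k R i x * σ (GF.mdot b x) +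
    κ (Mc b a R x) * (deriv σ (GF.mdot b x) * (eta i * b i)) with hh
  set h2 : ℝ → Ix → Ix → V → ℝ := fun R m i x => (k2 R m i x * σ (GF.mdot b x) +
      k R i x * (deriv σ (GF.mdot b x) * (eta m * b m))) +
    (k R m x * (deriv σ (GF.mdot b x) * (eta i * b i)) +
      κ (Mc b a R x) * (deriv (deriv σ) (GF.mdot b x) * (eta m * b m) * (eta i * b i))) with hh2
  have e1 : ∀ R i, (dr i fun x => cut b a κ R x * σ (GF.mdot b x)) = h R i := by
    intro R i
    funext x
    have e0 : (fun x => cut b a κ R x * σ (GF.mdot b x)) =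
        fun x => κ (Mc b a R x) * σ (GF.mdot b x) := by
      funext x
      rw [cut_eq]
    rw [e0]
    exact ((hd_M hκ (Mc b a R) i x).mul (HD.comp (tdif hσ) (hd_mdot i b x))).dr
  have e2 : ∀ R m i x, HD m (h R i) (h2 R m i x) x := by
    intro R m i x
    have d1 : HD m (fun x => k R i x) (k2 R m i x) x := by
      simp only [hk, hk2, Fin.sum_univ_four]
      have d0 : ∀ j, HD m (fun x => Mc b a R (bas i 1) j * dr j κ (Mc b a R x))
          (Mc b a R (bas i 1) j * ∑ l, Mc b a R (bas m 1) l * dr l (dr j κ) (Mc b a R x)) x := by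
        intro j
        refine ((HD.const (Mc b a R (bas i 1) j) x).mul (hd_M (hκ.dr j) (Mc b a R) m x)).congr_d ?_
        ring
      have d5 := (((d0 0).add (d0 1)).add (d0 2)).add (d0 3)
      simpa only [Fin.sum_univ_four] using d5
    have d2 := HD.comp (tdif hσ) (hd_mdot m b x)
    have d3 := HD.comp (tdif (tder hσ)) (hd_mdot m b x)
    have d4 := hd_M hκ (Mc b a R) m x
    refine ((d1.mul d2).add (d4.mul (d3.mul (HD.const (eta i * b i) x)))).congr_d ?_
    simp only [hh2, hk]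
    ring
  -- bounds
  have bk : ∀ i, PB 0 fun R y => k R i y := fun i =>
    PB.sum fun j => (PB.M b a i j).mul (PB.tM (hκ.dr j) b a)
  have bk2 : ∀ m i, PB 0 fun R y => k2 R m i y := fun m i =>
    PB.sum fun j => (PB.M b a i j).mul
      (PB.sum fun l => (PB.M b a m l).mul (PB.tM ((hκ.dr j).dr l) b a))
  have bσ : PB 0 fun _ y => σ (GF.mdot b y) := PB.tst hσ _
  have bσ1 : PB 0 fun _ y => deriv σ (GF.mdot b y) := PB.tst (tder hσ) _
  have bσ2 : PB 0 fun _ y => deriv (deriv σ) (GF.mdot b y) := PB.tst (tder (tder hσ)) _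
  have bh : ∀ i, PB 0 fun R y => h R i y := fun i =>
    ((bk i).mul bσ).add ((PB.tM hκ b a).mul (bσ1.mul (PB.const _)))
  have bh2 : ∀ m i, PB 0 fun R y => h2 R m i y := fun m i =>
    (((bk2 m i).mul bσ).add ((bk i).mul (bσ1.mul (PB.const _)))).add
      (((bk m).mul (bσ1.mul (PB.const _))).add
        ((PB.tM hκ b a).mul ((bσ2.mul (PB.const _)).mul (PB.const _))))
  have bu := PB.mdot a
  have bv := PB.mdot b
  have bw : ∀ j, PB 1 fun _ y => y j - GF.mdot a y * b j - GF.mdot b y * a j := fun j =>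
    ((PB.coord j).sub (bu.mul (PB.const _))).sub (bv.mul (PB.const _))
  have bW : PB 2 fun _ y => 2 * (GF.mdot a y * GF.mdot b y) - GF.mdot y y :=
    (((PB.const 2).mul (bu.mul bv))).sub PB.quad
  have bf0 : PB 0 fun _ y => Φ (GF.mdot a y) := PB.tst hΦ _
  have bf1 : PB 0 fun _ y => deriv Φ (GF.mdot a y) := PB.tst (tder hΦ) _
  have bf2 : PB 0 fun _ y => deriv (deriv Φ) (GF.mdot a y) := PB.tst (tder (tder hΦ)) _
  have bf3 : PB 0 fun _ y => deriv (deriv (deriv Φ)) (GF.mdot a y) :=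
    PB.tst (tder (tder (tder hΦ))) _
  set Y : Ix → V → ℝ := fun j x =>
    deriv Φ (GF.mdot a x) * (x j - GF.mdot a x * b j - GF.mdot b x * a j) +
      1 / 2 * deriv (deriv Φ) (GF.mdot a x) * (2 * (GF.mdot a x * GF.mdot b x) - GF.mdot x x) * a j +
      2 * Φ (GF.mdot a x) * b j with hY
  set E : Ix → Ix → V → ℝ := fun m j x =>
    (deriv Φ (GF.mdot a x) * (bas m 1 j + eta m * a m * b j - eta m * b m * a j) +
      deriv (deriv Φ) (GF.mdot a x) * (eta m * a m * (x j - GF.mdot a x * b j - GF.mdot b x * a j) -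
        eta m * (x m - GF.mdot a x * b m - GF.mdot b x * a m) * a j) +
      1 / 2 * deriv (deriv (deriv Φ)) (GF.mdot a x) * (eta m * a m) *
        (2 * (GF.mdot a x * GF.mdot b x) - GF.mdot x x) * a j) with hE
  have bY : ∀ j, PB 2 fun _ y => Y j y := fun j =>
    (((bf1.mul (bw j)).mono (by norm_num)).add
      ((((PB.const (1 / 2)).mul bf2).mul bW).mul (PB.const _))).add
      ((((PB.const 2).mul bf0).mul (PB.const _)).mono (by norm_num))
  have bE : ∀ m j, PB 2 fun _ y => E m j y := fun m j =>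
    (((bf1.mul (PB.const _)).mono (by norm_num)).add
      ((bf2.mul (((PB.const _).mul (bw j)).sub (((PB.const _).mul (bw m)).mul (PB.const _)))).mono
        (by norm_num))).add
      (((((PB.const (1 / 2)).mul bf3).mul (PB.const _)).mul bW).mul (PB.const _))
  have hdY : ∀ m j x, HD m (fun y => Yf a b Φ y j) (E m j x) x := fun m j x =>
    hd_yf haa hbb hab hΦ x m j
  have hYv : ∀ j x, Yf a b Φ x j = Y j x := fun j x => yf_apply a b haa hbb hab Φ x j
  -- the formula
  have main : ∀ c, PB 2 fun R y => act (Yf a b Φ) (fun x => deriv Φ (GF.mdot a x))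
        (fun i => dr i fun x => cut b a κ R x * σ (GF.mdot b x)) c y := by
    intro c
    have hb : PB 2 fun R y => 3 * deriv Φ (GF.mdot a y) * h R c y +
        ∑ m, (-(E m m y * h R c y + Y m y * h2 R m c y) +
          1 / 2 * h R m y * (eta m * eta c * E m c y - E c m y)) := by
      refine (((((PB.const 3).mul bf1).mul (bh c)).mono (by norm_num))).add (PB.sum fun m => ?_)
      refine (((bE m m).mul (bh c)).add ((bY m).mul (bh2 m c))).neg.add ?_
      have := (((PB.const (1 / 2)).mul (bh m)).mul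
        (((PB.const (eta m * eta c)).mul (bE m c)).sub (bE c m)))
      exact this.mono (by norm_num)
    refine hb.congr fun R hR y => ?_
    unfold act
    simp only [e1, fun m j x => (hdY m j x).dr]
    have h3 : ∀ m : Ix, dr m (fun y => Yf a b Φ y m * h R c y) y =
        E m m y * h R c y + Y m y * h2 R m c y := by
      intro m
      rw [((hdY m m y).mul (e2 R m c y)).dr, hYv]
    simp only [h3]
  obtain ⟨C0, h00, h0⟩ := main 0
  obtain ⟨C1, h11, h1⟩ := main 1
  obtain ⟨C2, h22, h2'⟩ := main 2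
  obtain ⟨C3, h33, h3⟩ := main 3
  refine ⟨C0 + C1 + C2 + C3, fun R hR c y => ?_⟩
  have hp : (0 : ℝ) ≤ (1 + ‖y‖) ^ 2 := by positivity
  have key : ∀ c : Ix, c = 0 ∨ c = 1 ∨ c = 2 ∨ c = 3 := by decide
  rcases key c with rfl | rfl | rfl | rfl
  · exact (h0 R hR y).trans (mul_le_mul_of_nonneg_right (by linarith) hp)
  · exact (h1 R hR y).trans (mul_le_mul_of_nonneg_right (by linarith) hp)
  · exact (h2' R hR y).trans (mul_le_mul_of_nonneg_right (by linarith) hp)
  · exact (h3 R hR y).trans (mul_le_mul_of_nonneg_right (by linarith) hp)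

lemma dr_smooth {f : V → ℝ} (hf : ContDiff ℝ ∞ f) (m : Ix) : ContDiff ℝ ∞ (dr m f) := by
  have : dr m f = fun x => fderiv ℝ f x (bas m 1) :=
    funext fun x => dr_eq (hf.differentiable (by simp)) m x
  rw [this]
  exact (hf.fderiv_right (m := ∞) (by simp)).clm_apply contDiff_const

lemma tst_mul {f g : V → ℝ} (hf : Tst f) (hg : ContDiff ℝ ∞ g) : Tst fun x => g x * f x :=
  ⟨hg.mul hf.1, hf.2.mul_left⟩

lemma tst_add {f g : V → ℝ} (hf : Tst f) (hg : Tst g) : Tst fun x => f x + g x :=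
  ⟨hf.1.add hg.1, hf.2.add hg.2⟩

lemma tst_neg {f : V → ℝ} (hf : Tst f) : Tst fun x => -f x :=
  ⟨hf.1.neg, hf.2.comp_left (g := fun r => -r) (by simp)⟩

theorem act_tst {Y : V → V} {ψ : V → ℝ} (hY : ContDiff ℝ ∞ Y) (hψ : ContDiff ℝ ∞ ψ)
    {h : Ix → V → ℝ} (hh : ∀ i, Tst (h i)) (c : Ix) : Tst (act Y ψ h c) := by
  have hYi : ∀ i, ContDiff ℝ ∞ fun y => Y y i := fun i => contDiff_pi.1 hY i
  have e : act Y ψ h c = fun x => (3 * ψ x) * h c x +
      ∑ b, (-dr b (fun y => Y y b * h c y) x +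
    (1 / 2 * (eta b * eta c * dr b (fun y => Y y c) x - dr c (fun y => Y y b) x)) * h b x) := by
    funext x
    unfold act
    congr 1
    refine Finset.sum_congr rfl fun b _ => by ring
  rw [e]
  simp only [Fin.sum_univ_four]
  have h1 : Tst fun x => (3 * ψ x) * h c x := tst_mul (hh c) (contDiff_const.mul hψ)
  have h2 : ∀ b : Ix, Tst fun x => -dr b (fun y => Y y b * h c y) x +
    (1 / 2 * (eta b * eta c * dr b (fun y => Y y c) x - dr c (fun y => Y y b) x)) * h b x := by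
    intro b
    refine tst_add (tst_neg ((tst_mul (hh c) (hYi b)).dr b)) (tst_mul (hh b) ?_)
    exact contDiff_const.mul ((contDiff_const.mul (dr_smooth (hYi c) b)).sub (dr_smooth (hYi b) c))
  exact tst_add h1 (tst_add (tst_add (tst_add (h2 0) (h2 1)) (h2 2)) (h2 3))

lemma emb_of_inj {E F : Type*} [NormedAddCommGroup E] [NormedSpace ℝ E] [FiniteDimensional ℝ E]
    [NormedAddCommGroup F] [NormedSpace ℝ F] (L : E →L[ℝ] F)
    (h : Function.Injective L) : IsClosedEmbedding L :=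
  LinearMap.isClosedEmbedding_of_injective (f := (L : E →ₗ[ℝ] F)) (LinearMap.ker_eq_bot.2 h)

lemma hcs_prod {κ : V → ℝ} (hκ : Tst κ) {φ : ℝ → ℝ} (hφ : Tst φ) :
    HasCompactSupport fun p : V × ℝ => κ p.1 * φ p.2 := by
  refine HasCompactSupport.of_support_subset_isCompact (hκ.2.prod hφ.2) ?_
  rintro ⟨v, q⟩ hp
  have h1 : κ v ≠ 0 := fun h0 => hp (by simp [h0])
  have h2 : φ q ≠ 0 := fun h0 => hp (by simp [h0])
  exact ⟨subset_tsupport _ h1, subset_tsupport _ h2⟩

lemma sm_prod (M : V →L[ℝ] V) (l : V →L[ℝ] ℝ)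
    {κ : V → ℝ} (hκ : Tst κ) {φ : ℝ → ℝ} (hφ : Tst φ) :
    ContDiff ℝ ∞ fun x => κ (M x) * φ (l x) := by
  have h1 : ContDiff ℝ ∞ fun x => κ (M x) := hκ.1.comp M.contDiff
  have h2 : ContDiff ℝ ∞ fun x => φ (l x) := hφ.1.comp l.contDiff
  exact h1.mul h2

lemma tst_prod (M : V →L[ℝ] V) (l : V →L[ℝ] ℝ) (hinj : ∀ x, M x = 0 → l x = 0 → x = 0)
    {κ : V → ℝ} (hκ : Tst κ) {φ : ℝ → ℝ} (hφ : Tst φ) : Tst fun x => κ (M x) * φ (l x) := by
  refine ⟨sm_prod M l hκ hφ, ?_⟩
  have hinj' : Function.Injective (M.prod l) := by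
    refine (injective_iff_map_eq_zero (M.prod l)).2 fun x hx => ?_
    rw [ContinuousLinearMap.prod_apply, Prod.mk_eq_zero] at hx
    exact hinj x hx.1 hx.2
  have hemb : IsClosedEmbedding (M.prod l) := emb_of_inj _ hinj'
  have := (hcs_prod hκ hφ).comp_isClosedEmbedding hemb
  exact this

lemma Mc_inj {a b : V} (haa : GF.mdot a a = 0) (hbb : GF.mdot b b = 0) (hab : GF.mdot a b = 1)
    {R : ℝ} (hR : 1 ≤ R) (x : V) (h1 : Mc a b R x = 0) (h2 : ml a x = 0) : x = 0 := by
  rw [ml_apply] at h2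
  have hba : GF.mdot b a = 1 := by
    rw [← hab, mdot_expand, mdot_expand]
    ring
  have hR0 : R ^ 2 ≠ 0 := by positivity
  have hR1 : R⁻¹ ≠ 0 := by positivity
  rw [Mc_apply, h2] at h1
  have h3 : ml b ((GF.mdot b x / R ^ 2) • a + R⁻¹ • (x - (0 : ℝ) • b - GF.mdot b x • a)) = 0 := by
    rw [h1, map_zero]
  simp only [map_add, map_smul, map_sub, ml_apply, smul_eq_mul, hbb, hba] at h3
  have h5 : GF.mdot b x / R ^ 2 = 0 := by linear_combination h3
  have h4 : GF.mdot b x = 0 := (div_eq_zero_iff.1 h5).resolve_right hR0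
  rw [h4] at h1
  simp only [zero_div, zero_smul, sub_zero, zero_add] at h1
  exact (smul_eq_zero.1 h1).resolve_left hR1

/-- cutoff functions -/
theorem cut_tst {a b : V} (haa : GF.mdot a a = 0) (hbb : GF.mdot b b = 0) (hab : GF.mdot a b = 1)
    {κ : V → ℝ} (hκ : Tst κ) {φ : ℝ → ℝ} (hφ : Tst φ) {R : ℝ} (hR : 1 ≤ R) :
    Tst fun x => cut a b κ R x * φ (GF.mdot a x) := by
  have e : (fun x => cut a b κ R x * φ (GF.mdot a x)) = fun x => κ (Mc a b R x) * φ (ml a x) := by
    funext x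
    rw [cut_eq, ml_apply]
  rw [e]
  exact tst_prod (Mc a b R) (ml a) (Mc_inj haa hbb hab hR) hκ hφ

end Vale.Agent.P352.H746
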