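import Vale.Agent.P352.H746.Plane

set_option linter.all false

noncomputable section

open MeasureTheory SchwartzMap Complex Filter Topology
open scoped SchwartzMap ComplexConjugate ENNReal NNReal LineDeriv

namespace Vale.Agent.P352.H746

open GF (Ix V Fn Sch ev pd bar sim bas o)
open H246 H496
open UniformSpace (Completion)

/-! ### Null rotations -/

/-- the null rotation `z ↦ z - 2 (w·z) a + 2 (a·z) w - 2 (w·w) (a·z) a`, `a·w = 0`, as a matrix -/
def nrt (a w : V) : Ix → V := fun m => bas m 1 - (2 * GF.eta m * w m) • a +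
  (2 * GF.eta m * a m) • w - (2 * GF.mdot w w * GF.eta m * a m) • a

lemma sim_nrt (a w z : V) : sim 1 (nrt a w) 0 z = z - (2 * GF.mdot w z) • a +
    (2 * GF.mdot a z) • w - (2 * GF.mdot w w * GF.mdot a z) • a := by
  funext n
  have hb : ∑ m, z m * bas m 1 n = z n := by
    simp [bas]
  have h1 : ∑ m, z m * (GF.eta m * w m) = GF.mdot w z := by
    unfold GF.mdot; exact Finset.sum_congr rfl fun m _ => by ring
  have h2 : ∑ m, z m * (GF.eta m * a m) = GF.mdot a z := by
    unfold GF.mdot; exact Finset.sum_congr rfl fun m _ => by ring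
  have h3 : ∑ m, z m * nrt a w m n = ∑ m, z m * bas m 1 n - (∑ m, z m * (GF.eta m * w m)) * (2 * a n) +
      (∑ m, z m * (GF.eta m * a m)) * (2 * w n) -
      (∑ m, z m * (GF.eta m * a m)) * (2 * GF.mdot w w * a n) := by
    rw [Finset.sum_mul, Finset.sum_mul, Finset.sum_mul, ← Finset.sum_sub_distrib,
      ← Finset.sum_add_distrib, ← Finset.sum_sub_distrib]
    refine Finset.sum_congr rfl fun m _ => ?_
    simp only [nrt, Pi.sub_apply, Pi.add_apply, Pi.smul_apply, smul_eq_mul]
    ring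
  rw [hb, h1, h2] at h3
  simp only [sim, Pi.zero_apply, zero_add, one_mul, h3, Pi.sub_apply, Pi.add_apply, Pi.smul_apply,
    smul_eq_mul]
  ring

lemma nrt_fix {a w : V} (ha : IsNull a) (hw : GF.mdot a w = 0) : sim 1 (nrt a w) 0 a = a := by
  rw [sim_nrt, gm_comm w a, hw, ha.1]
  simp

lemma mdot_sim_nrt {a w : V} (ha : IsNull a) (hw : GF.mdot a w = 0) (x y : V) :
    GF.mdot (sim 1 (nrt a w) 0 x) (sim 1 (nrt a w) 0 y) = GF.mdot x y := by
  have h0 : ∀ (x y z : V), GF.mdot (x + y) z = GF.mdot x z + GF.mdot y z := by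
    intro x y z; rw [gm_comm, gm_add, gm_comm z x, gm_comm z y]
  have h1 : ∀ (x y z : V), GF.mdot (x - y) z = GF.mdot x z - GF.mdot y z := by
    intro x y z; rw [gm_comm, gm_sub, gm_comm z x, gm_comm z y]
  have h2 : ∀ (c : ℝ) (y z : V), GF.mdot (c • y) z = c * GF.mdot y z := by
    intro c y z; rw [gm_comm, gm_smul, gm_comm z y]
  have h3 : GF.mdot w a = 0 := by rw [gm_comm, hw]
  rw [sim_nrt, sim_nrt]
  simp only [h0, h1, h2, gm_add, gm_sub, gm_smul, hw, h3, ha.1]
  rw [gm_comm x a, gm_comm x w]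
  ring

lemma nrt_row (a w : V) (m : Ix) : nrt a w m = sim 1 (nrt a w) 0 (bas m 1) := by
  funext n
  simp [sim, bas]

lemma mdot_bas (m n : Ix) : GF.mdot (bas m 1) (bas n 1) = bas m (GF.eta m) n := by
  unfold GF.mdot bas
  simp only [mul_ite, mul_one, mul_zero]
  by_cases h : n = m
  · subst h
    simp
  · rw [if_neg h]
    apply Finset.sum_eq_zero
    intro k _
    by_cases h1 : k = n
    · rw [if_pos h1, if_neg (by rw [h1]; exact h)]
    · rw [if_neg h1]

lemma det_sq {L : Ix → V} (h : ∀ m n, GF.mdot (L m) (L n) = bas m (GF.eta m) n) :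
    Matrix.det L * Matrix.det L = 1 := by
  set E : Matrix Ix Ix ℝ := Matrix.diagonal GF.eta with hE
  have h1 : (Matrix.of L) * E * (Matrix.of L).transpose = E := by
    ext m n
    rw [Matrix.mul_apply]
    simp only [hE, Matrix.mul_diagonal, Matrix.transpose_apply, Matrix.of_apply]
    have h2 := h m n
    have e : ∑ k, L m k * GF.eta k * L n k = GF.mdot (L m) (L n) := by
      unfold GF.mdot; exact Finset.sum_congr rfl fun k _ => by ring
    rw [e, h2, Matrix.diagonal_apply, bas]
    by_cases hmn : m = n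
    · subst hmn; simp
    · rw [if_neg (fun hh => hmn hh.symm), if_neg hmn]
  have h2 : E.det ≠ 0 := by
    rw [hE, Matrix.det_diagonal]
    apply Finset.prod_ne_zero_iff.2
    intro i _
    unfold GF.eta
    split_ifs <;> norm_num
  have h3 := congrArg Matrix.det h1
  rw [Matrix.det_mul, Matrix.det_mul, Matrix.det_transpose] at h3
  have h4 : (Matrix.of L).det = Matrix.det L := rfl
  rw [h4] at h3
  have h5 : (Matrix.det L * Matrix.det L - 1) * E.det = 0 := by linear_combination h3
  rcases mul_eq_zero.1 h5 with h6 | h6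
  · linarith
  · exact absurd h6 h2

lemma nrt_mul {a w : V} (ha : IsNull a) (hw : GF.mdot a w = 0) (x : V) :
    sim 1 (nrt a w) 0 (sim 1 (nrt a w) 0 x) = sim 1 (nrt a ((2 : ℝ) • w)) 0 x := by
  have h3 : GF.mdot w a = 0 := by rw [gm_comm, hw]
  have h2 : ∀ (c : ℝ) (y z : V), GF.mdot (c • y) z = c * GF.mdot y z := by
    intro c y z; rw [gm_comm, gm_smul, gm_comm z y]
  rw [sim_nrt, sim_nrt, sim_nrt]
  simp only [gm_add, gm_sub, gm_smul, h2, hw, h3, ha.1]
  funext n
  simp only [Pi.sub_apply, Pi.add_apply, Pi.smul_apply, smul_eq_mul]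
  ring

lemma isLor_nrt {a w : V} (ha : IsNull a) (hw : GF.mdot a w = 0) : GF.IsLor (nrt a w) := by
  have horth : ∀ w, GF.mdot a w = 0 → ∀ m n, GF.mdot (nrt a w m) (nrt a w n) =
      bas m (GF.eta m) n := by
    intro w hw m n
    rw [nrt_row a w m, nrt_row a w n, mdot_sim_nrt ha hw, mdot_bas]
  refine ⟨horth w hw, ?_, ?_⟩
  · have h1 := orth_nonpos ha hw
    have h2 : nrt a w o o = 1 - 2 * GF.mdot w w * (a 0) ^ 2 := by
      simp only [nrt, Pi.sub_apply, Pi.add_apply, Pi.smul_apply, smul_eq_mul, bas, if_true, GF.eta,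
        o]
      ring
    rw [h2]
    nlinarith [sq_nonneg (a 0)]
  · set w' : V := (2⁻¹ : ℝ) • w with hw'
    have hww : (2 : ℝ) • w' = w := by rw [hw', smul_smul]; norm_num
    have hw0 : GF.mdot a w' = 0 := by rw [hw', gm_smul, hw, mul_zero]
    have h1 := det_sq (horth w' hw0)
    have h2 : Matrix.of (nrt a w) = Matrix.of (nrt a w') * Matrix.of (nrt a w') := by
      ext m n
      rw [Matrix.mul_apply]
      simp only [Matrix.of_apply]
      have h3 := congrFun (nrt_mul ha hw0 (bas m 1)) n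
      rw [hww, ← nrt_row, ← nrt_row] at h3
      rw [← h3]
      simp [sim]
    have h3 := congrArg Matrix.det h2
    rw [Matrix.det_mul] at h3
    have h4 : ∀ L : Ix → V, (Matrix.of L).det = Matrix.det L := fun L => rfl
    rw [h4, h4, h1] at h3
    exact h3

variable {D : Type*} [NormedAddCommGroup D] [InnerProductSpace ℂ D]
variable {Q : GF.Theory D}
variable {H : D → D} {alg : Set V → Set (D → D)} {S : V → ℝ → D → D}

lemma ptr_of {a : V} (ha : IsNull a) {s : ℝ} {w : V} (hw : GF.mdot a w = 0)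
    (h : ∀ v, S a s (Q.U 1 GF.one w v) =
      Q.U 1 GF.one w (S a s (Q.U 1 (nrt a (s • w)) (-(s * GF.mdot w w) • a) v))) :
    Ptr Q S a s w := by
  have hw' : GF.mdot a (s • w) = 0 := by rw [gm_smul, hw, mul_zero]
  exact ⟨nrt a (s • w), isLor_nrt ha hw', nrt_fix ha hw', h⟩

end Vale.Agent.P352.H746

end
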