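import Vale.Agent.P352.H746.PtGen
import Vale.Agent.P352.H496.Resp

set_option linter.all false

noncomputable section

open MeasureTheory SchwartzMap Complex Filter Topology
open scoped SchwartzMap ComplexConjugate ENNReal NNReal LineDeriv

namespace Vale.Agent.P352.H746

open GF (Ix V Fn Sch ev pd bar sim bas o)
open H246 H496
open UniformSpace (Completion)

variable {D : Type*} [NormedAddCommGroup D] [InnerProductSpace ℂ D]
variable {Q : GF.Theory D}
variable {H : D → D} {alg : Set V → Set (D → D)} {S : V → ℝ → D → D}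

/-! ### Derivatives of matrix elements of the null deformations -/

section

variable (N : Net Q H alg S) {a : V} (ha : IsNull a) {g : D → D}
variable (hg : ∀ v, HasDerivAt (fun s : ℝ => S a s v) (I • g v) 0)

/-- the null deformations as continuous linear maps -/
def SL (N : Net Q H alg S) {a : V} (ha : IsNull a) (s : ℝ) : D →L[ℂ] D :=
  LinearMap.mkContinuous
    { toFun := fun v => S a s v
      map_add' := fun v w => S_addv N ha s v w
      map_smul' := fun c v => S_smulv N ha s c v } 1
    (fun v => by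
      show ‖S a s v‖ ≤ 1 * ‖v‖
      rw [S_norm N ha, one_mul])

lemma SL_apply (s : ℝ) (v : D) : SL N ha s v = S a s v := rfl

include N ha hg

lemma hasDerivAt_S (s : ℝ) (v : D) : HasDerivAt (fun s : ℝ => S a s v) (S a s (I • g v)) s := by
  have h1 : HasDerivAt (fun t : ℝ => S a (t - s) v) (I • g v) s := by
    have h2 := hg v
    rw [← sub_self s] at h2
    exact h2.comp_sub_const s s
  have h3 := ((SL N ha s).restrictScalars ℝ).hasFDerivAt.comp_hasDerivAt s h1
  have e : ((SL N ha s).restrictScalars ℝ) ∘ (fun t : ℝ => S a (t - s) v) =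
      fun t : ℝ => S a t v := by
    funext t
    show S a s (S a (t - s) v) = S a t v
    rw [N.S_add a _ _ _ ha]
    congr 1
    ring
  rw [e] at h3
  exact h3

/-- derivatives of matrix elements with an operator and a vector of the completion -/
theorem der_pt (φ : Completion D) {X : D → D} (hX : X ∈ alg Set.univ) (v : D) (s : ℝ) :
    HasDerivAt (fun s : ℝ => inner ℂ φ ((X (S a s v) : D) : Completion D))
      (inner ℂ φ ((X (S a s (I • g v)) : D) : Completion D)) s := by
  obtain ⟨Y, hY, hadj⟩ := N.adj _ X hX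
  have hadj' : Adj X Y := hadj
  have key : ∀ u : D, ∃ w : ℕ → D, ∀ ε > 0, True := fun u => ⟨fun _ => u, fun _ _ => trivial⟩
  have hw : ∀ j : ℕ, ∃ w : D, ‖φ - (w : Completion D)‖ < 1 / ((j : ℝ) + 1) := fun j =>
    exists_near φ (by positivity)
  choose w hw using hw
  have e : ∀ (j : ℕ) (s : ℝ) (u : D), inner ℂ (Y (w j)) (S a s u) =
      inner ℂ (w j : Completion D) ((X (S a s u) : D) : Completion D) := by
    intro j s u
    rw [Completion.inner_coe]
    exact (Adj.symm hadj' _ _)
  -- uniform estimate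
  have hest : ∀ u : D, ∃ (C : ℝ) (m : ℕ), 0 ≤ C ∧ ∀ (j : ℕ) (s : ℝ),
      ‖inner ℂ φ ((X (S a s u) : D) : Completion D) - inner ℂ (Y (w j)) (S a s u)‖ ≤
        (1 / ((j : ℝ) + 1)) * (C * (1 + |s|) ^ m) := by
    intro u
    obtain ⟨C, m, hC⟩ := N.S_bdd a ha X hX u
    have hC0 : 0 ≤ C := by
      have := (norm_nonneg _).trans (hC 0)
      simpa using this
    refine ⟨C, m, hC0, fun j s => ?_⟩
    rw [e, ← inner_sub_left]
    refine (norm_inner_le_norm _ _).trans ?_
    rw [Completion.norm_coe]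
    have h1 := (hw j).le
    have h2 := hC s
    gcongr
  have ht0 : Tendsto (fun j : ℕ => 1 / ((j : ℝ) + 1)) atTop (𝓝 0) :=
    tendsto_one_div_add_atTop_nhds_zero_nat
  refine hasDerivAt_of_tendstoLocallyUniformlyOn (l := atTop) (s := Set.univ) isOpen_univ
    (f := fun (j : ℕ) (s : ℝ) => inner ℂ (Y (w j)) (S a s v))
    (f' := fun (j : ℕ) (s : ℝ) => inner ℂ (Y (w j)) (S a s (I • g v)))
    (g := fun s : ℝ => inner ℂ φ ((X (S a s v) : D) : Completion D))
    (g' := fun s : ℝ => inner ℂ φ ((X (S a s (I • g v)) : D) : Completion D)) ?_ ?_ ?_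
    (Set.mem_univ s)
  · rw [Metric.tendstoLocallyUniformlyOn_iff]
    intro ε hε t _
    obtain ⟨C, m, hC, h⟩ := hest (I • g v)
    refine ⟨Metric.ball t 1, mem_nhdsWithin_of_mem_nhds (Metric.ball_mem_nhds _ one_pos), ?_⟩
    have h1 : Tendsto (fun j : ℕ => (1 / ((j : ℝ) + 1)) * (C * (2 + |t|) ^ m)) atTop (𝓝 0) := by
      simpa using ht0.mul_const (C * (2 + |t|) ^ m)
    filter_upwards [h1.eventually (gt_mem_nhds hε)] with j hj y hy
    rw [Metric.mem_ball, Real.dist_eq] at hy
    rw [dist_eq_norm]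
    refine (h j y).trans_lt (lt_of_le_of_lt ?_ hj)
    have : 1 + |y| ≤ 2 + |t| := by
      have := abs_sub_abs_le_abs_sub y t
      linarith
    gcongr
  · refine Eventually.of_forall fun j t _ => ?_
    have h1 := hasDerivAt_S N ha hg t v
    have h2 := ((innerSL ℂ (Y (w j))).restrictScalars ℝ).hasFDerivAt.comp_hasDerivAt t h1
    exact h2
  · intro t _
    obtain ⟨C, m, hC, h⟩ := hest v
    rw [tendsto_iff_norm_sub_tendsto_zero]
    refine squeeze_zero (fun _ => norm_nonneg _) (fun j => ?_)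
      (by simpa using ht0.mul_const (C * (1 + |t|) ^ m))
    rw [norm_sub_rev]
    have := h j t
    rwa [one_div] at this

end

/-! ### Moving translations to the functional -/

/-- adjoints of translations on the completion -/
lemma exists_move (φ : Completion D) (x : Mink) : ∃ φ' : Completion D, ∀ v : D,
    inner ℂ φ' (v : Completion D) = inner ℂ φ ((U1 Q x v : D) : Completion D) := by
  set φ0 : D →ₗ[ℂ] ℂ :=
    { toFun := fun v => inner ℂ φ ((U1 Q x v : D) : Completion D)
      map_add' := fun v w => by rw [U1_add, Completion.coe_add, inner_add_right]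
      map_smul' := fun c v => by
        rw [U1_smul, Completion.coe_smul, inner_smul_right, RingHom.id_apply, smul_eq_mul] } with hφ0
  set φ1 : D →L[ℂ] ℂ := φ0.mkContinuous ‖φ‖ (fun v => by
    show ‖inner ℂ φ ((U1 Q x v : D) : Completion D)‖ ≤ _
    refine (norm_inner_le_norm _ _).trans ?_
    rw [Completion.norm_coe, U1_norm]) with hφ1
  set ψ : Completion D →L[ℂ] ℂ :=
    φ1.extend (Completion.toComplL (𝕜 := ℂ) (E := D)) with hψ
  have hψz : ∀ z : D, ψ (z : Completion D) = φ1 z := fun z =>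
    φ1.extend_eq (Completion.denseRange_coe) (Completion.isUniformInducing_coe D) z
  refine ⟨(InnerProductSpace.toDual ℂ _).symm ψ, fun z => ?_⟩
  rw [InnerProductSpace.toDual_symm_apply, hψz]
  rfl

/-! ### Translations along the null hyperplane -/

/-- the transformation of the null deformation under a translation along its hyperplane -/
def Ptr (Q : GF.Theory D) (S : V → ℝ → D → D) (a : V) (s : ℝ) (w : V) : Prop :=
  ∃ L, GF.IsLor L ∧ sim 1 L 0 a = a ∧ ∀ v, S a s (Q.U 1 GF.one w v) =
    Q.U 1 GF.one w (S a s (Q.U 1 L (-(s * GF.mdot w w) • a) v))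

section

variable (N : CNet Q H alg S) {a : V} (ha : IsNull a)
variable (htr : ∀ (s t : ℝ) (v : D), S a s (Q.U 1 GF.one (t • a) v) = Q.U 1 GF.one (t • a) (S a s v))
variable {φ : Completion D} {B : D → D}
variable (hinv : ∀ L v, GF.IsLor L → sim 1 L 0 a = a → pt φ B (Q.U 1 L 0 v) = pt φ B v)

lemma sim_smul_zero (L : Ix → V) (t : ℝ) (x : V) : sim 1 L 0 (t • x) = t • sim 1 L 0 x := by
  funext n
  simp only [sim, Pi.zero_apply, zero_add, one_mul, Pi.smul_apply, smul_eq_mul, Finset.mul_sum]
  exact Finset.sum_congr rfl fun m _ => by ring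

lemma sim_one_zero (x : V) : sim 1 GF.one x 0 = x := by
  rw [sim_one]
  funext n
  simp

include N ha htr hinv in
/-- translations along the null hyperplane, null deformations -/
theorem plane_S {s : ℝ} {w : V} (hp : Ptr Q S a s w) (v : D) :
    pt φ B (Q.U 1 GF.one (-w) (S a s (Q.U 1 GF.one w v))) =
      pt φ B (Q.U 1 GF.one ((s * -GF.mdot w w) • a) (S a s v)) := by
  obtain ⟨L, hL, hLa, h⟩ := hp
  set c : ℝ := -(s * GF.mdot w w) with hc
  have hcc : s * -GF.mdot w w = c := by rw [hc]; ring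
  rw [hcc, h]
  have h1 : Q.U 1 GF.one (-w) (Q.U 1 GF.one w (S a s (Q.U 1 L (c • a) v))) =
      S a s (Q.U 1 L (c • a) v) := by
    have h2 := U1_U1_all (Q := Q) (WithLp.toLp 2 (-w)) (WithLp.toLp 2 w)
      (S a s (Q.U 1 L (c • a) v))
    have h3 : (WithLp.toLp 2 (-w) : Mink) + WithLp.toLp 2 w = 0 := by
      ext i; simp
    rw [h3, U1_zero_all] at h2
    exact h2
  rw [h1]
  have hone : (fun m => sim 1 GF.one 0 (L m)) = L := by
    funext m
    rw [sim_one]
    funext n
    simp
  have hone' : (fun m => sim 1 L 0 (GF.one m)) = L := by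
    funext m n
    simp [sim, GF.one, bas]
  have h4 : ∀ u, Q.U 1 GF.one (c • a) (Q.U 1 L 0 u) = Q.U 1 L (c • a) u := by
    intro u
    have := N.U_mul 1 GF.one (c • a) 1 L 0 u one_pos one_pos isLor_one hL
    rw [hone, sim_one_zero, one_mul] at this
    exact this
  have h5 : ∀ u, Q.U 1 L 0 (Q.U 1 GF.one (c • a) u) = Q.U 1 L (c • a) u := by
    intro u
    have := N.U_mul 1 L 0 1 GF.one (c • a) u one_pos one_pos hL isLor_one
    rw [hone', sim_smul_zero, hLa, one_mul] at this
    exact this
  have h6 : S a s (Q.U 1 L 0 v) = Q.U 1 L 0 (S a s v) := by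
    have := N.S_cov 1 L a s v one_pos hL ha
    rw [hLa, div_one] at this
    exact this.symm
  rw [← h4, htr, h6, h4, ← h5, hinv L _ hL hLa]

/-- a functional that is differentiable along the translations -/
def Dfb (Q : GF.Theory D) (φ : Completion D) (B : D → D) (c : Mink) (φ' : Completion D)
    (B' : D → D) : Prop :=
  ∀ (v : D) (t : ℝ), HasDerivAt (fun t : ℝ => pt φ B (U1 Q (t • c) v))
    (pt φ' B' (U1 Q (t • c) v)) t

variable {g : D → D} (hg : ∀ v, HasDerivAt (fun s : ℝ => S a s v) (I • g v) 0)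
variable (hB : B ∈ alg Set.univ) (hBU : ∀ x v, B (U1 Q x v) = U1 Q x (B v))
variable {φ' φ'' : Completion D} {B' B'' : D → D}
variable (hB' : B' ∈ alg Set.univ) (hB'' : B'' ∈ alg Set.univ)
variable (hBU'' : ∀ x v, B'' (U1 Q x v) = U1 Q x (B'' v))
variable (d1 : Dfb Q φ B (WithLp.toLp 2 a) φ' B') (d2 : Dfb Q φ' B' (WithLp.toLp 2 a) φ'' B'')

include N ha htr hinv hg hB hBU hB' hB'' hBU'' d1 d2 in
/-- translations along the null hyperplane, generators of the null deformations -/
theorem plane_G {w : V} (hp : ∀ s, Ptr Q S a s w) (v : D) :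
    pt φ B (Q.U 1 GF.one (-w) (g (Q.U 1 GF.one w v))) =
      pt φ B (g v) + (-I * (-GF.mdot w w : ℝ)) * pt φ' B' v := by
  set W : ℝ := -GF.mdot w w with hW
  obtain ⟨Bs, hBs, hadjB⟩ := N.adj _ B hB
  have hBa : Adj B Bs := hadjB
  -- left hand side
  obtain ⟨φ1, hφ1⟩ := exists_move (Q := Q) φ (WithLp.toLp 2 (-w))
  have hL : HasDerivAt (fun s : ℝ => pt φ B (Q.U 1 GF.one (-w) (S a s (Q.U 1 GF.one w v))))
      (pt φ B (Q.U 1 GF.one (-w) (I • g (Q.U 1 GF.one w v)))) 0 := by
    have h1 := der_pt N.toNet ha hg φ1 hB (Q.U 1 GF.one w v) 0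
    have e1 : ∀ u : D, inner ℂ φ1 ((B u : D) : Completion D) = pt φ B (Q.U 1 GF.one (-w) u) := by
      intro u
      have h2 : B (Q.U 1 GF.one (-w) u) = U1 Q (WithLp.toLp 2 (-w)) (B u) := hBU _ _
      unfold pt
      rw [hφ1, h2]
    simp only [e1] at h1
    rw [S_zero N.toNet ha] at h1
    exact h1
  have hR0 : (fun s : ℝ => pt φ B (Q.U 1 GF.one (-w) (S a s (Q.U 1 GF.one w v)))) =
      fun s : ℝ => pt φ B (U1 Q ((s * W) • WithLp.toLp 2 a) (S a s v)) := by
    funext s
    rw [plane_S N ha htr hinv (hp s) v]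
    rfl
  rw [hR0] at hL
  -- right hand side
  have hR : HasDerivAt (fun s : ℝ => pt φ B (U1 Q ((s * W) • WithLp.toLp 2 a) (S a s v)))
      (pt φ B (I • g v) + (W : ℂ) * pt φ' B' v) 0 := by
    have h1 : HasDerivAt (fun s : ℝ => pt φ B (S a s v)) (pt φ B (I • g v)) 0 := by
      have := der_pt N.toNet ha hg φ hB v 0
      rw [S_zero N.toNet ha] at this
      exact this
    have h2 : HasDerivAt (fun s : ℝ => pt φ B (U1 Q ((s * W) • WithLp.toLp 2 a) (S a s v)) -
        pt φ B (S a s v)) ((W : ℂ) * pt φ' B' v) 0 := by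
      -- second derivative bound
      obtain ⟨C, m, hC⟩ := N.S_bdd a ha B'' hB'' v
      have hC0 : 0 ≤ C := by
        have := (norm_nonneg _).trans (hC 0)
        simpa using this
      have hb2 : ∀ (t s : ℝ), ‖pt φ'' B'' (U1 Q (t • WithLp.toLp 2 a) (S a s v))‖ ≤
          ‖φ''‖ * (C * (1 + |s|) ^ m) := by
        intro t s
        unfold pt
        refine (norm_inner_le_norm _ _).trans ?_
        rw [Completion.norm_coe, hBU'', U1_norm]
        have := hC s
        gcongr
      have hb1 : ∀ (t s : ℝ), ‖pt φ' B' (U1 Q (t • WithLp.toLp 2 a) (S a s v)) -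
          pt φ' B' (S a s v)‖ ≤ ‖φ''‖ * (C * (1 + |s|) ^ m) * |t| := by
        intro t s
        have h3 := Convex.norm_image_sub_le_of_norm_hasDerivWithin_le (s := Set.univ) (x := 0)
          (y := t) (f := fun t : ℝ => pt φ' B' (U1 Q (t • WithLp.toLp 2 a) (S a s v)))
          (f' := fun t : ℝ => pt φ'' B'' (U1 Q (t • WithLp.toLp 2 a) (S a s v)))
          (C := ‖φ''‖ * (C * (1 + |s|) ^ m))
          (fun t _ => (d2 (S a s v) t).hasDerivWithinAt) (fun t _ => hb2 t s) convex_univ
          (Set.mem_univ _) (Set.mem_univ _)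
        simpa only [zero_smul, U1_zero_all, sub_zero, Real.norm_eq_abs] using h3
      have hb0 : ∀ (t s : ℝ), ‖pt φ B (U1 Q (t • WithLp.toLp 2 a) (S a s v)) -
          pt φ B (S a s v) - (t : ℂ) * pt φ' B' (S a s v)‖ ≤
          ‖φ''‖ * (C * (1 + |s|) ^ m) * |t| ^ 2 := by
        intro t s
        have h3 := Convex.norm_image_sub_le_of_norm_hasDerivWithin_le (s := Metric.closedBall 0 |t|)
          (x := 0) (y := t)
          (f := fun t : ℝ => pt φ B (U1 Q (t • WithLp.toLp 2 a) (S a s v)) -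
            (t : ℂ) * pt φ' B' (S a s v))
          (f' := fun t : ℝ => pt φ' B' (U1 Q (t • WithLp.toLp 2 a) (S a s v)) -
            pt φ' B' (S a s v))
          (C := ‖φ''‖ * (C * (1 + |s|) ^ m) * |t|)
          (fun t _ => by
            have h4 := (Complex.ofRealCLM.hasDerivAt (x := t)).mul_const (pt φ' B' (S a s v))
            have h5 := (d1 (S a s v) t).sub h4
            simp only [Complex.ofRealCLM_apply, ofReal_one, one_mul] at h5
            exact h5.hasDerivWithinAt)
          (fun r hr => by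
            refine (hb1 r s).trans ?_
            rw [Metric.mem_closedBall, dist_zero_right, Real.norm_eq_abs] at hr
            gcongr)
          (convex_closedBall _ _) (by simp) (by simp)
        simp only [zero_smul, U1_zero_all, sub_zero, Real.norm_eq_abs, ofReal_zero, zero_mul] at h3
        have e2 : pt φ B (U1 Q (t • WithLp.toLp 2 a) (S a s v)) - (t : ℂ) * pt φ' B' (S a s v) -
            pt φ B (S a s v) = pt φ B (U1 Q (t • WithLp.toLp 2 a) (S a s v)) -
            pt φ B (S a s v) - (t : ℂ) * pt φ' B' (S a s v) := by ring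
        rw [e2] at h3
        refine h3.trans (le_of_eq ?_)
        ring
      have hcont : Tendsto (fun s : ℝ => pt φ' B' (S a s v)) (𝓝 0) (𝓝 (pt φ' B' v)) := by
        obtain ⟨k, hk⟩ := up_op N.toNet ha φ' hB' v
        have := hk.cont.tendsto 0
        rw [S_zero N.toNet ha] at this
        exact this
      rw [hasDerivAt_iff_isLittleO_nhds_zero]
      rw [Asymptotics.isLittleO_iff]
      intro ε hε
      simp only [zero_add, zero_mul, zero_smul, U1_zero_all, sub_self, sub_zero]
      -- choose a neighbourhood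
      have hA : Tendsto (fun s : ℝ => ‖φ''‖ * (C * (1 + |s|) ^ m) * (|W| ^ 2 * |s|) +
          |W| * ‖pt φ' B' (S a s v) - pt φ' B' v‖) (𝓝 0) (𝓝 0) := by
        have h5 : Tendsto (fun s : ℝ => ‖φ''‖ * (C * (1 + |s|) ^ m) * (|W| ^ 2 * |s|)) (𝓝 0)
            (𝓝 (‖φ''‖ * (C * (1 + |(0 : ℝ)|) ^ m) * (|W| ^ 2 * |(0 : ℝ)|))) := by
          have : Continuous fun s : ℝ => ‖φ''‖ * (C * (1 + |s|) ^ m) * (|W| ^ 2 * |s|) := by
            fun_prop
          exact this.tendsto 0
        rw [abs_zero, mul_zero, mul_zero] at h5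
        have h6 := (tendsto_iff_norm_sub_tendsto_zero.1 hcont).const_mul |W|
        rw [mul_zero] at h6
        simpa using h5.add h6
      filter_upwards [hA.eventually (gt_mem_nhds hε)] with s hs
      have h7 : pt φ B (U1 Q ((s * W) • WithLp.toLp 2 a) (S a s v)) - pt φ B (S a s v) -
          s • ((W : ℂ) * pt φ' B' v) =
          (pt φ B (U1 Q ((s * W) • WithLp.toLp 2 a) (S a s v)) - pt φ B (S a s v) -
            ((s * W : ℝ) : ℂ) * pt φ' B' (S a s v)) +
          ((s * W : ℝ) : ℂ) * (pt φ' B' (S a s v) - pt φ' B' v) := by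
        rw [real_smul]
        push_cast
        ring
      rw [h7]
      refine (norm_add_le _ _).trans ?_
      rw [norm_mul, norm_real, Real.norm_eq_abs, Real.norm_eq_abs]
      have h8 := hb0 (s * W) s
      calc _ ≤ ‖φ''‖ * (C * (1 + |s|) ^ m) * |s * W| ^ 2 +
            |s * W| * ‖pt φ' B' (S a s v) - pt φ' B' v‖ := by gcongr
        _ = (‖φ''‖ * (C * (1 + |s|) ^ m) * (|W| ^ 2 * |s|) +
          |W| * ‖pt φ' B' (S a s v) - pt φ' B' v‖) * |s| := by
            rw [abs_mul]; ring
        _ ≤ ε * |s| := by gcongr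
    have h3 := h1.add h2
    refine h3.congr_of_eventuallyEq (Eventually.of_forall fun s => ?_)
    simp only [Pi.add_apply]
    ring
  have h9 := hL.unique hR
  have hsm : ∀ (c : ℂ) (u : D), pt φ B (c • u) = c * pt φ B u := by
    intro c u
    unfold pt
    rw [hBa.smul, Completion.coe_smul, inner_smul_right]
  have h10 : Q.U 1 GF.one (-w) (I • g (Q.U 1 GF.one w v)) =
      I • Q.U 1 GF.one (-w) (g (Q.U 1 GF.one w v)) := U1_smul (Q := Q) _ _ _
  rw [h10, hsm, hsm] at h9
  have h11 := congrArg (fun z => -I * z) h9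
  simp only [mul_add, ← mul_assoc] at h11
  have hI : -I * I = 1 := by rw [neg_mul, I_mul_I, neg_neg]
  rw [hI, one_mul, one_mul] at h11
  rw [h11]

end

end Vale.Agent.P352.H746

end
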