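import Vale.Agent.P352.H746.Nec2

/-!
# A form valued local trace identity implies the on-shell dilaton constraint
-/

set_option linter.all false

noncomputable section

open MeasureTheory SchwartzMap Filter Topology
open scoped SchwartzMap ComplexConjugate ENNReal ContDiff

namespace Vale.Agent.P352.H746

open GF (Ix V Fn Sch ev pd bar bas o eta)
open H246 H496 H846
open H755 (Tst)
open H15 (ctf Adm NullCharges IsEnl)
open UniformSpace (Completion)

variable {D : Type*} [NormedAddCommGroup D] [InnerProductSpace ℂ D]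
variable {Q Q' : GF.Theory D} {T : Ix → Ix → GF.Fld D} {J : Ix → GF.Fld D}
  {A : (V → V) → D → D} {K : V → D → D} {L : GF.Fld D}
  {H : D → D} {alg : Set V → Set (D → D)} {S : V → ℝ → D → D}
  {l : Fn → Completion D} {Λ : Fn → D → D → ℂ}

lemma gen_al {W : Set V} {v : D} (h : Gen Q W v) {X X' : D → D} (hX : Al Q W X X') :
    Gen Q W (X v) := by
  obtain ⟨Y, Y', hY, rfl⟩ := h
  exact ⟨_, _, hX.mul hY, rfl⟩

lemma gen_vac {W : Set V} : Gen Q W Q.vac := ⟨_, _, Al.one, rfl⟩

lemma gen_add {W : Set V} {v w : D} (hv : Gen Q W v) (hw : Gen Q W w) : Gen Q W (v + w) := by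
  obtain ⟨Y, Y', hY, rfl⟩ := hv
  obtain ⟨Z, Z', hZ, rfl⟩ := hw
  exact ⟨_, _, Al.add _ _ _ _ hY hZ, rfl⟩

lemma gen_smul {W : Set V} {v : D} (c : ℂ) (hv : Gen Q W v) : Gen Q W (c • v) := by
  obtain ⟨Y, Y', hY, rfl⟩ := hv
  exact ⟨_, _, Al.smul c _ _ hY, rfl⟩

lemma form_add (hF : IsForm Q T l Λ) {f : Fn} (hf : In Set.univ f) {u v w : D}
    (hu : Gen Q (cc (tsupport f)) u) (hv : Gen Q (cc (tsupport f)) v)
    (hw : Gen Q (cc (tsupport f)) w) : Λ f u (v + w) = Λ f u v + Λ f u w := by
  have h := hF.linv f 1 u v w hf hu hv hw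
  rwa [one_smul, one_mul] at h

lemma form_smul (hF : IsForm Q T l Λ) {f : Fn} (hf : In Set.univ f) (c : ℂ) {u v : D}
    (hu : Gen Q (cc (tsupport f)) u) (hv : Gen Q (cc (tsupport f)) v) :
    Λ f u (c • v) = c * Λ f u v := by
  have h0 : Gen Q (cc (tsupport f)) ((0 : ℂ) • v) := gen_smul 0 hv
  have h1 := hF.linv f c u ((0 : ℂ) • v) v hf hu h0 hv
  have h2 := hF.linv f (-1) u v v hf hu hv hv
  rw [neg_smul, one_smul, add_neg_cancel] at h2
  rw [zero_smul, zero_add] at h1
  rw [h1, h2]
  ring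

lemma tsupport_bar (f : Fn) : tsupport (bar f) = tsupport f := by
  unfold tsupport
  congr 1
  ext x
  simp [bar, Function.mem_support]

/-- the polynomials can be moved to the other side -/
lemma form_al (hF : IsForm Q T l Λ) {f : Fn} (hf : In Set.univ f) {X X' : D → D}
    (hX : Al Q (cc (tsupport f)) X X') : ∀ v w, Gen Q (cc (tsupport f)) v →
    Gen Q (cc (tsupport f)) w → Λ f (X' v) w = Λ f v (X w) := by
  have hb := hf.bar
  have hfl : ∀ {v w : D}, Gen Q (cc (tsupport f)) v → Gen Q (cc (tsupport f)) w →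
      Λ f v w = star (Λ (bar f) w v) := fun hv hw => hF.herm f _ _ hf hv hw
  induction hX with
  | one => intro v w _ _; rfl
  | add X X' Y Y' hX hY ih1 ih2 =>
    intro v w hv hw
    have gX : Gen Q (cc (tsupport f)) (X' v) := gen_al hv hX.star
    have gY : Gen Q (cc (tsupport f)) (Y' v) := gen_al hv hY.star
    rw [form_add hF hf hv (gen_al hw hX) (gen_al hw hY), ← ih1 v w hv hw, ← ih2 v w hv hw,
      hfl (gen_add gX gY) hw, hfl gX hw, hfl gY hw, ← star_add]
    congr 1
    have e := tsupport_bar f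
    exact form_add hF hb (by rw [e]; exact hw) (by rw [e]; exact gX) (by rw [e]; exact gY)
  | smul c X X' hX ih =>
    intro v w hv hw
    have gX : Gen Q (cc (tsupport f)) (X' v) := gen_al hv hX.star
    rw [form_smul hF hf c hv (gen_al hw hX), ← ih v w hv hw, hfl (gen_smul _ gX) hw, hfl gX hw]
    have e := tsupport_bar f
    rw [form_smul hF hb (star c) (by rw [e]; exact hw) (by rw [e]; exact gX), star_mul', star_star]
  | fld B B' g X X' hB hB' hh hg hX ih =>
    intro v w hv hw
    have g1 : Gen Q (cc (tsupport f)) (B' (bar g) v) :=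
      gen_al hv (Al.fld B' B (bar g) _ _ hB' hB (adj_symm hh) hg.bar Al.one)
    rw [ih _ w g1 hw]
    exact hF.loc B B' f g v (X w) hB hB' hh hf hg hv (gen_al hw hX)

/-- the potential of a local form is hermitian -/
theorem herm_of_form (hF : IsForm Q T l Λ) : Herm Q l := by
  intro f X X' hf hX
  have g1 : Gen Q (cc (tsupport f)) (X' Q.vac) := gen_al gen_vac hX.star
  have g2 : Gen Q (cc (tsupport f)) (X Q.vac) := gen_al gen_vac hX
  have e := tsupport_bar f
  rw [← hF.vac f _ hf g1, form_al hF hf hX _ _ gen_vac gen_vac, hF.herm f _ _ hf gen_vac g2,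
    hF.vac (bar f) _ hf.bar (by rw [e]; exact g2)]
  exact inner_conj_symm _ _

/-- **A local trace identity, even as a form, implies the on-shell dilaton constraint.** -/
theorem tr_of_form (hT : Q.IsStress T) (hJ : IsVirial Q T J) (h : NullCharges Q T J A K)
    (hl : IsPot Q T l) (hF : IsForm Q T l Λ) : H121.TrNull T :=
  tr_of_herm hT hJ h hl (herm_of_form hF)

/-- **The bridge**, for arbitrary null deformations. -/
theorem tr_of_inv' (hT : Q.IsStress T) (hJ : IsVirial Q T J) (N : CNet Q H alg S)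
    (h : NullCharges Q T J A K) (hl : IsPot Q T l) (hi : Inv S l) : H121.TrNull T :=
  tr_of_herm hT hJ h hl (herm_of_net hT N hl hi)

end Vale.Agent.P352.H746

end
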