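import Vale.Agent.P352.H746.Cdec
import Vale.Agent.P352.H731.Rl1
import Vale.Agent.P352.H15.NPDefs

/-!
# The charges of the stress tensor generate the translations of all local fields
-/

set_option linter.all false

noncomputable section

open MeasureTheory SchwartzMap Complex Filter Topology
open scoped SchwartzMap ComplexConjugate ENNReal LineDeriv

namespace Vale.Agent.P352.H746

open GF (Ix V Fn Sch ev pd bar sim bas o)
open H755 (Tst dr Tst.fl pd_real)
open H246 H731 H15

variable {D : Type*} [NormedAddCommGroup D] [InnerProductSpace ℂ D]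
variable {Q Q' : GF.Theory D} {T : Ix → Ix → GF.Fld D}

/-- test functions supported at large spatial distance and bounded time are spacelike to compact
sets -/
lemma far_sep {f G : 𝓢(Mink, ℂ)} {ρ N r : ℝ} (hρ : ∀ y ∈ tsupport f, ∀ i, |y i| ≤ ρ)
    (hG : ∀ x, G x ≠ 0 → |x 0| ≤ N ∧ ∃ i : Fin 4, i ≠ 0 ∧ r ≤ |x i|) (hr : N + 2 * ρ < r) :
    SpSep G f := by
  have hS : tsupport G ⊆ {x : Mink | |x 0| ≤ N ∧ ∃ i : Fin 4, i ≠ 0 ∧ r ≤ |x i|} := by
    refine closure_minimal (fun x hx => hG x hx) ?_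
    have hcl : IsClosed {x : Mink | |x 0| ≤ N} := isClosed_le (by fun_prop) continuous_const
    refine hcl.inter ?_
    have : {x : Mink | ∃ i : Fin 4, i ≠ 0 ∧ r ≤ |x i|} = ⋃ i : Fin 4, {x : Mink | i ≠ 0 ∧ r ≤ |x i|} := by
      ext x; simp
    show IsClosed {x : Mink | ∃ i : Fin 4, i ≠ 0 ∧ r ≤ |x i|}
    rw [this]
    refine isClosed_iUnion_of_finite fun i => ?_
    by_cases hi : i = 0
    · simp [hi]
    · have : {x : Mink | i ≠ 0 ∧ r ≤ |x i|} = {x : Mink | r ≤ |x i|} := by
        ext x; simp [hi]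
      rw [this]
      exact isClosed_le continuous_const (by fun_prop)
  intro x hx y hy
  obtain ⟨hx0, i, hi, hxi⟩ := hS hx
  have hyρ := hρ y hy
  have h2 : |x 0 - y 0| ≤ N + ρ := (abs_sub _ _).trans (add_le_add hx0 (hyρ 0))
  have h3 : N + ρ < |x i - y i| := by
    have h4 := abs_sub_abs_le_abs_sub (x i) (y i)
    have h5 := hyρ i
    linarith
  have h6 : (x 0 - y 0) ^ 2 < (x i - y i) ^ 2 := sq_lt_sq.2 (by
    exact (h2.trans_lt h3))
  have e : mdot (x - y) (x - y) = (x 0 - y 0) ^ 2 - (x 1 - y 1) ^ 2 - (x 2 - y 2) ^ 2 -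
      (x 3 - y 3) ^ 2 := by
    simp [mdot]
    ring
  rw [e]
  have s1 := sq_nonneg (x 1 - y 1)
  have s2 := sq_nonneg (x 2 - y 2)
  have s3 := sq_nonneg (x 3 - y 3)
  fin_cases i
  · exact absurd rfl hi
  · have h7 : (x 0 - y 0) ^ 2 < (x 1 - y 1) ^ 2 := h6
    linarith
  · have h7 : (x 0 - y 0) ^ 2 < (x 2 - y 2) ^ 2 := h6
    linarith
  · have h7 : (x 0 - y 0) ^ 2 < (x 3 - y 3) ^ 2 := h6
    linarith

/-- the Schwartz function of a test function -/
def sc {g : V → ℝ} (hg : Tst g) : 𝓢(Mink, ℂ) := (Tst.fl hg).choose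

lemma fl_sc {g : V → ℝ} (hg : Tst g) : fl (sc hg) = fun x => (g x : ℂ) := (Tst.fl hg).choose_spec

lemma sc_apply {g : V → ℝ} (hg : Tst g) (x : Mink) : sc hg x = (g x.ofLp : ℂ) :=
  congrFun (fl_sc hg) x.ofLp

lemma fl_inj {F G : 𝓢(Mink, ℂ)} (h : fl F = fl G) : F = G := by
  ext x
  exact congrFun h x.ofLp

/-- the commutator with the charge does not depend on the cutoff -/
theorem two_cut (hT : Q.IsStress T) {F F' : ℝ → Fn} (hF : GF.IsCutoff F) (hF' : GF.IsCutoff F')
    {f : 𝓢(Mink, ℂ)} (hf : HasCompactSupport f) : ∃ R0 : ℝ, 1 ≤ R0 ∧ ∀ R R', R0 ≤ R → R0 ≤ R' →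
      ∃ G G' : 𝓢(Mink, ℂ), fl G = F R ∧ fl G' = F' R' ∧
        ∀ (P : GF.Fld D) (hP : TLoc Q T P f) (n : Ix) (v : D),
          Zc hT hP n v 0 G = Zc hT hP n v 0 G' := by
  obtain ⟨a, c, δ, M, ha, ha1, hδ, hc, hFR⟩ := cut_dec hF
  obtain ⟨a', c', δ', M', ha', ha1', hδ', hc', hFR'⟩ := cut_dec hF'
  obtain ⟨ρ, hρ0, hρ⟩ := exists_ball f hf
  obtain ⟨N1, hN1⟩ := ha.2.isCompact.isBounded.subset_closedBall (0 : ℝ)
  obtain ⟨N2, hN2⟩ := ha'.2.isCompact.isBounded.subset_closedBall (0 : ℝ)
  set N := max |N1| |N2| with hN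
  have hNa : ∀ t, N < |t| → a t = 0 := by
    intro t ht
    by_contra hne
    have h1 := hN1 (subset_tsupport _ (Function.mem_support.2 hne))
    rw [mem_closedBall_zero_iff, Real.norm_eq_abs] at h1
    have := le_abs_self N1
    have := le_max_left |N1| |N2|
    linarith
  have hNa' : ∀ t, N < |t| → a' t = 0 := by
    intro t ht
    by_contra hne
    have h1 := hN2 (subset_tsupport _ (Function.mem_support.2 hne))
    rw [mem_closedBall_zero_iff, Real.norm_eq_abs] at h1
    have := le_abs_self N2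
    have := le_max_right |N1| |N2|
    linarith
  -- primitive of the difference
  have hψ : Tst fun t => a t - a' t := ⟨ha.1.sub ha'.1, ha.2.sub ha'.2⟩
  obtain ⟨A, hA, hAd, hAN⟩ := prim_tst' hψ (by
    rw [integral_sub (ha.cont.integrable_of_hasCompactSupport ha.2)
      (ha'.cont.integrable_of_hasCompactSupport ha'.2), ha1, ha1', sub_self]) (M := N) (by
    intro t ht
    simp only [hNa t ht, hNa' t ht, sub_zero])
  refine ⟨max 1 ((N + 2 * ρ + 1) / min δ δ'), le_max_left _ _, fun R R' hR hR' => ?_⟩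
  have hR1 : 0 < R := lt_of_lt_of_le one_pos ((le_max_left _ _).trans hR)
  have hR1' : 0 < R' := lt_of_lt_of_le one_pos ((le_max_left _ _).trans hR')
  have hmin : 0 < min δ δ' := lt_min hδ hδ'
  have hr : N + 2 * ρ < min (R * δ) (R' * δ') := by
    have h1 := (le_max_right _ _).trans hR
    have h2 := (le_max_right _ _).trans hR'
    rw [div_le_iff₀ hmin] at h1 h2
    have h3 := mul_le_mul_of_nonneg_left (min_le_left δ δ') hR1.le
    have h4 := mul_le_mul_of_nonneg_left (min_le_right δ δ') hR1'.le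
    refine lt_min ?_ ?_ <;> linarith
  set r := min (R * δ) (R' * δ') with hrdef
  have hs := hc.scale hR1
  have hs' := hc'.scale hR1'
  set cR : V → ℝ := fun x => c fun n => x n / R with hcR
  set cR' : V → ℝ := fun x => c' fun n => x n / R' with hcR'
  have t1 : Tst fun x => a (x o) * cR x := tst_spr ha hs
  have t2 : Tst fun x => a' (x o) * cR x := tst_spr ha' hs
  have t3 : Tst fun x => a' (x o) * cR' x := tst_spr ha' hs'
  have t4 : Tst fun x => A (x o) * cR x := tst_spr hA hs
  refine ⟨sc t1, sc t3, by rw [fl_sc, hFR R hR1], by rw [fl_sc, hFR' R' hR1'], fun P hP n v => ?_⟩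
  -- vanishing on far functions
  have hfar : ∀ (m : Ix) (G : 𝓢(Mink, ℂ)), (∀ x, G x ≠ 0 → |x 0| ≤ N ∧
      ∃ i : Fin 4, i ≠ 0 ∧ r ≤ |x i|) → Zc hT hP n v m G = 0 := by
    intro m G hG
    rw [Zc_apply, hP.loc m n G v (far_sep hρ hG hr), sub_self]
  have hd : ∀ (i : Ix) (x : V), dr i (fun x => A (x o) * cR x) x =
      (if i = o then deriv A (x o) * cR x else A (x o) * dr i cR x) := by
    intro i x
    unfold H755.dr
    by_cases h : i = o
    · subst h
      simp only [if_true]
      have h1 : (fun t : ℝ => A ((x + bas o t) o) * cR (x + bas o t)) =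
          fun t : ℝ => A (x o + t) * cR x := by
        funext t
        rw [hs.tim]
        simp [bas]
      rw [h1]
      have h2 : HasDerivAt (fun t : ℝ => A (x o + t)) (deriv A (x o)) 0 := by
        have h3 : HasDerivAt A (deriv A (x o + 0)) (x o + 0) :=
          (hA.diff _).hasDerivAt
        rw [add_zero] at h3
        have h4 := HasDerivAt.comp_const_add (x o) 0 (by rw [add_zero]; exact h3)
        exact h4
      exact (h2.mul_const (cR x)).deriv
    · simp only [h, if_false]
      have h1 : (fun t : ℝ => A ((x + bas i t) o) * cR (x + bas i t)) =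
          fun t : ℝ => A (x o) * cR (x + bas i t) := by
        funext t
        congr 2
        simp [bas, Ne.symm h]
      rw [h1]
      exact deriv_const_mul_field _
  have hcd : ∀ (i : Ix) (x : V), i ≠ o → (∀ j, j ≠ o → |x j| < R * δ) → dr i cR x = 0 := by
    intro i x hi hx
    unfold H755.dr
    have h1 : (fun t : ℝ => cR (x + bas i t)) =ᶠ[𝓝 0] fun _ => 1 := by
      have h2 : ∀ᶠ t : ℝ in 𝓝 0, ∀ j, j ≠ o → |(x + bas i t) j| < R * δ := by
        rw [eventually_all]
        intro j
        by_cases hj : j = o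
        · exact Eventually.of_forall fun t h => absurd hj h
        · have hcont : Continuous fun t : ℝ => |(x + bas i t) j| := by
            unfold GF.bas
            simp only [Pi.add_apply]
            by_cases h : j = i
            · simp only [h, if_true]; fun_prop
            · simp only [h, if_false]; fun_prop
          have h3 : |(x + bas i (0:ℝ)) j| < R * δ := by
            have : (x + bas i (0:ℝ)) j = x j := by simp [bas]
            rw [this]; exact hx j hj
          filter_upwards [hcont.continuousAt.eventually (isOpen_lt continuous_id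
            continuous_const |>.mem_nhds (show |(x + bas i (0:ℝ)) j| < R * δ from h3))] with t ht _
          exact ht
      filter_upwards [h2] with t ht
      exact hs.one _ ht
    rw [h1.deriv_eq, deriv_const]
  -- step 1
  have e1 : Zc hT hP n v 0 (sc t1) = Zc hT hP n v 0 (sc t2) := by
    have hcons := Zc_cons hT hP n v (sc t4)
    have hz : ∀ i : Fin 4, i ≠ 0 → Zc hT hP n v i (∂_{eb i} (sc t4) : 𝓢(Mink, ℂ)) = 0 := by
      intro i hi
      refine hfar i _ fun x hx => ?_
      have h1 : (∂_{eb i} (sc t4) : 𝓢(Mink, ℂ)) x = ((A (x 0) * dr i cR x.ofLp : ℝ) : ℂ) := by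
        have h2 : pd i (fl (sc t4)) x.ofLp = (∂_{eb i} (sc t4) : 𝓢(Mink, ℂ)) x := by
          rw [pd_fl]; rfl
        rw [← h2, fl_sc, pd_real t4]
        show ((dr i (fun x => A (x o) * cR x) x.ofLp : ℝ) : ℂ) = _
        rw [hd, if_neg (show (i : Ix) ≠ o from hi)]
        rfl
      rw [h1] at hx
      have hx' : A (x 0) * dr i cR x.ofLp ≠ 0 := by exact_mod_cast hx
      have hA0 : A (x 0) ≠ 0 := left_ne_zero_of_mul hx'
      have hd0 : dr i cR x.ofLp ≠ 0 := right_ne_zero_of_mul hx'
      refine ⟨?_, ?_⟩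
      · by_contra hcon
        exact hA0 (hAN _ (not_le.1 hcon))
      · by_contra hcon
        simp only [not_exists, not_and, not_le] at hcon
        exact hd0 (hcd i x.ofLp hi fun j hj => (hcon j hj).trans_le (min_le_left _ _))
    rw [Fin.sum_univ_four, hz 1 (by decide), hz 2 (by decide), hz 3 (by decide), add_zero,
      add_zero, add_zero] at hcons
    have h3 : (∂_{eb 0} (sc t4) : 𝓢(Mink, ℂ)) = sc t1 - sc t2 := by
      ext x
      have h2 : pd 0 (fl (sc t4)) x.ofLp = (∂_{eb 0} (sc t4) : 𝓢(Mink, ℂ)) x := by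
        rw [pd_fl]; rfl
      rw [← h2, fl_sc, pd_real t4, SchwartzMap.sub_apply, sc_apply, sc_apply]
      show ((dr 0 (fun x => A (x o) * cR x) x.ofLp : ℝ) : ℂ) = _
      rw [hd, if_pos (show (0 : Ix) = o from rfl), hAd]
      push_cast
      ring
    rw [h3, map_sub, sub_eq_zero] at hcons
    exact hcons
  have e2 : Zc hT hP n v 0 (sc t2) = Zc hT hP n v 0 (sc t3) := by
    rw [← sub_eq_zero, ← map_sub]
    refine hfar 0 _ fun x hx => ?_
    rw [SchwartzMap.sub_apply, sc_apply, sc_apply] at hx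
    have hx' : a' (x 0) * (cR x.ofLp - cR' x.ofLp) ≠ 0 := by
      intro h
      apply hx
      have : a' (x.ofLp o) * cR x.ofLp - a' (x.ofLp o) * cR' x.ofLp = 0 := by
        rw [← mul_sub]; exact h
      exact_mod_cast congrArg (fun z : ℝ => (z : ℂ)) this
    have hA0 : a' (x 0) ≠ 0 := left_ne_zero_of_mul hx'
    have hd0 : cR x.ofLp - cR' x.ofLp ≠ 0 := right_ne_zero_of_mul hx'
    refine ⟨?_, ?_⟩
    · by_contra hcon
      exact hA0 (hNa' _ (not_le.1 hcon))
    · by_contra hcon
      simp only [not_exists, not_and, not_le] at hcon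
      apply hd0
      rw [hs.one x.ofLp fun j hj => (hcon j hj).trans_le (min_le_left _ _),
        hs'.one x.ofLp fun j hj => (hcon j hj).trans_le (min_le_right _ _), sub_self]
  rw [e1, e2]

end Vale.Agent.P352.H746

end
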