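import Vale.Agent.P352.H846.ValL2
import Vale.Agent.P352.H746.Chg

/-!
# Potentials smeared with bounded sequences of functions that leave every compact set
-/

set_option linter.all false

noncomputable section

open MeasureTheory SchwartzMap Complex Filter Topology
open scoped SchwartzMap ComplexConjugate ENNReal

namespace Vale.Agent.P352.H746

open GF (Ix V Fn Sch ev pd bar sim bas o)
open H246 H496 H755 H846
open UniformSpace (Completion)

variable {D : Type*} [NormedAddCommGroup D] [InnerProductSpace ℂ D]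
variable {Q : GF.Theory D} {T : Ix → Ix → GF.Fld D}

/-- weak limits of the potential along functions of bounded `L²` norm that leave compact sets -/
theorem flux0 {l : Fn → Completion D} (hl : IsPot Q T l) (q : ℝ → 𝓢(Mink, ℂ)) (M : ℝ)
    (hM : ∀ᶠ R in atTop, ∫ x, ‖q R x‖ ^ 2 ≤ M)
    (hs : ∀ r : ℝ, ∀ᶠ R in atTop, ∀ x : Mink, ‖x‖ ≤ r → q R x = 0) (v : D) :
    Tendsto (fun R => inner ℂ (l (fl (q R))) (v : Completion D)) atTop (𝓝 0) := by
  obtain ⟨κ, hκ⟩ := hl.exists_clm
  obtain ⟨C, hC, hb⟩ := pot_bound hl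
  set e : 𝓢(Mink, ℂ) →ₗ[ℂ] Lp ℂ 2 (volume : Measure Mink) :=
    (SchwartzMap.toLpCLM ℂ ℂ 2 (volume : Measure Mink)).toLinearMap with he
  have hde : DenseRange e := SchwartzMap.denseRange_toLpCLM ENNReal.ofNat_ne_top
  have hbd : ∀ F : 𝓢(Mink, ℂ), ‖(κ : 𝓢(Mink, ℂ) →ₗ[ℂ] Completion D) F‖ ≤ C * ‖e F‖ := by
    intro F
    have h1 := hb F
    rw [← hκ] at h1
    exact h1
  set K : Lp ℂ 2 (volume : Measure Mink) →L[ℂ] Completion D :=
    (κ : 𝓢(Mink, ℂ) →ₗ[ℂ] Completion D).extendOfNorm e with hK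
  have hKe : ∀ F : 𝓢(Mink, ℂ), K (F.toLp 2 (volume : Measure Mink)) = l (fl F) := by
    intro F
    rw [← hκ]
    exact LinearMap.extendOfNorm_eq hde ⟨C, hbd⟩ F
  set G : Lp ℂ 2 (volume : Measure Mink) := ContinuousLinearMap.adjoint K (v : Completion D)
    with hG
  have hGi : ∀ F : 𝓢(Mink, ℂ), inner ℂ (l (fl F)) (v : Completion D) =
      inner ℂ (F.toLp 2 (volume : Measure Mink)) G := by
    intro F
    rw [← hKe, hG, ContinuousLinearMap.adjoint_inner_right]
  simp only [hGi]
  rw [Metric.tendsto_atTop]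
  intro ε hε
  have hM0 : 0 ≤ max M 0 := le_max_right _ _
  set N : ℝ := Real.sqrt (max M 0) + 1 with hN
  have hNpos : 0 < N := by positivity
  obtain ⟨g, hgc, hge, hgcont, hgm⟩ := (Lp.memLp G).exists_hasCompactSupport_eLpNorm_sub_le
    ENNReal.ofNat_ne_top (ε := ENNReal.ofReal (ε / (2 * N))) (by
      rw [Ne, ENNReal.ofReal_eq_zero, not_le]; positivity)
  have hdist : ‖G - hgm.toLp g‖ ≤ ε / (2 * N) := by
    rw [Lp.norm_def]
    refine ENNReal.toReal_le_of_le_ofReal (by positivity) ?_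
    refine le_trans (le_of_eq (eLpNorm_congr_ae ?_)) hge
    filter_upwards [Lp.coeFn_sub G (hgm.toLp g), hgm.coeFn_toLp] with x h1 h2
    rw [h1, Pi.sub_apply, Pi.sub_apply, h2]
  obtain ⟨r, hr⟩ := hgc.isCompact.isBounded.subset_closedBall (0 : Mink)
  have hev := (hM.and (hs r))
  rw [eventually_atTop] at hev
  obtain ⟨R0, hR0⟩ := hev
  refine ⟨R0, fun R hR => ?_⟩
  obtain ⟨h1, h2⟩ := hR0 R hR
  have hz : inner ℂ ((q R).toLp 2 (volume : Measure Mink)) (hgm.toLp g) = 0 := by
    rw [L2_inner]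
    have h3 : ∀ᵐ x ∂(volume : Measure Mink), conj (q R x) * (hgm.toLp g : Mink → ℂ) x = 0 := by
      filter_upwards [hgm.coeFn_toLp] with x hx
      rw [hx]
      by_cases hxr : ‖x‖ ≤ r
      · rw [h2 x hxr, map_zero, zero_mul]
      · have : g x = 0 := by
          by_contra hne
          apply hxr
          have h4 := hr (subset_tsupport _ (Function.mem_support.2 hne))
          rwa [mem_closedBall_zero_iff] at h4
        rw [this, mul_zero]
    rw [integral_congr_ae h3]
    simp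
  have hqn : ‖(q R).toLp 2 (volume : Measure Mink)‖ ≤ Real.sqrt (max M 0) := by
    refine Real.le_sqrt_of_sq_le ?_
    rw [norm_toLp_sq]
    exact h1.trans (le_max_left _ _)
  rw [dist_zero_right]
  have e1 : inner ℂ ((q R).toLp 2 (volume : Measure Mink)) G =
      inner ℂ ((q R).toLp 2 (volume : Measure Mink)) (G - hgm.toLp g) := by
    rw [inner_sub_right, hz, sub_zero]
  rw [e1]
  calc ‖inner ℂ ((q R).toLp 2 (volume : Measure Mink)) (G - hgm.toLp g)‖
      ≤ ‖(q R).toLp 2 (volume : Measure Mink)‖ * ‖G - hgm.toLp g‖ := norm_inner_le_norm _ _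
    _ ≤ Real.sqrt (max M 0) * (ε / (2 * N)) := mul_le_mul hqn hdist (norm_nonneg _)
        (Real.sqrt_nonneg _)
    _ ≤ N * (ε / (2 * N)) := by
        refine mul_le_mul_of_nonneg_right ?_ (by positivity)
        rw [hN]; linarith
    _ = ε / 2 := by field_simp
    _ < ε := by linarith

end Vale.Agent.P352.H746

end
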