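import Vale.Agent.P352.H746.Br2
import Vale.Agent.P352.H496.Inv

/-!
# Matrix elements of the null plane integrals of the trace between wedge localized vectors
-/

set_option linter.all false

noncomputable section

open MeasureTheory SchwartzMap Filter Topology
open scoped SchwartzMap ComplexConjugate ENNReal ContDiff

namespace Vale.Agent.P352.H746

open GF (Ix V Fn Sch ev pd bar bas o eta)
open H246 H496 H846
open H755 (Tst dr cut md_sub)
open H15 (ctf Adm NullCharges)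
open UniformSpace (Completion)

variable {D : Type*} [NormedAddCommGroup D] [InnerProductSpace ℂ D]
variable {Q : GF.Theory D} {T : Ix → Ix → GF.Fld D} {J : Ix → GF.Fld D}
  {A : (V → V) → D → D} {K : V → D → D}

/-- the future right region -/
def WA (a b : V) (M : ℝ) : Set V := {y | GF.mdot a y < -M ∧ 1 < GF.mdot b y}

/-- the opposite region -/
def WB (a b : V) (M : ℝ) : Set V := {y | M < GF.mdot a y ∧ GF.mdot b y < -1}

lemma bx_sub {f g : V → ℝ} (hf : Tst f) (hg : Tst g) (x : V) :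
    bx (fun y => f y - g y) x = bx f x - bx g x := by
  unfold bx
  rw [← Finset.sum_sub_distrib]
  refine Finset.sum_congr rfl fun i _ => ?_
  have key : ∀ {f g : V → ℝ}, Tst f → Tst g → dr i (fun y => f y - g y) =
      fun y => dr i f y - dr i g y := by
    intro f g hf hg
    funext y
    have h1 : Differentiable ℝ fun y => f y - g y := hf.diff.sub hg.diff
    rw [H755.dr_eq h1, H755.dr_eq hf.diff, H755.dr_eq hg.diff]
    have h2 := (hf.diff y).hasFDerivAt.sub (hg.diff y).hasFDerivAt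
    have h3 : fderiv ℝ (fun y => f y - g y) y = fderiv ℝ f y - fderiv ℝ g y := h2.fderiv
    rw [h3]
    rfl
  rw [key hf hg, key (hf.dr i) (hg.dr i)]
  ring

lemma tsupport_sc {g : V → ℝ} (hg : Tst g) {S : Set V} (hS : IsClosed S)
    (h : ∀ x, g x ≠ 0 → x ∈ S) : ∀ x ∈ tsupport (sc hg), x.ofLp ∈ S := by
  have hc : IsClosed {x : Mink | x.ofLp ∈ S} := hS.preimage (by fun_prop)
  intro x hx
  refine closure_minimal (fun y hy => ?_) hc hx
  refine h _ fun h0 => hy ?_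
  rw [sc_apply, h0, Complex.ofReal_zero]

lemma conj_sc {g : V → ℝ} (hg : Tst g) : conjS (sc hg) = sc hg := by
  ext x
  rw [conjS_apply, sc_apply, Complex.conj_ofReal]

lemma boxS_sc {g : V → ℝ} (hg : Tst g) : boxS (sc hg) = sc (tst_bx hg) := by
  apply fl_inj
  rw [← box_fl, fl_sc, H755.box_real hg, fl_sc]
  rfl

lemma isClosed_ab1 (a b : V) (M : ℝ) : IsClosed {x : V | |GF.mdot a x| ≤ M ∧ GF.mdot b x ≤ 1} :=
  (isClosed_le (contDiff_mdot a).continuous.abs continuous_const).inter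
    (isClosed_le (contDiff_mdot b).continuous continuous_const)

lemma isClosed_ab2 (a b : V) (M : ℝ) : IsClosed {x : V | |GF.mdot a x| ≤ M ∧ -1 ≤ GF.mdot b x} :=
  (isClosed_le (contDiff_mdot a).continuous.abs continuous_const).inter
    (isClosed_le continuous_const (contDiff_mdot b).continuous)

lemma isClosed_ab3 (a b : V) (M : ℝ) : IsClosed {x : V | |GF.mdot a x| ≤ M ∧ |GF.mdot b x| ≤ 1} :=
  (isClosed_le (contDiff_mdot a).continuous.abs continuous_const).inter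
    (isClosed_le (contDiff_mdot b).continuous.abs continuous_const)

section

variable {a b : V} {κ : V → ℝ} {ψ : ℝ → ℝ} (hA : Adm a b κ ψ)

/-- left part of the cutoff -/
def f1 (a b : V) (κ : V → ℝ) (ψ : ℝ → ℝ) (R : ℝ) (x : V) : ℝ :=
  ctf a b κ 0 ψ R x * chi (GF.mdot b x)

/-- right part of the cutoff -/
def f2 (a b : V) (κ : V → ℝ) (ψ : ℝ → ℝ) (R : ℝ) (x : V) : ℝ :=
  ctf a b κ 0 ψ R x * (1 - chi (GF.mdot b x))

/-- left part of the flux -/
def q1 (a b : V) (κ : V → ℝ) (ψ : ℝ → ℝ) (R : ℝ) (x : V) : ℝ :=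
  bx (ctf a b κ 0 ψ R) x * chi (GF.mdot b x)

/-- right part of the flux -/
def q2 (a b : V) (κ : V → ℝ) (ψ : ℝ → ℝ) (R : ℝ) (x : V) : ℝ :=
  bx (ctf a b κ 0 ψ R) x * (1 - chi (GF.mdot b x))

/-- the edge term -/
def ed (a b : V) (κ : V → ℝ) (ψ : ℝ → ℝ) (R : ℝ) (x : V) : ℝ :=
  bx (f1 a b κ ψ R) x - q1 a b κ ψ R x

lemma chi_b (b : V) : ContDiff ℝ ∞ fun x : V => chi (GF.mdot b x) :=
  chi_smooth.comp (contDiff_mdot b)

include hA

lemma tst_f1 {R : ℝ} (hR : 1 ≤ R) : Tst (f1 a b κ ψ R) := H846.tst_mul (tg_tst hA hR) (chi_b b)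

lemma tst_f2 {R : ℝ} (hR : 1 ≤ R) : Tst (f2 a b κ ψ R) :=
  H846.tst_mul (tg_tst hA hR) (contDiff_const.sub (chi_b b))

lemma tst_q1 {R : ℝ} (hR : 1 ≤ R) : Tst (q1 a b κ ψ R) :=
  H846.tst_mul (tst_bx (tg_tst hA hR)) (chi_b b)

lemma tst_q2 {R : ℝ} (hR : 1 ≤ R) : Tst (q2 a b κ ψ R) :=
  H846.tst_mul (tst_bx (tg_tst hA hR)) (contDiff_const.sub (chi_b b))

lemma tst_ed {R : ℝ} (hR : 1 ≤ R) : Tst (ed a b κ ψ R) :=
  ⟨(tst_bx (tst_f1 hA hR)).1.sub (tst_q1 hA hR).1, (tst_bx (tst_f1 hA hR)).2.sub (tst_q1 hA hR).2⟩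

omit hA in
lemma ctf_ne {M : ℝ} (hM : ∀ t, M < |t| → ψ t = 0) {R : ℝ} {x : V}
    (h : ctf a b κ 0 ψ R x ≠ 0) : |GF.mdot a x| ≤ M := by
  by_contra hcon
  apply h
  rw [ctf0, hM _ (not_le.1 hcon), mul_zero]

omit hA in
lemma bx_ne {g : V → ℝ} {x : V} (h : bx g x ≠ 0) : x ∈ tsupport g := by
  by_contra hcon
  apply h
  have h1 : g =ᶠ[𝓝 x] fun _ => (0:ℝ) := notMem_tsupport_iff_eventuallyEq.1 hcon
  rw [bx_congr h1]
  have h2 := bx_cmul 0 (fun _ => (0:ℝ)) x
  simpa using h2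

omit hA in
/-- the edge term is supported at the edge -/
lemma ed_ne {M : ℝ} (hM : ∀ t, M < |t| → ψ t = 0) {R : ℝ} {x : V}
    (h : ed a b κ ψ R x ≠ 0) : |GF.mdot a x| ≤ M ∧ |GF.mdot b x| ≤ 1 := by
  have hcl : IsClosed {x : V | |GF.mdot a x| ≤ M} :=
    isClosed_le (contDiff_mdot a).continuous.abs continuous_const
  have hts : tsupport (ctf a b κ 0 ψ R) ⊆ {x : V | |GF.mdot a x| ≤ M} :=
    closure_minimal (fun x hx => ctf_ne hM hx) hcl
  have hts1 : tsupport (f1 a b κ ψ R) ⊆ {x : V | |GF.mdot a x| ≤ M} :=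
    closure_minimal (fun x hx => ctf_ne (b := b) (κ := κ) (R := R) hM (left_ne_zero_of_mul hx)) hcl
  constructor
  · by_contra hcon
    apply h
    have h1 : bx (f1 a b κ ψ R) x = 0 := by
      by_contra hne
      exact hcon (hts1 (bx_ne hne))
    have h2 : bx (ctf a b κ 0 ψ R) x = 0 := by
      by_contra hne
      exact hcon (hts (bx_ne hne))
    unfold ed q1
    rw [h1, h2, zero_mul, sub_zero]
  · by_contra hcon
    apply h
    have hcb := (contDiff_mdot b).continuous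
    rcases lt_abs.1 (not_le.1 hcon) with hb | hb
    · have hev : ∀ᶠ y in 𝓝 x, 1 < GF.mdot b y := hcb.continuousAt.eventually (lt_mem_nhds hb)
      have h1 : f1 a b κ ψ R =ᶠ[𝓝 x] fun y => 0 * ctf a b κ 0 ψ R y := by
        filter_upwards [hev] with y hy
        unfold f1
        rw [chi_ge hy.le]; ring
      unfold ed q1
      rw [bx_congr h1, bx_cmul, chi_ge hb.le]; ring
    · have hb' : GF.mdot b x < -1 := by linarith
      have hev : ∀ᶠ y in 𝓝 x, GF.mdot b y < -1 := hcb.continuousAt.eventually (gt_mem_nhds hb')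
      have h1 : f1 a b κ ψ R =ᶠ[𝓝 x] fun y => 1 * ctf a b κ 0 ψ R y := by
        filter_upwards [hev] with y hy
        unfold f1
        rw [chi_le hy.le]; ring
      unfold ed q1
      rw [bx_congr h1, bx_cmul, chi_le hb'.le]; ring

lemma sum_f {R : ℝ} (hR : 1 ≤ R) : sc (tg_tst hA hR) = sc (tst_f1 hA hR) + sc (tst_f2 hA hR) := by
  ext x
  rw [SchwartzMap.add_apply, sc_apply, sc_apply, sc_apply]
  unfold f1 f2
  push_cast
  ring

lemma box_f1 {R : ℝ} (hR : 1 ≤ R) : boxS (sc (tst_f1 hA hR)) =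
    sc (tst_ed hA hR) + sc (tst_q1 hA hR) := by
  rw [boxS_sc]
  ext x
  rw [SchwartzMap.add_apply, sc_apply, sc_apply, sc_apply]
  unfold ed
  push_cast
  ring

lemma box_f2 {R : ℝ} (hR : 1 ≤ R) : boxS (sc (tst_f2 hA hR)) =
    sc (tst_q2 hA hR) - sc (tst_ed hA hR) := by
  rw [boxS_sc]
  ext x
  rw [SchwartzMap.sub_apply, sc_apply, sc_apply, sc_apply]
  have h1 : f2 a b κ ψ R = fun y => ctf a b κ 0 ψ R y - f1 a b κ ψ R y := by
    funext y; unfold f1 f2; ring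
  rw [h1, bx_sub (tg_tst hA hR) (tst_f1 hA hR)]
  unfold ed q1 q2
  push_cast
  ring

end

/-- the matrix elements of the trace between wedge localized vectors -/
theorem br_id (hT : Q.IsStress T) {l : Fn → Completion D} (hl : IsPot Q T l) (hR : Herm Q l)
    {a b : V} {κ : V → ℝ} {ψ : ℝ → ℝ} (hA : Adm a b κ ψ) {M : ℝ} (hM : ∀ t, M < |t| → ψ t = 0)
    {X X' Y Y' : D → D} (hX : Al Q (WA a b M) X X') (hY : Al Q (WB a b M) Y Y') {R : ℝ}
    (hR1 : 1 ≤ R) : inner ℂ (Y Q.vac) (TG T a b κ ψ R (X Q.vac)) =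
      3 * inner ℂ ((X' (Y Q.vac) : D) : Completion D) (l (fl (sc (tst_q1 hA hR1)))) +
      3 * inner ℂ (l (fl (sc (tst_q2 hA hR1)))) ((Y' (X Q.vac) : D) : Completion D) := by
  obtain ⟨ha, hb, hab, hκ, hκ1, hψ⟩ := id hA
  obtain ⟨κ', hκ'⟩ := hl.exists_clm
  have PT := PField.tr hT
  set F := sc (tg_tst hA hR1) with hF
  set F1 := sc (tst_f1 hA hR1) with hF1
  set F2 := sc (tst_f2 hA hR1) with hF2
  set E := sc (tst_ed hA hR1) with hE
  set Q1 := sc (tst_q1 hA hR1) with hQ1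
  set Q2 := sc (tst_q2 hA hR1) with hQ2
  have hTG : ∀ v, TG T a b κ ψ R v = GF.tr T (fl F) v := by
    intro v
    unfold TG
    rw [hF, fl_sc]
  -- separation
  have s1 : ∀ x ∈ tsupport F1, |GF.mdot a x.ofLp| ≤ M ∧ GF.mdot b x.ofLp ≤ 1 :=
    tsupport_sc (tst_f1 hA hR1) (isClosed_ab1 a b M) fun x hx => by
      refine ⟨ctf_ne (b := b) (κ := κ) (R := R) hM (left_ne_zero_of_mul hx), ?_⟩
      by_contra hcon
      exact right_ne_zero_of_mul hx (chi_ge (not_le.1 hcon).le)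
  have s2 : ∀ x ∈ tsupport F2, |GF.mdot a x.ofLp| ≤ M ∧ -1 ≤ GF.mdot b x.ofLp :=
    tsupport_sc (tst_f2 hA hR1) (isClosed_ab2 a b M) fun x hx => by
      refine ⟨ctf_ne (b := b) (κ := κ) (R := R) hM (left_ne_zero_of_mul hx), ?_⟩
      by_contra hcon
      refine right_ne_zero_of_mul hx ?_
      rw [chi_le (not_le.1 hcon).le, sub_self]
  have s3 : ∀ x ∈ tsupport E, |GF.mdot a x.ofLp| ≤ M ∧ |GF.mdot b x.ofLp| ≤ 1 :=
    tsupport_sc (tst_ed hA hR1) (isClosed_ab3 a b M) fun x hx => ed_ne hM hx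
  have p1 : ∀ G, IsTest (MW (WA a b M)) G → SpSep F1 G := by
    intro G hG x hx y hy
    obtain ⟨x1, x2⟩ := s1 x hx
    obtain ⟨y1, y2⟩ : GF.mdot a y.ofLp < -M ∧ 1 < GF.mdot b y.ofLp := hG.2 hy
    rw [mdot_eq]
    refine sep_ab ha hb hab ?_
    show GF.mdot a (x.ofLp - y.ofLp) * GF.mdot b (x.ofLp - y.ofLp) < 0
    rw [md_sub, md_sub]
    have := neg_abs_le (GF.mdot a x.ofLp)
    exact mul_neg_of_pos_of_neg (by linarith) (by linarith)
  have p2 : ∀ G, IsTest (MW (WB a b M)) G → SpSep F2 G := by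
    intro G hG x hx y hy
    obtain ⟨x1, x2⟩ := s2 x hx
    obtain ⟨y1, y2⟩ : M < GF.mdot a y.ofLp ∧ GF.mdot b y.ofLp < -1 := hG.2 hy
    rw [mdot_eq]
    refine sep_ab ha hb hab ?_
    show GF.mdot a (x.ofLp - y.ofLp) * GF.mdot b (x.ofLp - y.ofLp) < 0
    rw [md_sub, md_sub]
    have := le_abs_self (GF.mdot a x.ofLp)
    exact mul_neg_of_neg_of_pos (by linarith) (by linarith)
  have c1 := Al.comm PT p1 hX
  have c2 := Al.comm PT p2 hY
  -- the edge
  have hEin : In Set.univ (fl E) := in_univ.2 ⟨by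
    have h1 : (E : Mink → ℂ) = fun x => ((ed a b κ ψ R x.ofLp : ℝ) : ℂ) := by
      funext x; exact sc_apply _ _
    rw [h1]
    have h2 : HasCompactSupport fun x : Mink => ed a b κ ψ R x.ofLp :=
      (tst_ed hA hR1).2.comp_homeomorph (EuclideanSpace.equiv (Fin 4) ℝ).toHomeomorph
    exact h2.comp_left (g := fun r : ℝ => (r : ℂ)) (by simp), Set.subset_univ _⟩
  have k3 : ∀ x ∈ tsupport (fl E), |GF.mdot a x| ≤ M ∧ |GF.mdot b x| ≤ 1 := by
    intro x hx
    rw [tsupport_fl] at hx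
    exact s3 _ hx
  have hWA : WA a b M ⊆ cc (tsupport (fl E)) := by
    intro y hy x hx
    obtain ⟨x1, x2⟩ := k3 x hx
    obtain ⟨y1, y2⟩ : GF.mdot a y < -M ∧ 1 < GF.mdot b y := hy
    refine sep_ab ha hb hab ?_
    rw [md_sub, md_sub]
    have := neg_abs_le (GF.mdot a x)
    have := le_abs_self (GF.mdot b x)
    exact mul_neg_of_pos_of_neg (by linarith) (by linarith)
  have hWB : WB a b M ⊆ cc (tsupport (fl E)) := by
    intro y hy x hx
    obtain ⟨x1, x2⟩ := k3 x hx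
    obtain ⟨y1, y2⟩ : M < GF.mdot a y ∧ GF.mdot b y < -1 := hy
    refine sep_ab ha hb hab ?_
    rw [md_sub, md_sub]
    have := le_abs_self (GF.mdot a x)
    have := neg_abs_le (GF.mdot b x)
    exact mul_neg_of_neg_of_pos (by linarith) (by linarith)
  have hZ := (hY.star.mono hWB).mul (hX.mono hWA)
  have hH := hR (fl E) _ _ hEin hZ
  rw [bar_fl, hE, conj_sc, ← hE] at hH
  -- vacuum vectors
  have v1 : ((GF.tr T (fl F1) Q.vac : D) : Completion D) = (3 : ℂ) • κ' (E + Q1) := by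
    rw [← box_f1 hA hR1, hκ', ← box_fl]
    exact (hl.trace (fl F1) (isTest_fl _)).symm
  have v2 : ((GF.tr T (fl F2) Q.vac : D) : Completion D) = (3 : ℂ) • κ' (Q2 - E) := by
    rw [← box_f2 hA hR1, hκ', ← box_fl]
    exact (hl.trace (fl F2) (isTest_fl _)).symm
  have hsum : GF.tr T (fl F) (X Q.vac) = GF.tr T (fl F1) (X Q.vac) +
      GF.tr T (fl F2) (X Q.vac) := by
    have h1 := PT.lin F1 F2 1 (X Q.vac)
    rw [one_smul, one_smul, ← sum_f hA hR1] at h1
    exact h1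
  have e1 : inner ℂ (Y Q.vac) (GF.tr T (fl F1) (X Q.vac)) =
      3 * inner ℂ ((X' (Y Q.vac) : D) : Completion D) (κ' (E + Q1)) := by
    rw [c1, ← hX.adj', ← Completion.inner_coe, v1, inner_smul_right]
  have e2 : inner ℂ (Y Q.vac) (GF.tr T (fl F2) (X Q.vac)) =
      3 * inner ℂ (κ' (Q2 - E)) ((Y' (X Q.vac) : D) : Completion D) := by
    have h1 := PT.herm F2 (Y Q.vac) (X Q.vac)
    rw [hF2, conj_sc, ← hF2] at h1
    rw [← h1, c2, hY.adj, ← Completion.inner_coe, v2, inner_smul_left]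
    have h3 : (starRingEnd ℂ) (3 : ℂ) = 3 := by
      have := Complex.conj_ofReal 3
      simpa using this
    rw [h3]
  rw [hTG, hsum, inner_add_right, e1, e2, map_add, map_sub, inner_add_right, inner_sub_left,
    hκ', hκ', hκ', hH]
  ring

end Vale.Agent.P352.H746

end
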