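import Vale.Agent.P352.H746.Br3

/-!
# The null plane integrals of the trace vanish between wedge localized vectors
-/

set_option linter.all false

noncomputable section

open MeasureTheory SchwartzMap Filter Topology
open scoped SchwartzMap ComplexConjugate ENNReal ContDiff

namespace Vale.Agent.P352.H746

open GF (Ix V Fn Sch ev pd bar bas o eta)
open H246 H496 H846
open H755 (Tst dr cut md_sub)
open H15 (ctf Adm NullCharges)
open UniformSpace (Completion)

variable {D : Type*} [NormedAddCommGroup D] [InnerProductSpace ℂ D]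
variable {Q : GF.Theory D} {T : Ix → Ix → GF.Fld D} {J : Ix → GF.Fld D}
  {A : (V → V) → D → D} {K : V → D → D}

lemma tst_sq_int {g : V → ℝ} (hg : Tst g) : Integrable fun x : Mink => (g x.ofLp) ^ 2 := by
  have hc : Continuous fun x : Mink => (g x.ofLp) ^ 2 :=
    (hg.cont.comp (by fun_prop : Continuous fun x : Mink => x.ofLp)).pow 2
  refine hc.integrable_of_hasCompactSupport ?_
  have h1 : HasCompactSupport fun x : Mink => g x.ofLp :=
    hg.2.comp_homeomorph (EuclideanSpace.equiv (Fin 4) ℝ).toHomeomorph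
  exact h1.comp_left (g := fun r : ℝ => r ^ 2) (by simp)

lemma norm_ofLp_le (x : Mink) : ‖x.ofLp‖ ≤ ‖x‖ := by
  rw [pi_norm_le_iff_of_nonneg (norm_nonneg _)]
  intro i
  exact PiLp.norm_apply_le x i

section

variable {l : Fn → Completion D} (hl : IsPot Q T l)
variable {a b : V} {κ : V → ℝ} {ψ : ℝ → ℝ} (hA : Adm a b κ ψ)
include hl hA

/-- the flux terms vanish in the limit -/
theorem flux1 (c : V → ℝ) (h0 : ∀ x, 0 ≤ c x) (h1 : ∀ x, c x ≤ 1)
    (ht : ∀ R, 1 ≤ R → Tst (fun x => bx (ctf a b κ 0 ψ R) x * c x)) (v : D) :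
    Tendsto (fun R => inner ℂ (l (fl (if h : 1 ≤ R then sc (ht R h) else 0)))
      (v : Completion D)) atTop (𝓝 0) := by
  obtain ⟨M, hM⟩ := bx_L2 hA
  refine flux0 hl (fun R => if h : 1 ≤ R then sc (ht R h) else 0) M ?_ ?_ v
  · filter_upwards [eventually_ge_atTop (1:ℝ)] with R hR
    rw [dif_pos hR]
    refine le_trans ?_ (hM R hR)
    have e : ∀ x : Mink, ‖sc (ht R hR) x‖ ^ 2 =
        (bx (ctf a b κ 0 ψ R) x.ofLp * c x.ofLp) ^ 2 := by
      intro x
      rw [sc_apply, Complex.norm_real, Real.norm_eq_abs, sq_abs]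
    simp only [e]
    refine integral_mono (tst_sq_int (ht R hR)) (tst_sq_int (tst_bx (tg_tst hA hR))) fun x => ?_
    show (bx (ctf a b κ 0 ψ R) x.ofLp * c x.ofLp) ^ 2 ≤ (bx (ctf a b κ 0 ψ R) x.ofLp) ^ 2
    rw [mul_pow]
    have k0 := h0 x.ofLp
    have k1 := h1 x.ofLp
    have k2 : c x.ofLp ^ 2 ≤ 1 := by nlinarith
    nlinarith [sq_nonneg (bx (ctf a b κ 0 ψ R) x.ofLp)]
  · intro r
    filter_upwards [eventually_ge_atTop (1:ℝ), bx_zero hA r] with R hR hz x hx
    rw [dif_pos hR, sc_apply, hz x.ofLp ((norm_ofLp_le x).trans hx), zero_mul,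
      Complex.ofReal_zero]

/-- the limit between wedge localized vectors -/
theorem br_lim (hT : Q.IsStress T) (hR : Herm Q l) {M : ℝ} (hM : ∀ t, M < |t| → ψ t = 0)
    {X X' Y Y' : D → D} (hX : Al Q (WA a b M) X X') (hY : Al Q (WB a b M) Y Y') :
    Tendsto (fun R => inner ℂ (Y Q.vac) (TG T a b κ ψ R (X Q.vac))) atTop (𝓝 0) := by
  have t1 := flux1 hl hA (fun x => chi (GF.mdot b x)) (fun x => chi_nonneg _)
    (fun x => chi_le_one _) (fun R hR => tst_q1 hA hR) (X' (Y Q.vac))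
  have t2 := flux1 hl hA (fun x => 1 - chi (GF.mdot b x))
    (fun x => sub_nonneg.2 (chi_le_one _)) (fun x => by linarith [chi_nonneg (GF.mdot b x)])
    (fun R hR => tst_q2 hA hR) (Y' (X Q.vac))
  have t1' := (Complex.continuous_conj.tendsto 0).comp t1
  rw [map_zero] at t1'
  have t3 := (t1'.const_mul 3).add (t2.const_mul 3)
  rw [mul_zero, add_zero] at t3
  refine t3.congr' ?_
  filter_upwards [eventually_ge_atTop (1:ℝ)] with R hR1
  rw [br_id hT hl hR hA hM hX hY hR1]
  simp only [Function.comp_apply, dif_pos hR1, inner_conj_symm]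
  rfl

end

/-- the second moments between wedge localized vectors -/
theorem br_kh (hT : Q.IsStress T) (hJ : IsVirial Q T J) (h : NullCharges Q T J A K)
    {l : Fn → Completion D} (hl : IsPot Q T l) (hR : Herm Q l)
    {a b : V} {κ : V → ℝ} {ψ : ℝ → ℝ} (hA : Adm a b κ ψ) {M : ℝ} (hM : ∀ t, M < |t| → ψ t = 0)
    {X X' Y Y' : D → D} (hX : Al Q (WA a b M) X X') (hY : Al Q (WB a b M) Y Y') :
    ∫ u, ((deriv (deriv ψ) u : ℝ) : ℂ) * kh Q A K a b (X Q.vac) (Y Q.vac) u = 0 := by
  have h1 := tendsto_nhds_unique (br_lim hl hA hT hR hM hX hY)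
    (tg_lim hT hJ h hA (X Q.vac) (Y Q.vac))
  have h2 : (2:ℂ) ≠ 0 := two_ne_zero
  linear_combination 2 * h1

end Vale.Agent.P352.H746

end
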