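import Vale.Agent.P352.H746.Br6
import Vale.Agent.P352.H496.Br5
import Vale.Agent.P352.H496.InvC

/-!
# The bridge: null deformations and null charges
-/

set_option linter.all false

noncomputable section

open MeasureTheory SchwartzMap Filter Topology
open scoped SchwartzMap ComplexConjugate ENNReal ContDiff

namespace Vale.Agent.P352.H746

open GF (Ix V Fn Sch ev pd bar bas o eta)
open H246 H496 H846
open H755 (Tst)
open H15 (ctf Adm NullCharges OnShell ConfGen)
open UniformSpace (Completion)

variable {D : Type*} [NormedAddCommGroup D] [InnerProductSpace ℂ D]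
variable {Q : GF.Theory D} {T : Ix → Ix → GF.Fld D} {J : Ix → GF.Fld D}
  {A : (V → V) → D → D} {K : V → D → D}
  {H : D → D} {alg : Set V → Set (D → D)} {S : V → ℝ → D → D}

/-- **The bridge.** Let the null deformations be generated by the second moments of the null
energy. If they leave the point like potential invariant, the integrals of the trace over null
planes vanish. -/
theorem tr_of_inv (hT : Q.IsStress T) (hJ : IsVirial Q T J) (N : CNet Q H alg S)
    (Gg : Gnr Q alg S K) (h : NullCharges Q T J A K) {l : Fn → Completion D} (hl : IsPot Q T l)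
    (hi : Inv S l) : H121.TrNull T :=
  tr_of_dens hT hJ h hl (herm_of_net hT N hl hi)
    (fun a ha v => N.transl_bdd (K a) (Gg.mem a ha) v)
    (fun a b M ha hb hab v ε hε => dens_wa ha.1 hb.1 hab M v hε)
    (fun a b M ha hb hab v ε hε => dens_wb ha.1 hb.1 hab M v hε)

/-- the second moments are conformal generators if and only if the null deformations leave the
point like potential invariant and the virial current has no null charges -/
theorem conf_iff_inv (hT : Q.IsStress T) (hJ : IsVirial Q T J) (N : CNet Q H alg S)
    (Gg : Gnr Q alg S K) (h : NullCharges Q T J A K) {l : Fn → Completion D} (hl : IsPot Q T l) :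
    ConfGen Q A K ↔ Inv S l ∧ ∀ a b κ y ψ v w, Adm a b κ ψ → Tendsto (fun R => inner ℂ w
      (∑ m, J m (fun x => (eta m * a m * ctf a b κ y ψ R x : ℝ)) v)) atTop (𝓝 0) := by
  constructor
  · intro hc
    exact ⟨inv_of_conf hT hJ N Gg hc (Or.inl h.mom) hl, ((confGen_iff hT hJ h).1 hc).vir⟩
  · rintro ⟨hi, hv⟩
    exact (confGen_iff hT hJ h).2 ⟨tr_of_inv hT hJ N Gg h hl hi, hv⟩

end Vale.Agent.P352.H746

end
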