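import Vale.Agent.P352.H755.R7e
import Vale.Agent.P352.H755.Rel

/-!
# Cutoffs: the form of the functions `a` and `c`, and charges with different time profiles
-/

set_option linter.all false

noncomputable section

open MeasureTheory SchwartzMap Filter Topology
open scoped SchwartzMap ComplexConjugate ENNReal LineDeriv ContDiff

namespace Vale.Agent.P352.H746

open GF (Ix V Fn Sch ev pd bar bas o)
open H755 (Tst dr)

/-- the spatial profile of a cutoff: a smooth function of `x⃗`, of bounded spatial support, one
for `|x i| < δ` -/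
structure Spr (c : V → ℝ) (δ M : ℝ) : Prop where
  sm : ContDiff ℝ ∞ c
  tim : ∀ x t, c (x + bas o t) = c x
  one : ∀ x, (∀ i, i ≠ o → |x i| < δ) → c x = 1
  zero : ∀ x, (∃ i, i ≠ o ∧ M < |x i|) → c x = 0

lemma Spr.scale {c : V → ℝ} {δ M : ℝ} (h : Spr c δ M) {R : ℝ} (hR : 0 < R) :
    Spr (fun x => c fun n => x n / R) (R * δ) (R * M) where
  sm := h.sm.comp (contDiff_pi.2 fun n => (contDiff_apply ℝ ℝ n).div_const R)
  tim := fun x t => by
    have h1 : (fun n => (x + bas o t) n / R) = (fun n => x n / R) + bas o (t / R) := by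
      funext n
      simp only [Pi.add_apply, bas, add_div]
      split_ifs <;> simp
    rw [h1, h.tim]
  one := fun x hx => by
    refine h.one _ fun i hi => ?_
    rw [abs_div, abs_of_pos hR, div_lt_iff₀ hR, mul_comm]
    exact hx i hi
  zero := fun x ⟨i, hi, hx⟩ => by
    refine h.zero _ ⟨i, hi, ?_⟩
    rw [abs_div, abs_of_pos hR, lt_div_iff₀ hR, mul_comm]
    exact hx

lemma tst_spr {a : ℝ → ℝ} (ha : Tst a) {c : V → ℝ} {δ M : ℝ} (hc : Spr c δ M) :
    Tst fun x => a (x o) * c x := by
  refine ⟨(ha.1.comp (contDiff_apply ℝ ℝ o)).mul hc.sm, ?_⟩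
  obtain ⟨N, hN⟩ := ha.2.isCompact.isBounded.subset_closedBall (0 : ℝ)
  refine HasCompactSupport.intro (isCompact_closedBall (0 : V) (max |M| |N|)) fun x hx => ?_
  rw [mem_closedBall_zero_iff, pi_norm_le_iff_of_nonneg (le_max_of_le_left (abs_nonneg M))] at hx
  simp only [not_forall, not_le, Real.norm_eq_abs] at hx
  obtain ⟨i, hi⟩ := hx
  by_cases h : i = o
  · have : a (x o) = 0 := by
      by_contra hne
      have h1 := hN (subset_tsupport _ (Function.mem_support.2 hne))
      rw [mem_closedBall_zero_iff, Real.norm_eq_abs] at h1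
      rw [h] at hi
      have h2 := (le_max_right |M| |N|).trans_lt hi
      have h3 := le_abs_self N
      linarith
    rw [this, zero_mul]
  · have : c x = 0 := hc.zero x ⟨i, h, (le_abs_self M).trans_lt ((le_max_left _ _).trans_lt hi)⟩
    rw [this, mul_zero]

/-- the structure of cutoffs -/
theorem cut_dec {F : ℝ → Fn} (hF : GF.IsCutoff F) : ∃ (a : ℝ → ℝ) (c : V → ℝ) (δ M : ℝ),
    Tst a ∧ ∫ t, a t = 1 ∧ 0 < δ ∧ Spr c δ M ∧
    ∀ R > 0, F R = fun x => ((a (x o) * c fun n => x n / R : ℝ) : ℂ) := by
  obtain ⟨a, c, ha, hc, ha1, hc1, hF⟩ := hF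
  obtain ⟨δ, hδ, hcδ⟩ := Metric.eventually_nhds_iff_ball.1 hc1
  obtain ⟨M, hM⟩ := hc.isCompact.isBounded.subset_closedBall (0 : V)
  obtain ⟨⟨g, hg⟩, hF1⟩ := hF 1 one_pos
  have hgs : ContDiff ℝ ∞ (F 1) := by
    rw [← hg]
    exact g.smooth'
  set c' : V → ℝ := fun x => c fun n => if n = o then 0 else x n with hc'
  have hF1' : ∀ x, F 1 x = ((a (x o) * c' x : ℝ) : ℂ) := by
    intro x
    rw [hF1]
    simp only [hc', div_one]
    push_cast
    rfl
  have hc0 : ∀ t, c' (bas o t) = 1 := by
    intro t
    refine hcδ _ ?_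
    have : (fun n => if n = o then 0 else bas o t n) = (0 : V) := by
      funext n
      simp only [bas, Pi.zero_apply]
      split_ifs <;> rfl
    rw [this]
    exact Metric.mem_ball_self hδ
  have hae : a = fun t => (F 1 (bas o t)).re := by
    funext t
    rw [hF1', hc0, mul_one, Complex.ofReal_re]
    simp [bas]
  have hat : Tst a := by
    refine ⟨?_, ha⟩
    rw [hae]
    refine Complex.reCLM.contDiff.comp (hgs.comp (contDiff_pi.2 fun n => ?_))
    unfold bas
    by_cases h : n = o
    · simp only [h, if_true]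
      exact contDiff_id
    · simp only [h, if_false]
      exact contDiff_const
  obtain ⟨t0, ht0⟩ : ∃ t, a t ≠ 0 := by
    by_contra hcon
    simp only [not_exists, not_not] at hcon
    have : a = fun _ => 0 := funext hcon
    rw [this] at ha1
    simp at ha1
  have hce : c' = fun x => (F 1 (Function.update x o t0)).re / a t0 := by
    funext x
    rw [hF1', Complex.ofReal_re]
    have h1 : c' (Function.update x o t0) = c' x := by
      simp only [hc']
      congr 1
      funext n
      split_ifs with h
      · rfl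
      · rw [Function.update_of_ne h]
    rw [h1, Function.update_self]
    field_simp
  have hcs : ContDiff ℝ ∞ c' := by
    rw [hce]
    refine (Complex.reCLM.contDiff.comp (hgs.comp (contDiff_pi.2 fun n => ?_))).div_const _
    by_cases h : n = o
    · subst h
      simp only [Function.update_self]
      exact contDiff_const
    · simp only [Function.update_of_ne h]
      exact contDiff_apply ℝ ℝ n
  refine ⟨a, c', δ, M, hat, ha1, hδ, ⟨hcs, ?_, ?_, ?_⟩, ?_⟩
  · intro x t
    simp only [hc']
    congr 1
    funext n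
    simp only [Pi.add_apply, bas]
    split_ifs with h
    · rfl
    · simp
  · intro x hx
    refine hcδ _ ?_
    rw [mem_ball_zero_iff, pi_norm_lt_iff hδ]
    intro n
    split_ifs with h
    · simpa using hδ
    · rw [Real.norm_eq_abs]
      exact hx n h
  · rintro x ⟨i, hi, hx⟩
    by_contra hne
    have h1 := hM (subset_tsupport _ (Function.mem_support.2 hne))
    rw [mem_closedBall_zero_iff] at h1
    have h2 := (norm_le_pi_norm (fun n => if n = o then 0 else x n) i).trans h1
    simp only [hi, if_false, Real.norm_eq_abs] at h2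
    linarith
  · intro R hR
    funext x
    rw [(hF R hR).2 x]
    push_cast
    rfl

/-- a primitive with support control -/
lemma prim_tst' {ψ : ℝ → ℝ} (hψ : Tst ψ) (h0 : ∫ u, ψ u = 0) {M : ℝ} (hM : ∀ t, M < |t| → ψ t = 0) :
    ∃ G : ℝ → ℝ, Tst G ∧ (∀ u, deriv G u = ψ u) ∧ ∀ t, M < |t| → G t = 0 := by
  obtain ⟨G, hG, hG'⟩ := H755.prim_tst hψ h0
  refine ⟨G, hG, hG', fun t ht => ?_⟩
  obtain ⟨N, hN⟩ := hG.2.isCompact.isBounded.subset_closedBall (0 : ℝ)
  have hN' : ∀ s, N < |s| → G s = 0 := by
    intro s hs
    by_contra hne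
    have h1 := hN (subset_tsupport _ (Function.mem_support.2 hne))
    rw [mem_closedBall_zero_iff, Real.norm_eq_abs] at h1
    linarith
  have hint : ∀ p q : ℝ, ∫ u in p..q, ψ u = G q - G p := by
    intro p q
    have := intervalIntegral.integral_deriv_eq_sub (f := G) (a := p) (b := q)
      (fun x _ => hG.diff x) (by
        rw [funext hG']
        exact hψ.cont.intervalIntegrable _ _)
    rw [← this]
    exact intervalIntegral.integral_congr fun u _ => (hG' u).symm
  rcases le_total 0 t with h | h
  · rw [abs_of_nonneg h] at ht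
    set q := max t (|N| + 1) with hq
    have hq1 : G q = 0 := by
      apply hN'
      have h1 : |N| + 1 ≤ q := le_max_right _ _
      have h2 : 0 ≤ q := h.trans (le_max_left _ _)
      rw [abs_of_nonneg h2]
      have := le_abs_self N
      linarith
    have h3 := hint t q
    rw [hq1, zero_sub, intervalIntegral.integral_congr (g := fun _ => (0:ℝ))] at h3
    · simpa using h3.symm
    · intro u hu
      rw [Set.uIcc_of_le (le_max_left _ _)] at hu
      refine hM u (ht.trans_le (hu.1.trans (le_abs_self u)))
  · rw [abs_of_nonpos h] at ht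
    set q := min t (-(|N| + 1)) with hq
    have hq1 : G q = 0 := by
      apply hN'
      have h1 : q ≤ -(|N| + 1) := min_le_right _ _
      have h2 : q ≤ 0 := (min_le_left _ _).trans h
      rw [abs_of_nonpos h2]
      have := le_abs_self N
      linarith
    have h3 := hint q t
    rw [hq1, sub_zero, intervalIntegral.integral_congr (g := fun _ => (0:ℝ))] at h3
    · simpa using h3.symm
    · intro u hu
      rw [Set.uIcc_of_le (min_le_left _ _)] at hu
      refine hM u (ht.trans_le ?_)
      have := neg_le_abs u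
      linarith [hu.2]

end Vale.Agent.P352.H746

end
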