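import Vale.Agent.P352.H746.One
import Vale.Agent.P352.H496.OnSh
import Vale.Agent.P352.H496.Fwd
import Vale.Agent.P352.H496.GnrPtr

set_option linter.all false

noncomputable section

open MeasureTheory SchwartzMap Complex Filter Topology
open scoped SchwartzMap ComplexConjugate ENNReal LineDeriv ContDiff FourierTransform

namespace Vale.Agent.P352.H746

open GF (Ix V Fn Sch ev pd bar sim bas o)
open H246 H496 H755 H246R
open UniformSpace (Completion)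

variable {D : Type*} [NormedAddCommGroup D] [InnerProductSpace ℂ D]
variable {Q : GF.Theory D}
variable {H : D → D} {alg : Set V → Set (D → D)} {S : V → ℝ → D → D} {G : V → D → D}
variable {T : Ix → Ix → GF.Fld D} {J : Ix → GF.Fld D} {l : Fn → Completion D}

/-- the limits of the amplitudes in the notation of the statement -/
theorem amp_lim2 (hT : Q.IsStress T) (N : CNet Q H alg S) (Gg : Gnr Q alg S G)
    (hJ : IsVirial Q T J) (hl : IsPot Q T l)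
    {κ : V → ℝ} (hκ : Tst κ) (hκ1 : ∀ᶠ x in 𝓝 (0 : V), κ x = 1) : ∃ k : ℂ,
    (k = 0 ↔ ∀ a s v c c', IsNull a → Val l v c → Val l (S a s v) c' → c' = c) ∧
    ∀ a b Φ Ψ m g, IsNull a → IsNull b → GF.mdot a b = 1 → Tst Φ → Tst Ψ → GF.IsTest g →
      Fwd g → ∃ c₁ c₂ : ℂ, Tendsto (fun R => Amp Q J G a b Φ
      (fun i => dr i fun x => cut b a κ R x * deriv Ψ (GF.mdot b x)) (J m g Q.vac)) atTop (𝓝 c₁) ∧
      Tendsto (fun R => Amp Q J G b a Ψ
      (fun i => dr i fun x => cut a b κ R x * deriv Φ (GF.mdot a x)) (J m g Q.vac)) atTop (𝓝 c₂) ∧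
      c₁ - c₂ = 3 * k * ∫ y : V, ((a m * deriv (deriv (deriv Φ)) (GF.mdot a y) *
        deriv (deriv Ψ) (GF.mdot b y) - b m * deriv (deriv (deriv Ψ)) (GF.mdot b y) *
        deriv (deriv Φ) (GF.mdot a y) : ℝ) : ℂ) * g y := by
  obtain ⟨k, hk⟩ := exists_kapV hT N Gg hJ hl
  refine ⟨k, kap_iff hT N Gg hJ hl hk, ?_⟩
  intro a b Φ Ψ m g ha hb hab hΦ hΨ hg hfw
  obtain ⟨F, rfl⟩ := exists_fl hg
  exact amp_main hT N Gg hJ hl (fun a ha s w hw => Gg.Ptr ha hw) hκ hκ1 hk ha hb hab hΦ hΨ m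
    (fwd_iff.1 hfw)

/-- ONE AMPLITUDE DECIDES -/
theorem one_amp (hT : Q.IsStress T) (N : CNet Q H alg S) (Gg : Gnr Q alg S G)
    (hJ : IsVirial Q T J) (hl : IsPot Q T l)
    {κ : V → ℝ} (hκ : Tst κ) (hκ1 : ∀ᶠ x in 𝓝 (0 : V), κ x = 1)
    {a b : V} {Φ Ψ : ℝ → ℝ} {m : Ix} {g : Fn} (ha : IsNull a) (hb : IsNull b)
    (hab : GF.mdot a b = 1) (hΦ : Tst Φ) (hΨ : Tst Ψ) (hg : GF.IsTest g) (hfw : Fwd g)
    (hne : ∫ y : V, ((a m * deriv (deriv (deriv Φ)) (GF.mdot a y) *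
        deriv (deriv Ψ) (GF.mdot b y) - b m * deriv (deriv (deriv Ψ)) (GF.mdot b y) *
        deriv (deriv Φ) (GF.mdot a y) : ℝ) : ℂ) * g y ≠ 0)
    (h : ∃ c, Tendsto (fun R => Amp Q J G a b Φ
      (fun i => dr i fun x => cut b a κ R x * deriv Ψ (GF.mdot b x)) (J m g Q.vac)) atTop (𝓝 c) ∧
      Tendsto (fun R => Amp Q J G b a Ψ
      (fun i => dr i fun x => cut a b κ R x * deriv Φ (GF.mdot a x)) (J m g Q.vac)) atTop (𝓝 c)) :
    ∀ a s v c c', IsNull a → Val l v c → Val l (S a s v) c' → c' = c := by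
  obtain ⟨k, hk, hlim⟩ := amp_lim2 hT N Gg hJ hl hκ hκ1
  obtain ⟨c₁, c₂, h1, h2, h3⟩ := hlim a b Φ Ψ m g ha hb hab hΦ hΨ hg hfw
  obtain ⟨c, h4, h5⟩ := h
  rw [tendsto_nhds_unique h1 h4, tendsto_nhds_unique h2 h5, sub_self] at h3
  refine hk.1 ?_
  have h6 := (mul_eq_zero.1 h3.symm).resolve_right hne
  exact (mul_eq_zero.1 h6).resolve_left (by norm_num)

/-- CROSSING SYMMETRY IS EQUIVALENT TO THE INVARIANCE OF THE POTENTIAL -/
theorem cross_iff (hT : Q.IsStress T) (N : CNet Q H alg S) (Gg : Gnr Q alg S G)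
    (hJ : IsVirial Q T J) (hl : IsPot Q T l)
    {κ : V → ℝ} (hκ : Tst κ) (hκ1 : ∀ᶠ x in 𝓝 (0 : V), κ x = 1) :
    Crossing Q J G κ ↔
      ∀ a s v c c', IsNull a → Val l v c → Val l (S a s v) c' → c' = c := by
  constructor
  · intro hC
    refine inv_of_kappaPC hT N Gg hl fun f hf => hk_main hT N Gg hJ hl
      (fun a ha s w hw => Gg.Ptr ha hw) (fun v => n0 N Gg hJ v)
      (fun m g hg => H993.hsch N hT hJ hl m g hg) ?_ f hf
    intro a b Phi Sig m g X ha hb hab hpa hpb hPhi hSig hg hX n0a n0b Am hAm Lm hLm Z Z' hZ hZ'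
    exact sid_cross N Gg hJ hl hC hκ hκ1 ha hb hab hpa hpb hPhi hSig m (isTest_fl g)
      (fwd_iff.2 hg) hX n0a n0b Am hAm Lm hLm Z Z' hZ hZ'
  · intro hinv
    obtain ⟨k, hk, hlim⟩ := amp_lim2 hT N Gg hJ hl hκ hκ1
    intro a b Φ Ψ m g ha hb hab hΦ hΨ hg hfw
    obtain ⟨c₁, c₂, h1, h2, h3⟩ := hlim a b Φ Ψ m g ha hb hab hΦ hΨ hg hfw
    rw [hk.2 hinv, mul_zero, zero_mul] at h3
    exact ⟨c₁, h1, by rw [sub_eq_zero.1 h3]; exact h2⟩

end Vale.Agent.P352.H746
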