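import Mathlib.Analysis.Normed.Algebra.MatrixExponential
import Mathlib.Analysis.SpecialFunctions.Exponential
import Vale.Agent.P352.H246.Ind

set_option linter.all false

noncomputable section

open MeasureTheory SchwartzMap Complex Filter Topology
open scoped SchwartzMap ComplexConjugate ENNReal LineDeriv

namespace Vale.Agent.P352.H746

open GF (Ix V Fn Sch ev pd bar sim bas o)
open H246

/-! ### Curves of Lorentz transformations -/

open scoped Matrix.Norms.Operator in
lemma exists_lor {w : Ix → V} (hw : ∀ m n, GF.eta n * w m n = -(GF.eta m * w n m)) :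
    ∃ L : ℝ → Ix → V, L 0 = GF.one ∧ (∀ e, GF.IsLor (L e)) ∧
      ∀ m n, HasDerivAt (fun e => L e m n) (w m n) 0 := by
  set W : Matrix Ix Ix ℝ := Matrix.of w with hW
  set E : Matrix Ix Ix ℝ := Matrix.diagonal GF.eta with hE
  have hEE : E * E = 1 := by
    rw [hE, Matrix.diagonal_mul_diagonal]
    have : (fun i => GF.eta i * GF.eta i) = fun _ => 1 := by
      funext i; exact eta_sq i
    rw [this, Matrix.diagonal_one]
  have hEu : IsUnit E := IsUnit.of_mul_eq_one E hEE
  have hEi : E⁻¹ = E := Matrix.inv_eq_right_inv hEE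
  have hEW : E * W.transpose * E = -W := by
    ext m n
    rw [hE, Matrix.mul_diagonal, Matrix.diagonal_mul]
    simp only [hW, Matrix.transpose_apply, Matrix.of_apply, Matrix.neg_apply]
    have h1 := hw m n
    have h2 := eta_sq m
    have h3 := eta_sq n
    linear_combination (GF.eta n) * h1 - (w m n) * h3
  set P : ℝ → Matrix Ix Ix ℝ := fun e => NormedSpace.exp (e • W) with hP
  have hT : ∀ e, E * (P e).transpose * E = (P e)⁻¹ := by
    intro e
    have h1 : E * (e • W).transpose * E⁻¹ = -(e • W) := by
      rw [hEi, Matrix.transpose_smul, Matrix.mul_smul, Matrix.smul_mul, hEW, smul_neg]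
    have h2 := Matrix.exp_conj E (e • W).transpose hEu
    rw [h1, Matrix.exp_neg, Matrix.exp_transpose, hEi] at h2
    exact h2.symm
  have hdet : ∀ e, IsUnit (P e).det := fun e =>
    (Matrix.isUnit_iff_isUnit_det _).1 (Matrix.isUnit_exp _)
  have hPi : ∀ e, P e * (P e)⁻¹ = 1 := fun e => Matrix.mul_nonsing_inv _ (hdet e)
  have hiP : ∀ e, (P e)⁻¹ * P e = 1 := fun e => Matrix.nonsing_inv_mul _ (hdet e)
  have hPP : ∀ e, P e = P (e / 2) * P (e / 2) := by
    intro e
    simp only [hP]
    rw [← Matrix.exp_add_of_commute _ _ (Commute.refl _), ← add_smul, add_halves]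
  have h1 : ∀ e, P e * E * (P e).transpose = E := by
    intro e
    have h := hPi e
    rw [← hT e] at h
    have h2 : P e * E * (P e).transpose * (E * E) = E := by
      calc P e * E * (P e).transpose * (E * E) = P e * (E * (P e).transpose * E) * E := by
            simp only [Matrix.mul_assoc]
        _ = E := by rw [h, Matrix.one_mul]
    rwa [hEE, Matrix.mul_one] at h2
  have h2 : ∀ e, (P e).transpose * E * P e = E := by
    intro e
    have h := hiP e
    rw [← hT e] at h
    have h2 : (E * E) * ((P e).transpose * E * P e) = E := by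
      calc (E * E) * ((P e).transpose * E * P e) = E * (E * (P e).transpose * E * P e) := by
            simp only [Matrix.mul_assoc]
        _ = E := by rw [h, Matrix.mul_one]
    rwa [hEE, Matrix.one_mul] at h2
  have hd2 : ∀ e, (P e).det * (P e).det = 1 := by
    intro e
    have h3 := congrArg Matrix.det (h1 e)
    rw [Matrix.det_mul, Matrix.det_mul, Matrix.det_transpose] at h3
    have h4 : E.det * E.det = 1 := by rw [← Matrix.det_mul, hEE, Matrix.det_one]
    have h5 : E.det ≠ 0 := by
      intro h0
      rw [h0, zero_mul] at h4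
      exact zero_ne_one h4
    have h6 : (P e).det * (P e).det * E.det = 1 * E.det := by linear_combination h3
    exact mul_right_cancel₀ h5 h6
  have hd : ∀ e, (P e).det = 1 := by
    intro e
    rw [hPP e, Matrix.det_mul, hd2]
  have e1 : ∀ e m n, ∑ k, GF.eta k * P e m k * P e n k = E m n := by
    intro e m n
    rw [← h1 e, Matrix.mul_apply]
    refine Finset.sum_congr rfl fun k _ => ?_
    rw [hE, Matrix.mul_diagonal, Matrix.transpose_apply]
    ring
  have e2 : ∀ e m n, ∑ k, GF.eta k * P e k m * P e k n = E m n := by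
    intro e m n
    have h3 := congrFun (congrFun (h2 e) m) n
    rw [← h3, Matrix.mul_apply]
    refine Finset.sum_congr rfl fun k _ => ?_
    rw [hE, Matrix.mul_diagonal, Matrix.transpose_apply]
    ring
  refine ⟨fun e m n => P e m n, ?_, fun e => ⟨fun m n => ?_, ?_, ?_⟩, fun m n => ?_⟩
  · funext m n
    simp only [hP, zero_smul, NormedSpace.exp_zero]
    rw [Matrix.one_apply]
    simp only [GF.one, bas, eq_comm]
  · show ∑ k, GF.eta k * P e m k * P e n k = _
    rw [e1, hE, Matrix.diagonal_apply]
    simp only [bas, eq_comm]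
  · show 0 < P e 0 0
    rw [hPP e, Matrix.mul_apply, Fin.sum_univ_four]
    set A := P (e / 2) with hA
    have a1 := e1 (e / 2) 0 0
    have a2 := e2 (e / 2) 0 0
    rw [hE, Matrix.diagonal_apply, if_pos rfl, Fin.sum_univ_four] at a1 a2
    simp [GF.eta, o] at a1 a2
    nlinarith [sq_nonneg (A 0 1 + A 1 0), sq_nonneg (A 0 2 + A 2 0), sq_nonneg (A 0 3 + A 3 0),
      sq_nonneg (A 0 0)]
  · show Matrix.det (P e) = 1
    exact hd e
  · have h3 := hasDerivAt_exp_smul_const (𝕂 := ℝ) W (0 : ℝ)
    rw [zero_smul, NormedSpace.exp_zero, one_mul] at h3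
    set c : Matrix Ix Ix ℝ →L[ℝ] ℝ := LinearMap.toContinuousLinearMap
      (Matrix.entryLinearMap ℝ ℝ m n) with hc
    have h4 := c.hasFDerivAt.comp_hasDerivAt (0 : ℝ) h3
    exact h4

end Vale.Agent.P352.H746

end
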