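import Vale.Agent.P352.H746.Vjm
import Mathlib.Analysis.Calculus.LineDeriv.IntegrationByParts

set_option linter.all false

noncomputable section

open MeasureTheory SchwartzMap Complex Filter Topology
open scoped SchwartzMap ComplexConjugate ENNReal NNReal LineDeriv ContDiff

namespace Vale.Agent.P352.H746

open GF (Ix V Fn Sch ev pd bar sim bas o)
open H246 H496 H755
open UniformSpace (Completion)

/-! ### Integration by parts on the null hyperplanes -/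

/-- the square of the transverse part -/
def Wq (a b y : V) : ℝ := 2 * GF.mdot a y * GF.mdot b y - GF.mdot y y

lemma Wq_symm (a b y : V) : Wq a b y = Wq b a y := by unfold Wq; ring

lemma continuous_gm (a : V) : Continuous fun y : V => GF.mdot a y := by
  unfold GF.mdot; fun_prop

lemma continuous_Wq (a b : V) : Continuous fun y : V => Wq a b y := by
  unfold Wq GF.mdot; fun_prop

lemma abs_gm_le (x y : V) : |GF.mdot x y| ≤ 4 * ‖x‖ * ‖y‖ := by
  unfold GF.mdot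
  refine (Finset.abs_sum_le_sum_abs _ _).trans ?_
  have h : ∀ m : Ix, |GF.eta m * x m * y m| ≤ ‖x‖ * ‖y‖ := by
    intro m
    have h1 : |GF.eta m| = 1 := by unfold GF.eta; split_ifs <;> simp
    rw [abs_mul, abs_mul, h1, one_mul]
    gcongr
    · exact norm_le_pi_norm x m
    · exact norm_le_pi_norm y m
  refine (Finset.sum_le_sum fun m _ => h m).trans ?_
  simp
  apply le_of_eq
  ring

lemma abs_Wq_le (a b y : V) : |Wq a b y| ≤ (32 * ‖a‖ * ‖b‖ + 4) * ‖y‖ ^ 2 := by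
  unfold Wq
  have h1 := abs_gm_le a y
  have h2 := abs_gm_le b y
  have h3 := abs_gm_le y y
  refine (abs_sub _ _).trans ?_
  rw [abs_mul, abs_mul, abs_two]
  calc 2 * |GF.mdot a y| * |GF.mdot b y| + |GF.mdot y y|
      ≤ 2 * (4 * ‖a‖ * ‖y‖) * (4 * ‖b‖ * ‖y‖) + 4 * ‖y‖ * ‖y‖ := by gcongr
    _ = _ := by ring

lemma int_pol (Φ : 𝓢(V, ℂ)) {P : V → ℂ} (hP : Continuous P) {M : ℝ}
    (hb : ∀ y, ‖P y‖ ≤ M * (1 + ‖y‖ ^ 2)) : Integrable fun y => P y * Φ y := by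
  have h0 := Φ.integrable_pow_mul (μ := (volume : Measure V)) 0
  have h2 := Φ.integrable_pow_mul (μ := (volume : Measure V)) 2
  have h3 := (h0.add h2).const_mul M
  refine h3.mono' (hP.mul Φ.continuous).aestronglyMeasurable (Eventually.of_forall fun y => ?_)
  rw [norm_mul]
  simp only [Pi.add_apply, pow_zero, one_mul]
  calc ‖P y‖ * ‖Φ y‖ ≤ M * (1 + ‖y‖ ^ 2) * ‖Φ y‖ := by
        gcongr
        exact hb y
    _ = _ := by ring

/-- bounded profiles -/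
def Bd (θ : ℝ → ℝ) : Prop := Continuous θ ∧ ∃ C, ∀ u, |θ u| ≤ C

lemma tst_bd {θ : ℝ → ℝ} (h : Tst θ) : Bd θ := by
  refine ⟨h.1.continuous, ?_⟩
  obtain ⟨C, hC⟩ := h.2.exists_bound_of_continuous h.1.continuous
  exact ⟨C, fun u => hC u⟩

lemma tst_deriv {θ : ℝ → ℝ} (h : Tst θ) : Tst (deriv θ) :=
  ⟨(contDiff_infty_iff_deriv.1 h.1).2, h.2.deriv⟩

lemma tst_has {θ : ℝ → ℝ} (h : Tst θ) (u : ℝ) : HasDerivAt θ (deriv θ u) u :=
  ((h.1.differentiable (by simp)) u).hasDerivAt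

lemma int_prof {θ τ : ℝ → ℝ} (hθ : Bd θ) (hτ : Bd τ) (a b : V) (Φ : 𝓢(V, ℂ)) :
    Integrable fun y : V => ((θ (GF.mdot a y) * τ (GF.mdot b y) : ℝ) : ℂ) * Φ y := by
  obtain ⟨C1, h1⟩ := hθ.2
  obtain ⟨C2, h2⟩ := hτ.2
  have hC1 : 0 ≤ C1 := (abs_nonneg _).trans (h1 0)
  have hC2 : 0 ≤ C2 := (abs_nonneg _).trans (h2 0)
  refine int_pol Φ (M := C1 * C2) ?_ fun y => ?_
  · exact continuous_ofReal.comp ((hθ.1.comp (continuous_gm a)).mul (hτ.1.comp (continuous_gm b)))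
  · rw [norm_real, Real.norm_eq_abs, abs_mul]
    calc |θ (GF.mdot a y)| * |τ (GF.mdot b y)| ≤ C1 * C2 := by
          gcongr
          · exact h1 _
          · exact h2 _
      _ ≤ C1 * C2 * (1 + ‖y‖ ^ 2) := by
          have : 0 ≤ C1 * C2 * ‖y‖ ^ 2 := by positivity
          linarith

lemma int_profW {θ τ : ℝ → ℝ} (hθ : Bd θ) (hτ : Bd τ) (a b : V) (Φ : 𝓢(V, ℂ)) :
    Integrable fun y : V => ((θ (GF.mdot a y) * τ (GF.mdot b y) * Wq a b y : ℝ) : ℂ) * Φ y := by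
  obtain ⟨C1, h1⟩ := hθ.2
  obtain ⟨C2, h2⟩ := hτ.2
  have hC1 : 0 ≤ C1 := (abs_nonneg _).trans (h1 0)
  have hC2 : 0 ≤ C2 := (abs_nonneg _).trans (h2 0)
  refine int_pol Φ (M := C1 * C2 * (32 * ‖a‖ * ‖b‖ + 4)) ?_ fun y => ?_
  · exact continuous_ofReal.comp (((hθ.1.comp (continuous_gm a)).mul
      (hτ.1.comp (continuous_gm b))).mul (continuous_Wq a b))
  · rw [norm_real, Real.norm_eq_abs, abs_mul, abs_mul]
    have h3 := abs_Wq_le a b y
    calc |θ (GF.mdot a y)| * |τ (GF.mdot b y)| * |Wq a b y| ≤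
          C1 * C2 * ((32 * ‖a‖ * ‖b‖ + 4) * ‖y‖ ^ 2) := by
          gcongr
          · exact h1 _
          · exact h2 _
      _ ≤ C1 * C2 * (32 * ‖a‖ * ‖b‖ + 4) * (1 + ‖y‖ ^ 2) := by
          have : 0 ≤ C1 * C2 * (32 * ‖a‖ * ‖b‖ + 4) := by positivity
          nlinarith

/-- integration by parts in the null direction -/
theorem byparts {a b : V} (ha : GF.mdot a a = 0) (hab : GF.mdot a b = 1) {θ τ : ℝ → ℝ}
    (hθ : Bd θ) (hτ : Tst τ) (Φ : 𝓢(V, ℂ)) :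
    ∫ y : V, ((θ (GF.mdot a y) * τ (GF.mdot b y) * Wq a b y : ℝ) : ℂ) *
        (∂_{a} Φ : 𝓢(V, ℂ)) y =
      -∫ y : V, ((θ (GF.mdot a y) * deriv τ (GF.mdot b y) * Wq a b y : ℝ) : ℂ) * Φ y := by
  have hba : GF.mdot b a = 1 := by rw [gm_comm, hab]
  have h := integral_bilinear_hasLineDerivAt_right_eq_neg_left_of_integrable
    (μ := (volume : Measure V)) (B := ContinuousLinearMap.mul ℝ ℂ) (v := a)
    (f := fun y : V => ((θ (GF.mdot a y) * τ (GF.mdot b y) * Wq a b y : ℝ) : ℂ))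
    (f' := fun y : V => ((θ (GF.mdot a y) * deriv τ (GF.mdot b y) * Wq a b y : ℝ) : ℂ))
    (g := fun y => Φ y) (g' := fun y => (∂_{a} Φ : 𝓢(V, ℂ)) y)
    (int_profW hθ (tst_bd (tst_deriv hτ)) a b Φ) (int_profW hθ (tst_bd hτ) a b (∂_{a} Φ : 𝓢(V, ℂ)))
    (int_profW hθ (tst_bd hτ) a b Φ) (fun y _ => ?_) (fun y _ => ?_)
  · exact h
  · have e : (fun t : ℝ => ((θ (GF.mdot a (y + t • a)) * τ (GF.mdot b (y + t • a)) *
        Wq a b (y + t • a) : ℝ) : ℂ)) = fun t : ℝ => ((θ (GF.mdot a y) * Wq a b y *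
          τ (GF.mdot b y + t) : ℝ) : ℂ) := by
      funext t
      have e1 : GF.mdot a (y + t • a) = GF.mdot a y := by rw [gm_add, gm_smul, ha]; ring
      have e2 : GF.mdot b (y + t • a) = GF.mdot b y + t := by rw [gm_add, gm_smul, hba]; ring
      have e3 : Wq a b (y + t • a) = Wq a b y := by
        have e4 : GF.mdot (y + t • a) (y + t • a) = GF.mdot y y + 2 * t * GF.mdot a y := by
          have e5 : ∀ z, GF.mdot (y + t • a) z = GF.mdot y z + t * GF.mdot a z := by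
            intro z
            rw [gm_comm, gm_add, gm_smul, gm_comm z y, gm_comm z a]
          rw [e5, gm_add, gm_add, gm_smul, gm_smul, ha, gm_comm y a]
          ring
        unfold Wq
        rw [e1, e2, e4]
        ring
      rw [e1, e2, e3]
      congr 1
      ring
    show HasDerivAt _ _ _
    rw [e]
    have h1 : HasDerivAt (fun t : ℝ => τ (GF.mdot b y + t)) (deriv τ (GF.mdot b y)) 0 := by
      have h2 := tst_has hτ (GF.mdot b y)
      have h3 := (hasDerivAt_id (0 : ℝ)).const_add (GF.mdot b y)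
      have h4 : HasDerivAt τ (deriv τ (GF.mdot b y)) (GF.mdot b y + id (0 : ℝ)) := by
        simpa using h2
      have h5 := h4.comp (0 : ℝ) h3
      rw [mul_one] at h5
      exact h5
    have h2 := (h1.const_mul (θ (GF.mdot a y) * Wq a b y)).ofReal_comp
    refine h2.congr_deriv ?_
    push_cast
    ring
  · have h1 : HasFDerivAt (fun y => Φ y) (fderiv ℝ Φ y) y :=
      ((Φ.smooth 1).differentiable (by norm_num) y).hasFDerivAt
    exact h1.hasLineDerivAt a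

/-- the light front form of the time ordered product of two plane sources -/
def Sid (a b : V) (φ σ : ℝ → ℝ) (Fa Fl Bj Cj : V → ℂ) : ℂ :=
  (∫ y : V, ((1 / 2 * deriv (deriv φ) (GF.mdot a y) : ℝ) : ℂ) * (((σ (GF.mdot b y) : ℝ) : ℂ) * Fa y +
      6 * ((deriv σ (GF.mdot b y) : ℝ) : ℂ) * Fl y)) +
    I * ∫ y : V, (((-(1 / 2) * deriv φ (GF.mdot a y) * deriv (deriv σ) (GF.mdot b y) * Wq a b y :
      ℝ) : ℂ) * Bj y + ((deriv φ (GF.mdot a y) * deriv σ (GF.mdot b y) : ℝ) : ℂ) * Cj y)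

/-- the symmetric part -/
def Sm (a b : V) (φ σ : ℝ → ℝ) (A B C L : V → ℂ) : ℂ :=
  I * (-(1 / 2) * ((∫ y : V, ((deriv (deriv φ) (GF.mdot a y) * deriv σ (GF.mdot b y) *
      Wq a b y : ℝ) : ℂ) * A y) + ∫ y : V, ((deriv φ (GF.mdot a y) * deriv (deriv σ) (GF.mdot b y) *
      Wq a b y : ℝ) : ℂ) * B y) -
    3 * (∫ y : V, ((deriv (deriv φ) (GF.mdot a y) * deriv (deriv σ) (GF.mdot b y) *
      Wq a b y : ℝ) : ℂ) * L y) +
    ∫ y : V, ((deriv φ (GF.mdot a y) * deriv σ (GF.mdot b y) : ℝ) : ℂ) * C y)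

lemma Sm_symm (a b : V) (φ σ : ℝ → ℝ) (A B C L : V → ℂ) :
    Sm a b φ σ A B C L = Sm b a σ φ B A C L := by
  unfold Sm
  have e1 : ∀ (f g : ℝ → ℝ) (K : V → ℂ), (∫ y : V, ((f (GF.mdot a y) * g (GF.mdot b y) *
      Wq a b y : ℝ) : ℂ) * K y) = ∫ y : V, ((g (GF.mdot b y) * f (GF.mdot a y) *
      Wq b a y : ℝ) : ℂ) * K y := by
    intro f g K
    congr 1
    funext y
    rw [Wq_symm a b y]
    congr 2
    ring
  have e2 : (∫ y : V, ((deriv φ (GF.mdot a y) * deriv σ (GF.mdot b y) : ℝ) : ℂ) * C y) =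
      ∫ y : V, ((deriv σ (GF.mdot b y) * deriv φ (GF.mdot a y) : ℝ) : ℂ) * C y := by
    congr 1
    funext y
    congr 2
    ring
  rw [e1, e1, e1, e2]
  ring

/-- the light front form in terms of symmetric terms and the response of the potential -/
theorem side_eq {a b : V} (ha : GF.mdot a a = 0) (hab : GF.mdot a b = 1) {φ σ : ℝ → ℝ}
    (hφ : Tst φ) (hσ : Tst σ) (A B L Z : 𝓢(V, ℂ)) {Fa Fl C : V → ℂ}
    (i5 : Integrable fun y : V => ((deriv φ (GF.mdot a y) * deriv σ (GF.mdot b y) : ℝ) : ℂ) * C y)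
    (h1 : ∀ y, Fa y = I * (Wq a b y : ℂ) * (∂_{a} A : 𝓢(V, ℂ)) y)
    (h2 : ∀ y, Fl y = Z y + I * (Wq a b y : ℂ) * (∂_{a} L : 𝓢(V, ℂ)) y) :
    Sid a b φ σ Fa Fl B C = Sm a b φ σ A B C L +
      3 * ∫ y : V, ((deriv (deriv φ) (GF.mdot a y) * deriv σ (GF.mdot b y) : ℝ) : ℂ) * Z y := by
  have hφ1 := tst_deriv hφ
  have hφ2 := tst_deriv hφ1
  have hσ1 := tst_deriv hσ
  have hσ2 := tst_deriv hσ1
  have i1 := int_profW (tst_bd hφ2) (tst_bd hσ) a b (∂_{a} A : 𝓢(V, ℂ))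
  have i2 := int_profW (tst_bd hφ2) (tst_bd hσ1) a b (∂_{a} L : 𝓢(V, ℂ))
  have i3 := int_prof (tst_bd hφ2) (tst_bd hσ1) a b Z
  have i4 := int_profW (tst_bd hφ1) (tst_bd hσ2) a b B
  have p1 := byparts ha hab (tst_bd hφ2) hσ A
  have p2 := byparts ha hab (tst_bd hφ2) hσ1 L
  unfold Sid Sm
  have e1 : ∀ y : V, ((1 / 2 * deriv (deriv φ) (GF.mdot a y) : ℝ) : ℂ) *
      (((σ (GF.mdot b y) : ℝ) : ℂ) * Fa y + 6 * ((deriv σ (GF.mdot b y) : ℝ) : ℂ) * Fl y) =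
      (I / 2) * (((deriv (deriv φ) (GF.mdot a y) * σ (GF.mdot b y) * Wq a b y : ℝ) : ℂ) *
        (∂_{a} A : 𝓢(V, ℂ)) y) +
      (3 * (((deriv (deriv φ) (GF.mdot a y) * deriv σ (GF.mdot b y) : ℝ) : ℂ) * Z y) +
      3 * I * (((deriv (deriv φ) (GF.mdot a y) * deriv σ (GF.mdot b y) * Wq a b y : ℝ) : ℂ) *
        (∂_{a} L : 𝓢(V, ℂ)) y)) := by
    intro y
    rw [h1, h2]
    push_cast
    ring
  have e2 : ∀ y : V, ((-(1 / 2) * deriv φ (GF.mdot a y) * deriv (deriv σ) (GF.mdot b y) *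
      Wq a b y : ℝ) : ℂ) * B y + ((deriv φ (GF.mdot a y) * deriv σ (GF.mdot b y) : ℝ) : ℂ) * C y =
      -(1 / 2) * (((deriv φ (GF.mdot a y) * deriv (deriv σ) (GF.mdot b y) * Wq a b y : ℝ) : ℂ) *
        B y) + ((deriv φ (GF.mdot a y) * deriv σ (GF.mdot b y) : ℝ) : ℂ) * C y := by
    intro y
    push_cast
    ring
  simp only [e1, e2]
  have i23 : Integrable fun y : V =>
      (3 * (((deriv (deriv φ) (GF.mdot a y) * deriv σ (GF.mdot b y) : ℝ) : ℂ) * Z y) +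
      3 * I * (((deriv (deriv φ) (GF.mdot a y) * deriv σ (GF.mdot b y) * Wq a b y : ℝ) : ℂ) *
        (∂_{a} L : 𝓢(V, ℂ)) y)) := (i3.const_mul _).add (i2.const_mul _)
  rw [integral_add (i1.const_mul _) i23,
    integral_add (i3.const_mul _) (i2.const_mul _), integral_add (i4.const_mul _) i5,
    integral_const_mul, integral_const_mul, integral_const_mul, integral_const_mul, p1, p2]
  ring

/-- RECIPROCITY: the two light front forms agree only if the responses of the potential are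
reciprocal -/
theorem recip {a b : V} (ha : GF.mdot a a = 0) (hb : GF.mdot b b = 0) (hab : GF.mdot a b = 1)
    {φ σ : ℝ → ℝ} (hφ : Tst φ) (hσ : Tst σ) (A B L Z Z' : 𝓢(V, ℂ)) {Fa Fl Fb Fl' C : V → ℂ}
    (i5 : Integrable fun y : V => ((deriv φ (GF.mdot a y) * deriv σ (GF.mdot b y) : ℝ) : ℂ) * C y)
    (h1 : ∀ y, Fa y = I * (Wq a b y : ℂ) * (∂_{a} A : 𝓢(V, ℂ)) y)
    (h2 : ∀ y, Fl y = Z y + I * (Wq a b y : ℂ) * (∂_{a} L : 𝓢(V, ℂ)) y)
    (h3 : ∀ y, Fb y = I * (Wq b a y : ℂ) * (∂_{b} B : 𝓢(V, ℂ)) y)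
    (h4 : ∀ y, Fl' y = Z' y + I * (Wq b a y : ℂ) * (∂_{b} L : 𝓢(V, ℂ)) y)
    (h : Sid a b φ σ Fa Fl B C = Sid b a σ φ Fb Fl' A C) :
    ∫ y : V, ((deriv (deriv φ) (GF.mdot a y) * deriv σ (GF.mdot b y) : ℝ) : ℂ) * Z y =
      ∫ y : V, ((deriv (deriv σ) (GF.mdot b y) * deriv φ (GF.mdot a y) : ℝ) : ℂ) * Z' y := by
  have hba : GF.mdot b a = 1 := by rw [gm_comm, hab]
  have i5' : Integrable fun y : V => ((deriv σ (GF.mdot b y) * deriv φ (GF.mdot a y) : ℝ) : ℂ) *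
      C y := by
    refine i5.congr (Eventually.of_forall fun y => ?_)
    simp only
    rw [mul_comm (deriv φ (GF.mdot a y))]
  rw [side_eq ha hab hφ hσ A B L Z i5 h1 h2, side_eq hb hba hσ hφ B A L Z' i5' h3 h4,
    Sm_symm a b] at h
  have h5 := add_left_cancel h
  exact mul_left_cancel₀ (by norm_num) h5

end Vale.Agent.P352.H746

end
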