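import Vale.Agent.P352.H746.SchDer
import Vale.Agent.P352.H15.BkDefs
import Vale.Agent.P352.H246.Asm2
import Vale.Agent.P352.H496.Fieldw

set_option linter.all false

noncomputable section

open MeasureTheory SchwartzMap Complex Filter Topology
open scoped SchwartzMap ComplexConjugate ENNReal LineDeriv

namespace Vale.Agent.P352.H746

open GF (Ix V Fn Sch ev pd bar sim bas o)
open H246 H496 H755 H15
open UniformSpace (Completion)

/-! ### Affine vector fields -/

/-- `X·∂f` -/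
def vf (X : V → V) (f : Fn) : Fn := fun x => ∑ n, (X x n : ℂ) * pd n f x

/-- matrix units -/
def eu (m n : Ix) : Mink →L[ℝ] Mink :=
  ContinuousLinearMap.smulRight (EuclideanSpace.proj m : Mink →L[ℝ] ℝ) (eb n)

lemma eu_apply (m n : Ix) (x : Mink) : eu m n x = x m • eb n := rfl

/-- linear maps from matrices -/
def ml (w : Ix → V) : Mink →L[ℝ] Mink := ∑ m, ∑ n, w m n • eu m n

lemma ml_apply (w : Ix → V) (x : Mink) : ml w x = WithLp.toLp 2 fun n => ∑ m, x m * w m n := by
  unfold ml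
  simp only [ContinuousLinearMap.sum_apply, ContinuousLinearMap.smul_apply, eu_apply]
  ext k
  simp only [WithLp.ofLp_sum, WithLp.ofLp_smul, Finset.sum_apply, Pi.smul_apply, smul_eq_mul]
  refine Finset.sum_congr rfl fun m _ => ?_
  rw [Finset.sum_eq_single k]
  · simp [eb, bas]; ring
  · intro n _ hn
    simp [eb, bas, hn.symm]
  · intro h; exact absurd (Finset.mem_univ _) h

lemma hasDerivAt_ml {w : ℝ → Ix → V} {w' : Ix → V}
    (h : ∀ m n, HasDerivAt (fun e => w e m n) (w' m n) 0) :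
    HasDerivAt (fun e => ml (w e)) (ml w') 0 := by
  unfold ml
  refine HasDerivAt.fun_sum fun m _ => HasDerivAt.fun_sum fun n _ => ?_
  exact (h m n).smul_const (eu m n)

/-- the Schwartz function `X·∂f` -/
def vfS (w : Ix → V) (r : ℝ) (c : V) (f : 𝓢(Mink, ℂ)) : 𝓢(Mink, ℂ) :=
  xf (ml fun m n => r * GF.one m n + w m n) (WithLp.toLp 2 c) f

lemma sum_one (x : V) (n : Ix) : ∑ m, x m * GF.one m n = x n := by
  simp [GF.one, bas]

lemma aff_eq {X : V → V} {c : V} {w : Ix → V} {r : ℝ}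
    (hX : ∀ z n, X z n = c n + r * z n + ∑ m, z m * w m n) (x : Mink) :
    (WithLp.toLp 2 c : Mink) + ml (fun m n => r * GF.one m n + w m n) x =
      WithLp.toLp 2 (X x.ofLp) := by
  rw [ml_apply]
  ext n
  simp only [PiLp.add_apply]
  rw [hX]
  have : ∑ m, x m * (r * GF.one m n + w m n) = r * x n + ∑ m, x m * w m n := by
    simp only [mul_add, Finset.sum_add_distrib]
    congr 1
    have h := sum_one x.ofLp n
    rw [← h, Finset.mul_sum]
    exact Finset.sum_congr rfl fun m _ => by ring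
  rw [this]
  ring

lemma fl_vfS {X : V → V} {c : V} {w : Ix → V} {r : ℝ}
    (hX : ∀ z n, X z n = c n + r * z n + ∑ m, z m * w m n) (f : 𝓢(Mink, ℂ)) :
    fl (vfS w r c f) = vf X (fl f) := by
  funext x
  have h1 : fl (vfS w r c f) x = fderiv ℝ f (WithLp.toLp 2 x) (WithLp.toLp 2 (X x)) := by
    show xf _ _ f (WithLp.toLp 2 x) = _
    rw [xf_apply, aff_eq hX]
  rw [h1]
  unfold vf
  have h2 : ∀ n, pd n (fl f) x = fderiv ℝ f (WithLp.toLp 2 x) (eb n) := by
    intro n
    rw [pd_fl]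
    rfl
  simp only [h2]
  have h3 : (WithLp.toLp 2 (X x) : Mink) = ∑ n, X x n • eb n := by
    ext k
    simp only [WithLp.ofLp_sum, WithLp.ofLp_smul, Finset.sum_apply, Pi.smul_apply, smul_eq_mul]
    rw [Finset.sum_eq_single k]
    · simp [eb, bas]
    · intro n _ hn
      simp [eb, bas, hn.symm]
    · intro h; exact absurd (Finset.mem_univ _) h
  rw [h3, map_sum]
  refine Finset.sum_congr rfl fun n _ => ?_
  rw [ContinuousLinearMap.map_smul, real_smul]

lemma isTest_vf {X : V → V} {r : ℝ} (hX : IsSim r X) {f : Fn} (hf : GF.IsTest f) :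
    GF.IsTest (vf X f) := by
  obtain ⟨c, w, -, hX⟩ := hX
  obtain ⟨F, rfl⟩ := exists_fl hf
  rw [← fl_vfS hX]
  exact isTest_fl _

/-! ### Curves of similitudes -/

/-- a curve of similitudes with velocity field `z ↦ c + r z + w z` -/
structure Crv (s : ℝ → ℝ) (L : ℝ → Ix → V) (a : ℝ → V) (w : Ix → V) (r : ℝ) (c : V) : Prop where
  s0 : s 0 = 1
  L0 : L 0 = GF.one
  a0 : a 0 = 0
  sp : ∀ e, 0 < s e
  lor : ∀ e, GF.IsLor (L e)
  ds : HasDerivAt s r 0
  dL : ∀ m n, HasDerivAt (fun e => L e m n) (w m n) 0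
  da : ∀ n, HasDerivAt (fun e => a e n) (c n) 0

lemma exists_crv {w : Ix → V} (hw : ∀ m n, GF.eta n * w m n = -(GF.eta m * w n m)) (r : ℝ)
    (c : V) : ∃ s L a, Crv s L a w r c := by
  obtain ⟨L, L0, hL, dL⟩ := exists_lor hw
  refine ⟨fun e => Real.exp (e * r), L, fun e => e • c, by simp, L0, by simp,
    fun e => Real.exp_pos _, hL, ?_, dL, fun n => ?_⟩
  · have h := ((hasDerivAt_id (0 : ℝ)).mul_const r).exp
    simpa using h
  · have h := (hasDerivAt_id (0 : ℝ)).mul_const (c n)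
    simpa using h

section

variable {s : ℝ → ℝ} {L : ℝ → Ix → V} {a : ℝ → V} {w : Ix → V} {r : ℝ} {c : V}
variable (K : Crv s L a w r c)
include K

/-- the curve of Schwartz functions -/
def Crv.cs (F : 𝓢(Mink, ℂ)) (e : ℝ) : 𝓢(Mink, ℂ) := simS (s e) (K.sp e) (K.lor e) (a e) F

lemma Crv.cs_zero (F : 𝓢(Mink, ℂ)) : K.cs F 0 = F := by
  ext x
  unfold Crv.cs
  rw [simS_apply]
  congr 1
  ext n
  rw [K.s0, K.L0, K.a0, sim_one]
  simp

lemma Crv.dM : HasDerivAt (fun e => ml fun m n => s e * L e m n)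
    (ml fun m n => r * GF.one m n + w m n) 0 := by
  refine hasDerivAt_ml fun m n => ?_
  have h := K.ds.mul (K.dL m n)
  rw [K.s0, K.L0, one_mul] at h
  exact h

lemma Crv.M0 : (ml fun m n => s 0 * L 0 m n) = ContinuousLinearMap.id ℝ Mink := by
  ext x n
  rw [ml_apply, K.s0, K.L0]
  simp only [one_mul, ContinuousLinearMap.id_apply]
  exact sum_one _ _

lemma Crv.dA : HasDerivAt (fun e => (WithLp.toLp 2 (a e) : Mink)) (WithLp.toLp 2 c) 0 := by
  have h : HasDerivAt a c 0 := hasDerivAt_pi.2 K.da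
  have h1 := ((EuclideanSpace.equiv (Fin 4) ℝ).symm.toContinuousLinearMap).hasFDerivAt
    (x := a 0)
  exact h1.comp_hasDerivAt (0 : ℝ) h

lemma Crv.tend (F : 𝓢(Mink, ℂ)) :
    Tendsto (fun e : ℝ => e⁻¹ • (K.cs F e - F)) (𝓝[≠] 0) (𝓝 (vfS w r c F)) := by
  rw [(schwartz_withSeminorms ℝ Mink ℂ).tendsto_nhds]
  rintro ⟨k, n⟩ ε hε
  have hA0 : (WithLp.toLp 2 (a 0) : Mink) = 0 := by rw [K.a0]; rfl
  refine (indn K.dM K.M0 K.dA hA0 n ℂ F k (ε / 2) (by positivity)).mono fun e he => ?_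
  refine lt_of_le_of_lt (b := ε / 2) ?_ (by linarith)
  refine SchwartzMap.seminorm_le_bound ℝ k n _ (by positivity) fun x => ?_
  have h1 : (⇑(e⁻¹ • (K.cs F e - F) - vfS w r c F) : Mink → ℂ) = fun x =>
      e⁻¹ • (F (WithLp.toLp 2 (a e) + (ml fun m n => s e * L e m n) x) - F x) -
        fderiv ℝ F x (WithLp.toLp 2 c + (ml fun m n => r * GF.one m n + w m n) x) := by
    funext x
    have h2 : K.cs F e x = F (WithLp.toLp 2 (a e) + (ml fun m n => s e * L e m n) x) := by
      unfold Crv.cs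
      rw [simS_apply]
      congr 1
      rw [ml_apply]
      ext n
      simp only [PiLp.add_apply, sim, Finset.mul_sum]
      congr 1
      exact Finset.sum_congr rfl fun m _ => by ring
    simp only [SchwartzMap.sub_apply, SchwartzMap.smul_apply, h2]
    rfl
  rw [h1]
  exact he x

lemma Crv.der {H : Type*} [NormedAddCommGroup H] [NormedSpace ℝ H] (t : 𝓢(Mink, ℂ) →L[ℝ] H)
    (F : 𝓢(Mink, ℂ)) : HasDerivAt (fun e => t (K.cs F e)) (t (vfS w r c F)) 0 := by
  rw [hasDerivAt_iff_tendsto_slope]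
  refine ((t.continuous.tendsto _).comp (K.tend F)).congr fun e => ?_
  rw [Function.comp_apply, slope_def_module, sub_zero, K.cs_zero, map_smul, map_sub]

lemma Crv.dX {X : V → V} (hX : ∀ z n, X z n = c n + r * z n + ∑ m, z m * w m n) (n : Ix) (x : V) :
    HasDerivAt (fun e => sim (s e) (L e) (a e) x n) (X x n) 0 := by
  unfold sim
  have h1 : HasDerivAt (fun e => ∑ m, x m * L e m n) (∑ m, x m * w m n) 0 :=
    HasDerivAt.fun_sum fun m _ => (K.dL m n).const_mul (x m)
  have h2 := (K.da n).add (K.ds.mul h1)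
  rw [K.s0, K.L0, sum_one, one_mul, ← add_assoc, ← hX] at h2
  exact h2

end

end Vale.Agent.P352.H746

end
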