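import Vale.Agent.P352.H746.Flow
import Vale.Agent.P352.H496.Point

set_option linter.all false

noncomputable section

open MeasureTheory SchwartzMap Complex Filter Topology
open scoped SchwartzMap ComplexConjugate ENNReal LineDeriv

namespace Vale.Agent.P352.H746

open GF (Ix V Fn Sch ev pd bar sim bas o)
open H246 H496 H755 H15
open UniformSpace (Completion)

variable {D : Type*} [NormedAddCommGroup D] [InnerProductSpace ℂ D]
variable {Q : GF.Theory D} {T : Ix → Ix → GF.Fld D} {J : Ix → GF.Fld D}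
variable {A : (V → V) → D → D}

lemma U_sub' {s : ℝ} (hs : 0 < s) {L : Ix → V} (hL : GF.IsLor L) (a : V) (v w : D) :
    Q.U s L a (v - w) = Q.U s L a v - Q.U s L a w := by
  have h := U_smul (Q := Q) hs hL a (-1 : ℂ) w
  rw [neg_one_smul, neg_one_smul] at h
  rw [sub_eq_add_neg, U_add hs hL, h, ← sub_eq_add_neg]

section

variable {s : ℝ → ℝ} {L : ℝ → Ix → V} {a : ℝ → V} {w : Ix → V} {r : ℝ} {c : V}
variable (h : H15.Rep Q A) (K : Crv s L a w r c) {X : V → V}
variable (hX : ∀ z n, X z n = c n + r * z n + ∑ m, z m * w m n)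
include h K hX

lemma der_U0 (v : D) : HasDerivAt (fun e => Q.U (s e) (L e) (a e) v) (I • A X v) 0 :=
  h.der s L a X v K.s0 K.L0 K.a0 (fun e => ⟨K.sp e, K.lor e⟩) fun n x => K.dX hX n x

omit h hX in
lemma U_at0 (v : D) : Q.U (s 0) (L 0) (a 0) v = v := by
  rw [K.s0, K.L0, K.a0]
  exact U1_zero_all (Q := Q) v

lemma der_U {ψ : ℝ → D} {ψ' : D} (hψ : HasDerivAt ψ ψ' 0) :
    HasDerivAt (fun e => Q.U (s e) (L e) (a e) (ψ e)) (I • A X (ψ 0) + ψ') 0 := by
  have t1 := hasDerivAt_iff_tendsto_slope.1 (der_U0 h K hX (ψ 0))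
  have t3 : Tendsto (fun e => Q.U (s e) (L e) (a e) ψ') (𝓝[≠] 0) (𝓝 ψ') := by
    have h1 := (der_U0 h K hX ψ').continuousAt.tendsto
    rw [U_at0 K] at h1
    exact h1.mono_left nhdsWithin_le_nhds
  have t2 : Tendsto (fun e => Q.U (s e) (L e) (a e) (slope ψ 0 e - ψ')) (𝓝[≠] 0) (𝓝 0) := by
    have h1 := (hasDerivAt_iff_tendsto_slope.1 hψ).sub_const ψ'
    rw [sub_self] at h1
    rw [tendsto_zero_iff_norm_tendsto_zero] at h1 ⊢
    refine h1.congr fun e => ?_
    rw [U_nrm0 (K.sp e) (K.lor e)]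
  have t4 := (t1.add t2).add t3
  rw [add_zero] at t4
  rw [hasDerivAt_iff_tendsto_slope]
  refine t4.congr fun e => ?_
  have e1 : slope ψ 0 e = ((e : ℂ))⁻¹ • (ψ e - ψ 0) := by
    rw [slope_def_module, sub_zero, ← ofReal_inv]
    rfl
  have e2 : ∀ u : ℝ → D, slope u 0 e = ((e : ℂ))⁻¹ • (u e - u 0) := by
    intro u
    rw [slope_def_module, sub_zero, ← ofReal_inv]
    rfl
  rw [e2 (fun e => Q.U (s e) (L e) (a e) (ψ 0)), e2 (fun e => Q.U (s e) (L e) (a e) (ψ e)), e1,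
    U_sub' (K.sp e) (K.lor e), U_smul (K.sp e) (K.lor e), U_sub' (K.sp e) (K.lor e)]
  simp only [U_at0 K]
  simp only [smul_sub]
  abel

end

/-- a field as a continuous linear map on test functions -/
def fcl {B : GF.Fld D} (hB : Q.fld B) (v : D) : 𝓢(Mink, ℂ) →L[ℂ] D where
  toFun F := B (fl F) v
  map_add' F G := by
    have h1 := Q.lin B (fl F) (fl G) 1 v hB (isTest_fl F) (isTest_fl G)
    have h2 : (fun x => fl F x + 1 * fl G x) = fl (F + G) := by
      funext x; simp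
    rw [h2, one_smul] at h1
    exact h1
  map_smul' c F := by
    have h0 := Q.lin B (fl 0) (fl 0) (-1) v hB (isTest_fl 0) (isTest_fl 0)
    have h00 : (fun x => fl (0 : 𝓢(Mink, ℂ)) x + (-1) * fl (0 : 𝓢(Mink, ℂ)) x) =
        fl 0 := by
      funext x; simp
    rw [h00] at h0
    have h01 : B (fl 0) v = 0 := by
      rw [h0, neg_one_smul, add_neg_cancel]
    have h1 := Q.lin B (fl 0) (fl F) c v hB (isTest_fl 0) (isTest_fl F)
    have h2 : (fun x => fl (0 : 𝓢(Mink, ℂ)) x + c * fl F x) = fl (c • F) := by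
      funext x; simp
    rw [h2, h01, zero_add] at h1
    exact h1
  cont := (Q.cont B v hB).comp toSchL.continuous

lemma fcl_apply {B : GF.Fld D} (hB : Q.fld B) (v : D) (F : 𝓢(Mink, ℂ)) :
    fcl hB v F = B (fl F) v := rfl

section

variable {s : ℝ → ℝ} {L : ℝ → Ix → V} {a : ℝ → V} {w : Ix → V} {r : ℝ} {c : V}
variable (h : H15.Rep Q A) (K : Crv s L a w r c) {X : V → V}
variable (hX : ∀ z n, X z n = c n + r * z n + ∑ m, z m * w m n)
include h K hX

/-- infinitesimal covariance of multiplets -/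
theorem comm_gen {ι : Type*} [Fintype ι] {B : ι → GF.Fld D} (hB : ∀ k, Q.fld (B k))
    {B0 : GF.Fld D} (hB0 : Q.fld B0) {C : ℝ → ι → ℝ} {C' : ι → ℝ}
    (hC : ∀ k, HasDerivAt (fun e => C e k) (C' k) 0) (F : 𝓢(Mink, ℂ)) (v : D)
    (hcov : ∀ e, B0 (fl F) (Q.U (s e) (L e) (a e) v) =
      ∑ k, (C e k : ℂ) • Q.U (s e) (L e) (a e) (B k (fl (K.cs F e)) v)) :
    B0 (fl F) (I • A X v) = I • A X (∑ k, (C 0 k : ℂ) • B k (fl F) v) +
      ∑ k, ((C' k : ℂ) • B k (fl F) v + (C 0 k : ℂ) • B k (fl (vfS w r c F)) v) := by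
  obtain ⟨B1, hB1, hadj⟩ := Q.adj B0 hB0
  refine ext_inner_left ℂ fun z => ?_
  have hz : ∀ u : D, inner ℂ z (B0 (fl F) u) = inner ℂ (B1 (bar (fl F)) z) u := by
    intro u
    have h1 := hadj (fl F) u z (isTest_fl F)
    rw [← inner_conj_symm, h1, inner_conj_symm]
  set ψ : ℝ → D := fun e => ∑ k, (C e k : ℂ) • B k (fl (K.cs F e)) v with hψ
  have dψ : HasDerivAt ψ (∑ k, ((C' k : ℂ) • B k (fl F) v +
      (C 0 k : ℂ) • B k (fl (vfS w r c F)) v)) 0 := by
    rw [hψ]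
    refine HasDerivAt.fun_sum fun k _ => ?_
    have h2 := K.der ((fcl (hB k) v).restrictScalars ℝ) F
    have h3 := (hC k).smul h2
    rw [K.cs_zero] at h3
    rw [add_comm] at h3
    exact h3
  have h1 := der_U h K hX dψ
  have h2 : HasDerivAt (fun e => inner ℂ z (Q.U (s e) (L e) (a e) (ψ e)))
      (inner ℂ z (I • A X (ψ 0) + ∑ k, ((C' k : ℂ) • B k (fl F) v +
      (C 0 k : ℂ) • B k (fl (vfS w r c F)) v))) 0 :=
    ((innerSL ℂ z).restrictScalars ℝ).hasFDerivAt.comp_hasDerivAt (0 : ℝ) h1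
  have h3 : HasDerivAt (fun e => inner ℂ (B1 (bar (fl F)) z) (Q.U (s e) (L e) (a e) v))
      (inner ℂ (B1 (bar (fl F)) z) (I • A X v)) 0 :=
    ((innerSL ℂ (B1 (bar (fl F)) z)).restrictScalars ℝ).hasFDerivAt.comp_hasDerivAt (0 : ℝ)
      (der_U0 h K hX v)
  have h4 : (fun e => inner ℂ (B1 (bar (fl F)) z) (Q.U (s e) (L e) (a e) v)) =
      fun e => inner ℂ z (Q.U (s e) (L e) (a e) (ψ e)) := by
    funext e
    rw [← hz, hcov, hψ]
    congr 1
    have hs : ∀ (t : Finset ι) (u : ι → D), Q.U (s e) (L e) (a e) (∑ k ∈ t, (C e k : ℂ) • u k) =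
        ∑ k ∈ t, (C e k : ℂ) • Q.U (s e) (L e) (a e) (u k) := by
      intro t u
      classical
      induction t using Finset.induction_on with
      | empty =>
        simp only [Finset.sum_empty]
        have := U_smul (Q := Q) (K.sp e) (K.lor e) (a e) (0 : ℂ) (0 : D)
        simpa using this
      | insert k t hk ih =>
        rw [Finset.sum_insert hk, Finset.sum_insert hk, U_add (K.sp e) (K.lor e),
          U_smul (K.sp e) (K.lor e), ih]
    exact (hs _ _).symm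
  rw [h4] at h3
  have h5 := h3.unique h2
  rw [hz, h5]
  have h6 : ψ 0 = ∑ k, (C 0 k : ℂ) • B k (fl F) v := by
    simp only [hψ, K.cs_zero]
  rw [h6]

end

end Vale.Agent.P352.H746

end
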