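import Vale.Agent.P352.H846.T3
import Vale.Agent.P352.H755.R7

/-!
# The null charges determine the on-shell trace and virial current

If the null charges exist, the limits of the null plane integrals of the trace and of the null
component of the virial current exist, and the second moments are conformal generators if and only
if they vanish.
-/

set_option linter.all false

noncomputable section

open MeasureTheory Filter Topology Set
open scoped ContDiff ComplexConjugate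

namespace Vale.Agent.P352.H746

open GF (Ix V Fn bas eta pd bar sim o)
open H755 (Tst XX conj_Xw conj_const A_XXb A_lin2 const_sim Xw_sim exists_kp)
open H246 H496 H15 H846

variable {D : Type*} [NormedAddCommGroup D] [InnerProductSpace ℂ D] {Q : GF.Theory D}
  {T : Ix → Ix → GF.Fld D} {J : Ix → GF.Fld D} {A : (V → V) → D → D} {K : V → D → D}

/-- the smeared null component of the virial current -/
def JG (J : Ix → GF.Fld D) (a b : V) (κ : V → ℝ) (ψ : ℝ → ℝ) (R : ℝ) (v : D) : D :=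
  ∑ m, J m (fun x => ((eta m * a m * ctf a b κ 0 ψ R x : ℝ) : ℂ)) v

/-- the smeared trace -/
def TG (T : Ix → Ix → GF.Fld D) (a b : V) (κ : V → ℝ) (ψ : ℝ → ℝ) (R : ℝ) (v : D) : D :=
  GF.tr T (fun x => ((ctf a b κ 0 ψ R x : ℝ) : ℂ)) v

/-- the deviation of the second moments from the conformal law -/
def kh (Q : GF.Theory D) (A : (V → V) → D → D) (K : V → D → D) (a b : V) (v w : D) (u : ℝ) : ℂ :=
  inner ℂ w (Q.U 1 GF.one (u • b) (K a (Q.U 1 GF.one (-(u • b)) v))) +
    2 * u * inner ℂ w (A (H755.Xw a b) v) - 2 * u ^ 2 * inner ℂ w (A (fun _ => b) v)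

lemma adm_of {a b : V} {κ : V → ℝ} {ψ ψ' : ℝ → ℝ} (h : Adm a b κ ψ) (h' : Tst ψ') :
    Adm a b κ ψ' := ⟨h.1, h.2.1, h.2.2.1, h.2.2.2.1, h.2.2.2.2.1, h'⟩

lemma jg_tst {a b : V} {κ : V → ℝ} {ψ : ℝ → ℝ} (hA : Adm a b κ ψ) {R : ℝ} (hR : 1 ≤ R) (c : ℝ) :
    Tst fun x => c * ctf a b κ 0 ψ R x :=
  H846.ctf_tst hA.1.1 hA.2.1.1 hA.2.2.1 hA.2.2.2.1 hA.2.2.2.2.2 hR contDiff_const

lemma tg_tst {a b : V} {κ : V → ℝ} {ψ : ℝ → ℝ} (hA : Adm a b κ ψ) {R : ℝ} (hR : 1 ≤ R) :
    Tst fun x => ctf a b κ 0 ψ R x := by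
  have := jg_tst hA hR 1
  simpa only [one_mul] using this

/-- linearity in the profile -/
lemma jg_lin (hJ : IsVirial Q T J) {a b : V} {κ : V → ℝ} {ψ φ : ℝ → ℝ} (hA : Adm a b κ ψ)
    (hφ : Tst φ) (c : ℝ) {R : ℝ} (hR : 1 ≤ R) (v : D) :
    JG J a b κ (fun u => ψ u + c * φ u) R v = JG J a b κ ψ R v + (c : ℂ) • JG J a b κ φ R v := by
  unfold JG
  rw [Finset.smul_sum, ← Finset.sum_add_distrib]
  refine Finset.sum_congr rfl fun m _ => ?_
  have h1 := Q.lin (J m) (fun x => ((eta m * a m * ctf a b κ 0 ψ R x : ℝ) : ℂ))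
    (fun x => ((eta m * a m * ctf a b κ 0 φ R x : ℝ) : ℂ)) c v (Q.bose_fld _ (hJ.bose m))
    (jg_tst hA hR _).isTest (jg_tst (adm_of hA hφ) hR _).isTest
  rw [← h1]
  congr 1
  funext x
  simp only [ctf]
  push_cast
  ring

lemma tg_lin (hT : Q.IsStress T) {a b : V} {κ : V → ℝ} {ψ φ : ℝ → ℝ} (hA : Adm a b κ ψ)
    (hφ : Tst φ) (c : ℝ) {R : ℝ} (hR : 1 ≤ R) (v : D) :
    TG T a b κ (fun u => ψ u + c * φ u) R v = TG T a b κ ψ R v + (c : ℂ) • TG T a b κ φ R v := by
  unfold TG GF.tr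
  rw [Finset.smul_sum, ← Finset.sum_add_distrib]
  refine Finset.sum_congr rfl fun m _ => ?_
  have h1 := Q.lin (T m m) (fun x => ((ctf a b κ 0 ψ R x : ℝ) : ℂ))
    (fun x => ((ctf a b κ 0 φ R x : ℝ) : ℂ)) c v (Q.bose_fld _ (hT.bose m m))
    (tg_tst hA hR).isTest (tg_tst (adm_of hA hφ) hR).isTest
  rw [smul_comm, ← smul_add, ← h1]
  congr 2
  funext x
  simp only [ctf]
  push_cast
  ring

lemma cut_b {a b : V} (hbb : GF.mdot b b = 0) (hab : GF.mdot a b = 1) (κ : V → ℝ) (t R : ℝ)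
    (x : V) : H755.cut a b κ R (x - t • b) = H755.cut a b κ R x := by
  have h1 : GF.mdot b (x - t • b) = GF.mdot b x := by
    rw [H755.md_sub, H755.md_smul, hbb, mul_zero, sub_zero]
  have h2 : GF.mdot a (x - t • b) = GF.mdot a x - t := by
    rw [H755.md_sub, H755.md_smul, hab, mul_one]
  unfold H755.cut
  rw [h1, h2]
  congr 3
  rw [sub_smul]
  abel

lemma ctf_b {a b : V} (hbb : GF.mdot b b = 0) (hab : GF.mdot a b = 1) (κ : V → ℝ) (ψ : ℝ → ℝ)
    (t R : ℝ) (x : V) : ctf a b κ 0 ψ R (x - t • b) = ctf a b κ 0 (fun u => ψ (u - t)) R x := by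
  have h2 : GF.mdot a (x - t • b) = GF.mdot a x - t := by
    rw [H755.md_sub, H755.md_smul, hab, mul_one]
  unfold ctf
  rw [sub_zero, sub_zero, cut_b hbb hab, h2]

/-- translations -/
lemma jg_shift (hJ : IsVirial Q T J) {a b : V} {κ : V → ℝ} {ψ : ℝ → ℝ} (hA : Adm a b κ ψ) (t : ℝ)
    {R : ℝ} (hR : 1 ≤ R) (v w : D) :
    inner ℂ (Q.U 1 GF.one (-(t • b)) w) (JG J a b κ ψ R (Q.U 1 GF.one (-(t • b)) v)) =
      inner ℂ w (JG J a b κ (fun u => ψ (u - t)) R v) := by
  have e1 : JG J a b κ ψ R (Q.U 1 GF.one (-(t • b)) v) = Q.U 1 GF.one (-(t • b))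
      (JG J a b κ (fun u => ψ (u - t)) R v) := by
    unfold JG
    rw [U1_sum]
    refine Finset.sum_congr rfl fun m _ => ?_
    rw [U1_fld (Q.bose_fld _ (hJ.bose m)) (jg_tst hA hR _)]
    simp only [ctf_b hA.2.1.1 hA.2.2.1]
  rw [e1, inner_U1, H755.UU, add_neg_cancel, H755.U0]

lemma tg_shift (hT : Q.IsStress T) {a b : V} {κ : V → ℝ} {ψ : ℝ → ℝ} (hA : Adm a b κ ψ) (t : ℝ)
    {R : ℝ} (hR : 1 ≤ R) (v w : D) :
    inner ℂ (Q.U 1 GF.one (-(t • b)) w) (TG T a b κ ψ R (Q.U 1 GF.one (-(t • b)) v)) =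
      inner ℂ w (TG T a b κ (fun u => ψ (u - t)) R v) := by
  have e1 : TG T a b κ ψ R (Q.U 1 GF.one (-(t • b)) v) = Q.U 1 GF.one (-(t • b))
      (TG T a b κ (fun u => ψ (u - t)) R v) := by
    unfold TG GF.tr
    rw [U1_sum]
    refine Finset.sum_congr rfl fun m _ => ?_
    rw [U1_fld (Q.bose_fld _ (hT.bose m m)) (tg_tst hA hR),
      Vale.Agent.P352.U_smul one_pos Vale.Agent.P352.isLor_one]
    simp only [ctf_b hA.2.1.1 hA.2.2.1]
  rw [e1, inner_U1, H755.UU, add_neg_cancel, H755.U0]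

lemma kh_cont (h : NullCharges Q T J A K) {a b : V} (ha : IsNull a) (hb : IsNull b) (v w : D) :
    Continuous (kh Q A K a b v w) := by
  unfold kh
  have := h.cont a b v w ha hb
  fun_prop

lemma tst_intg {G : ℝ → ℝ} (hG : Tst G) {k : ℝ → ℂ} (hk : Continuous k) :
    Integrable fun u : ℝ => (G u : ℂ) * k u := by
  have hGc : HasCompactSupport fun u : ℝ => (G u : ℂ) :=
    hG.2.comp_left (g := fun r : ℝ => (r : ℂ)) (by simp)
  exact ((Complex.continuous_ofReal.comp hG.1.continuous).mul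
    hk).integrable_of_hasCompactSupport hGc.mul_right

lemma xw_eq (a b : V) : H846.Xw a b = H755.Xw a b := by
  funext z n
  simp only [H846.Xw, H755.Xw, Pi.add_apply, Pi.sub_apply, Pi.smul_apply, smul_eq_mul]

/-- the Ward identity -/
theorem ward_lim (hT : Q.IsStress T) (h : NullCharges Q T J A K) {a b : V} {κ : V → ℝ}
    {G : ℝ → ℝ} (hA : Adm a b κ G) (v w : D) :
    Tendsto (fun R => inner ℂ w (JG J a b κ (fun u => 2 * u * deriv G u) R v) +
      inner ℂ w (TG T a b κ (fun u => 2 * u * G u) R v)) atTop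
      (𝓝 (-∫ u, ((deriv G u : ℝ) : ℂ) * kh Q A K a b v w u)) := by
  obtain ⟨ha, hb, hab, hκ, hκ1, hG⟩ := hA
  set k : ℝ → ℂ := fun u => inner ℂ w (Q.U 1 GF.one (u • b) (K a (Q.U 1 GF.one (-(u • b)) v)))
    with hk
  have hkc : Continuous k := h.cont a b v w ha hb
  set α : ℂ := inner ℂ w (A (H755.Xw a b) v) with hα
  set β : ℂ := inner ℂ w (A (fun _ => b) v) with hβ
  have hp1 : ContDiff ℝ ∞ fun u : ℝ => 2 * u := by fun_prop
  have hp2 : ContDiff ℝ ∞ fun u : ℝ => 2 * u ^ 2 := by fun_prop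
  have hGt : Tst (deriv G) := H746.tder hG
  have t1 := h.flux a b κ G v w ⟨ha, hb, hab, hκ, hκ1, hG⟩
  have t2 := h.gen a b κ 0 (fun u => 2 * u * deriv G u) 1 (H755.Xw a b) v w
    ⟨ha, hb, hab, hκ, hκ1, tst_pol hGt hp1⟩ (Xw_sim a b)
  have t3 := h.gen a b κ 0 (fun u => 2 * u ^ 2 * deriv G u) 0 (fun _ => b) v w
    ⟨ha, hb, hab, hκ, hκ1, tst_pol hGt hp2⟩ (isSim_const b)
  have t4 := h.mom a b κ 0 (deriv G) v w ⟨ha, hb, hab, hκ, hκ1, hGt⟩
  have t7 := (((t1.add t2).sub t3).add t4).neg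
  have i1 : Integrable fun u : ℝ => ((deriv G u : ℝ) : ℂ) * k u := tst_intg hGt hkc
  have i2 : Integrable fun u : ℝ => ((2 * u * deriv G u : ℝ) : ℂ) * α :=
    tst_intg (tst_pol hGt hp1) continuous_const
  have i3 : Integrable fun u : ℝ => ((2 * u ^ 2 * deriv G u : ℝ) : ℂ) * β :=
    tst_intg (tst_pol hGt hp2) continuous_const
  have e1 : (∫ u : ℝ, ((2 * u * deriv G u : ℝ) : ℂ)) * α =
      ∫ u : ℝ, ((2 * u * deriv G u : ℝ) : ℂ) * α := (integral_mul_const _ _).symm
  have e2 : (∫ u : ℝ, ((2 * u ^ 2 * deriv G u : ℝ) : ℂ)) * β =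
      ∫ u : ℝ, ((2 * u ^ 2 * deriv G u : ℝ) : ℂ) * β := (integral_mul_const _ _).symm
  have e3 : (∫ u : ℝ, ((2 * u * deriv G u : ℝ) : ℂ)) * α -
      (∫ u : ℝ, ((2 * u ^ 2 * deriv G u : ℝ) : ℂ)) * β +
      (∫ u : ℝ, ((deriv G u : ℝ) : ℂ) * k u) =
      ∫ u, ((deriv G u : ℝ) : ℂ) * kh Q A K a b v w u := by
    rw [e1, e2, ← integral_sub i2 i3]
    have e4 := integral_add (i2.sub i3) i1
    refine e4.symm.trans (integral_congr_ae (Eventually.of_forall fun u => ?_))
    simp only [Pi.sub_apply, kh]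
    push_cast
    ring
  rw [zero_add, e3] at t7
  refine t7.congr' ?_
  filter_upwards [eventually_ge_atTop (1:ℝ)] with R hR
  have h1 := congrArg (fun z => inner ℂ w z) (ward_R hT ha.1 hb.1 hab hκ hG hR v)
  rw [xw_eq] at h1
  simp only [inner_add_right, inner_sub_right, inner_zero_right] at h1
  simp only [inner_sub_right, Complex.ofReal_one, one_smul, Complex.ofReal_zero, zero_smul,
    Finset.sum_const_zero, inner_zero_right, sub_zero]
  unfold JG TG
  linear_combination -h1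

lemma tst_shift {G : ℝ → ℝ} (hG : Tst G) (t : ℝ) : Tst fun u => G (u + t) :=
  ⟨hG.1.comp (contDiff_id.add contDiff_const), hG.2.comp_homeomorph (Homeomorph.addRight t)⟩

/-- the deviation, translated -/
lemma kh_shift (h : NullCharges Q T J A K) {a b : V} (ha : IsNull a) (hb : IsNull b)
    (hab : GF.mdot a b = 1) (v w : D) (t : ℝ) : ∃ c : ℂ, ∀ u : ℝ,
    kh Q A K a b (Q.U 1 GF.one (-(t • b)) v) (Q.U 1 GF.one (-(t • b)) w) (u - t) =
      kh Q A K a b v w u + c := by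
  refine ⟨-2 * t * inner ℂ w (A (H755.Xw a b) v) + 2 * t ^ 2 * inner ℂ w (A (fun _ => b) v),
    fun u => ?_⟩
  unfold kh
  rw [inner_U1, inner_U1, inner_U1, conj_Xw h.toRep ha hb hab, conj_const h.toRep, H755.UU,
    H755.UU]
  have e1 : t • b + (u - t) • b = u • b := by rw [← add_smul]; congr 1; ring
  have e2 : -((u - t) • b) + -(t • b) = -(u • b) := by
    rw [← e1, neg_add, add_comm]
  rw [e1, e2]
  have e3 : (fun z => H755.Xw a b (z - t • b)) =
      fun z => (1:ℝ) • H755.Xw a b z + (-(2 * t)) • (fun _ : V => b) z := by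
    funext z n
    simp only [H755.Xw, H755.md_sub, H755.md_smul, hab, hb.1, Pi.add_apply, Pi.sub_apply,
      Pi.smul_apply, smul_eq_mul]
    ring
  rw [e3, A_lin2 h.toRep _ _ v (Xw_sim a b) (const_sim b), inner_add_right, inner_smul_right,
    inner_smul_right]
  push_cast
  ring

/-- the flux of the virial current at infinity vanishes -/
theorem ward0 (hT : Q.IsStress T) (hJ : IsVirial Q T J) (h : NullCharges Q T J A K) {a b : V}
    {κ : V → ℝ} {G : ℝ → ℝ} (hA : Adm a b κ G) (v w : D) :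
    Tendsto (fun R => inner ℂ w (JG J a b κ (deriv G) R v) +
      inner ℂ w (TG T a b κ G R v)) atTop (𝓝 0) := by
  have hA' := hA
  obtain ⟨ha, hb, hab, hκ, hκ1, hG⟩ := hA'
  have hp1 : ContDiff ℝ ∞ fun u : ℝ => 2 * u := by fun_prop
  have hGt : Tst (deriv G) := H746.tder hG
  set t : ℝ := 1 / 2 with ht
  have w1 := ward_lim hT h hA v w
  have hG0 : Tst fun u => G (u + t) := tst_shift hG t
  have hA0 : Adm a b κ fun u => G (u + t) := adm_of hA hG0
  have w2 := ward_lim hT h hA0 (Q.U 1 GF.one (-(t • b)) v) (Q.U 1 GF.one (-(t • b)) w)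
  have hd : ∀ u, deriv (fun u => G (u + t)) u = deriv G (u + t) := fun u =>
    deriv_comp_add_const (f := G) t u
  have hGd0 : Tst fun u => 2 * u * deriv (fun u => G (u + t)) u := by
    have h1 := tst_pol (H746.tder hG0) hp1
    exact h1
  have hGd1 : Tst fun u => 2 * u * G (u + t) := tst_pol hG0 hp1
  obtain ⟨c, hc⟩ := kh_shift h ha hb hab v w t
  have i0 : ∫ u, ((deriv G u : ℝ) : ℂ) = 0 := by
    have h1 : ∫ u, deriv G u = 0 := by
      refine integral_eq_zero_of_hasDerivAt_of_integrable (f := G)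
        (fun u => (H746.tdif hG u).hasDerivAt) ?_ ?_
      · exact hGt.1.continuous.integrable_of_hasCompactSupport hGt.2
      · exact hG.1.continuous.integrable_of_hasCompactSupport hG.2
    have h2 : ∫ u, ((deriv G u : ℝ) : ℂ) = ((∫ u, deriv G u : ℝ) : ℂ) := integral_ofReal
    rw [h2, h1, Complex.ofReal_zero]
  have e1 : ∫ u, ((deriv (fun u => G (u + t)) u : ℝ) : ℂ) *
      kh Q A K a b (Q.U 1 GF.one (-(t • b)) v) (Q.U 1 GF.one (-(t • b)) w) u =
      ∫ u, ((deriv G u : ℝ) : ℂ) * kh Q A K a b v w u := by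
    have h1 := integral_sub_right_eq_self (μ := (volume : Measure ℝ))
      (fun u => ((deriv (fun u => G (u + t)) u : ℝ) : ℂ) *
      kh Q A K a b (Q.U 1 GF.one (-(t • b)) v) (Q.U 1 GF.one (-(t • b)) w) u) t
    rw [← h1]
    have h2 : ∀ u, ((deriv (fun u => G (u + t)) (u - t) : ℝ) : ℂ) *
        kh Q A K a b (Q.U 1 GF.one (-(t • b)) v) (Q.U 1 GF.one (-(t • b)) w) (u - t) =
        ((deriv G u : ℝ) : ℂ) * kh Q A K a b v w u + ((deriv G u : ℝ) : ℂ) * c := by
      intro u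
      rw [hc u, hd, sub_add_cancel, mul_add]
    simp only [h2]
    rw [integral_add (tst_intg hGt (kh_cont h ha hb v w)) (tst_intg hGt continuous_const),
      integral_mul_const, i0, zero_mul, add_zero]
  rw [e1] at w2
  have w3 := w1.sub w2
  rw [sub_self] at w3
  refine w3.congr' ?_
  filter_upwards [eventually_ge_atTop (1:ℝ)] with R hR
  rw [jg_shift hJ (adm_of hA hGd0) t hR, tg_shift hT (adm_of hA hGd1) t hR]
  have f1 : (fun u : ℝ => 2 * u * deriv G u) = fun u =>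
      2 * (u - t) * deriv (fun u => G (u + t)) (u - t) + 1 * deriv G u := by
    funext u
    rw [hd, sub_add_cancel, ht]
    ring
  have f2 : (fun u : ℝ => 2 * u * G u) = fun u =>
      2 * (u - t) * G (u - t + t) + 1 * G u := by
    funext u
    rw [sub_add_cancel, ht]
    ring
  have g1 : Tst fun u => 2 * (u - t) * deriv (fun u => G (u + t)) (u - t) := by
    have := tst_shift hGd0 (-t)
    simpa only [← sub_eq_add_neg] using this
  have g2 : Tst fun u => 2 * (u - t) * G (u - t + t) := by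
    have := tst_shift hGd1 (-t)
    simpa only [← sub_eq_add_neg] using this
  rw [f1, f2, jg_lin hJ (adm_of hA g1) hGt 1 hR, tg_lin hT (adm_of hA g2) hG 1 hR,
    inner_add_right, inner_add_right, Complex.ofReal_one, one_smul, one_smul]
  ring

/-- the null charges of the virial current -/
theorem jg_lim (hT : Q.IsStress T) (hJ : IsVirial Q T J) (h : NullCharges Q T J A K) {a b : V}
    {κ : V → ℝ} {G : ℝ → ℝ} (hA : Adm a b κ G) (v w : D) :
    Tendsto (fun R => inner ℂ w (JG J a b κ G R v)) atTop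
      (𝓝 (1 / 2 * ∫ u, ((deriv G u : ℝ) : ℂ) * kh Q A K a b v w u)) := by
  have hA' := hA
  obtain ⟨ha, hb, hab, hκ, hκ1, hG⟩ := hA'
  have hp0 : ContDiff ℝ ∞ fun u : ℝ => u := contDiff_id
  have hp1 : ContDiff ℝ ∞ fun u : ℝ => 2 * u := by fun_prop
  have hGt : Tst (deriv G) := H746.tder hG
  have huG : Tst fun u => u * G u := tst_pol hG hp0
  have w1 := (ward_lim hT h hA v w).const_mul (1 / 2)
  have w0 := ward0 hT hJ h (adm_of hA huG) v w
  have w3 := w0.sub w1
  have hd : deriv (fun u => u * G u) = fun u => 1 / 2 * (2 * u * deriv G u) + 1 * G u := by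
    funext u
    have h1 := (hasDerivAt_id u).mul (H746.tdif hG u).hasDerivAt
    have h2 : (fun u : ℝ => u * G u) = id * G := rfl
    rw [h2, h1.deriv]
    simp only [id]
    ring
  have e0 : (0 : ℂ) - 1 / 2 * -∫ u, ((deriv G u : ℝ) : ℂ) * kh Q A K a b v w u =
      1 / 2 * ∫ u, ((deriv G u : ℝ) : ℂ) * kh Q A K a b v w u := by ring
  rw [e0] at w3
  refine w3.congr' ?_
  filter_upwards [eventually_ge_atTop (1:ℝ)] with R hR
  have k1 : Tst fun u => 2 * u * deriv G u := tst_pol hGt hp1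
  have k2 : Tst fun u => 1 / 2 * (2 * u * deriv G u) := by
    have : ContDiff ℝ ∞ fun u : ℝ => 1 / 2 * (2 * u) := by fun_prop
    have := tst_pol hGt this
    refine (congrArg Tst (funext fun x => ?_)).mp this
    ring
  have j0 : JG J a b κ (fun _ => 0) R v = 0 := by
    have h1 := jg_lin hJ (adm_of hA k1) k1 (-1) hR v
    have h2 : (fun u : ℝ => 2 * u * deriv G u + -1 * (2 * u * deriv G u)) = fun _ => 0 := by
      funext u; ring
    rw [h2] at h1
    rw [h1]
    simp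
  have t0 : TG T a b κ (fun _ => 0) R v = 0 := by
    have h1 := tg_lin hT (adm_of hA k1) k1 (-1) hR v
    have h2 : (fun u : ℝ => 2 * u * deriv G u + -1 * (2 * u * deriv G u)) = fun _ => 0 := by
      funext u; ring
    rw [h2] at h1
    rw [h1]
    simp
  have z : Tst fun _ : ℝ => (0:ℝ) := ⟨contDiff_const, HasCompactSupport.zero⟩
  have j1 : JG J a b κ (fun u => 1 / 2 * (2 * u * deriv G u)) R v =
      ((1 / 2 : ℝ) : ℂ) • JG J a b κ (fun u => 2 * u * deriv G u) R v := by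
    have h1 := jg_lin hJ (adm_of hA z) k1 (1 / 2) hR v
    rw [j0, zero_add] at h1
    rw [← h1]
    congr 1
    funext u; ring
  have t1 : TG T a b κ (fun u => u * G u) R v =
      ((1 / 2 : ℝ) : ℂ) • TG T a b κ (fun u => 2 * u * G u) R v := by
    have h1 := tg_lin hT (adm_of hA z) (tst_pol hG hp1) (1 / 2) hR v
    rw [t0, zero_add] at h1
    rw [← h1]
    congr 1
    funext u; ring
  rw [hd, jg_lin hJ (adm_of hA k2) hG 1 hR, j1, t1, inner_add_right, inner_smul_right,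
    inner_smul_right, inner_smul_right]
  push_cast
  ring

/-- the null plane integrals of the trace -/
theorem tg_lim (hT : Q.IsStress T) (hJ : IsVirial Q T J) (h : NullCharges Q T J A K) {a b : V}
    {κ : V → ℝ} {G : ℝ → ℝ} (hA : Adm a b κ G) (v w : D) :
    Tendsto (fun R => inner ℂ w (TG T a b κ G R v)) atTop
      (𝓝 (-(1 / 2 * ∫ u, ((deriv (deriv G) u : ℝ) : ℂ) * kh Q A K a b v w u))) := by
  have w1 := ward0 hT hJ h hA v w
  have w2 := jg_lim hT hJ h (adm_of hA (H746.tder hA.2.2.2.2.2)) v w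
  have w3 := w1.sub w2
  rw [zero_sub] at w3
  refine w3.congr fun R => ?_
  ring

end Vale.Agent.P352.H746

end
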