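import Vale.Agent.P352.H746.Iff2
import Vale.Agent.P352.H746.Cdec
import Mathlib.Analysis.Calculus.BumpFunction.Convolution

/-!
# Functions that are affine in the sense of distributions on an interval
-/

set_option linter.all false

noncomputable section

open MeasureTheory Filter Topology Set
open scoped ContDiff ComplexConjugate Convolution

namespace Vale.Agent.P352.H746

open H755 (Tst)
open H846 (tst_pol)

lemma tst_refl {φ : ℝ → ℝ} (hφ : Tst φ) (c : ℝ) : Tst fun y => φ (c - y) :=
  ⟨hφ.1.comp (contDiff_const.sub contDiff_id), hφ.2.comp_homeomorph (Homeomorph.subLeft c)⟩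

lemma tst_int1 {φ : ℝ → ℝ} (hφ : Tst φ) : Integrable φ :=
  hφ.1.continuous.integrable_of_hasCompactSupport hφ.2

lemma tst_int2 {φ : ℝ → ℝ} (hφ : Tst φ) : Integrable fun u => u * φ u :=
  (continuous_id.mul hφ.1.continuous).integrable_of_hasCompactSupport hφ.2.mul_left

lemma int3r {f g h : ℝ → ℝ} (hf : Integrable f) (hg : Integrable g) (hh : Integrable h) :
    ∫ u, (f u + g u - 2 * h u) = (∫ u, f u) + (∫ u, g u) - 2 * ∫ u, h u := by
  have h1 := integral_sub (hf.add hg) (hh.const_mul 2)
  have h2 := integral_add hf hg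
  rw [integral_const_mul] at h1
  rw [← h2]
  exact h1

lemma int3c {f g h : ℝ → ℂ} (hf : Integrable f) (hg : Integrable g) (hh : Integrable h) :
    ∫ u, (f u + g u - 2 * h u) = (∫ u, f u) + (∫ u, g u) - 2 * ∫ u, h u := by
  have h1 := integral_sub (hf.add hg) (hh.const_mul 2)
  have h2 := integral_add hf hg
  rw [integral_const_mul] at h1
  rw [← h2]
  exact h1

lemma int_deriv_real {G : ℝ → ℝ} (hG : Tst G) : ∫ u, deriv G u = 0 := by
  refine integral_eq_zero_of_hasDerivAt_of_integrable (f := G)
    (fun u => (H746.tdif hG u).hasDerivAt) ?_ ?_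
  · exact (H746.tder hG).1.continuous.integrable_of_hasCompactSupport (H746.tder hG).2
  · exact hG.1.continuous.integrable_of_hasCompactSupport hG.2

/-- integration by parts -/
lemma int_mul_deriv {P : ℝ → ℝ} (hP : Tst P) : ∫ u, u * deriv P u = -∫ u, P u := by
  have h1 : Tst fun u => u * P u := tst_pol hP (contDiff_id : ContDiff ℝ ∞ fun u : ℝ => u)
  have h2 := int_deriv_real h1
  have hd : ∀ u, deriv (fun u => u * P u) u = P u + u * deriv P u := by
    intro u
    have h3 := (hasDerivAt_id u).mul (H746.tdif hP u).hasDerivAt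
    have h4 : (fun u : ℝ => u * P u) = id * P := rfl
    rw [h4, h3.deriv]
    simp only [id]
    ring
  simp only [hd] at h2
  rw [integral_add (tst_int1 hP) (tst_int2 (H746.tder hP))] at h2
  linarith

/-- the second primitive -/
lemma second_prim {d : ℝ → ℝ} (hd : Tst d) (h0 : ∫ u, d u = 0) (h1 : ∫ u, u * d u = 0) {M : ℝ}
    (hM : ∀ t, M < |t| → d t = 0) :
    ∃ ψ : ℝ → ℝ, Tst ψ ∧ (∀ u, deriv (deriv ψ) u = d u) ∧ ∀ t, M < |t| → ψ t = 0 := by
  obtain ⟨P, hP, hP', hPM⟩ := prim_tst' hd h0 hM
  have h2 : ∫ u, P u = 0 := by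
    have h3 := int_mul_deriv hP
    simp only [hP'] at h3
    linarith
  obtain ⟨ψ, hψ, hψ', hψM⟩ := prim_tst' hP h2 hPM
  refine ⟨ψ, hψ, fun u => ?_, hψM⟩
  rw [show deriv ψ = P from funext hψ', hP']

/-- a continuous function whose second derivative vanishes on an interval in the sense of
distributions is affine there -/
lemma local_affine {g : ℝ → ℂ} (hg : Continuous g) {M : ℝ}
    (H : ∀ ψ : ℝ → ℝ, Tst ψ → (∀ t, M < |t| → ψ t = 0) →
      ∫ u, ((deriv (deriv ψ) u : ℝ) : ℂ) * g u = 0) {u t : ℝ} (hut : |u| + |t| < M) :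
    g (u + t) + g (u - t) = 2 * g u := by
  set δ : ℝ := M - (|u| + |t|) with hδ
  have hδ0 : 0 < δ := by rw [hδ]; linarith
  let φ : ℕ → ContDiffBump (0 : ℝ) := fun n =>
    ⟨δ / (2 * (n + 1)), δ / (n + 1), by positivity, by
      apply div_lt_div_of_pos_left hδ0 (by positivity)
      have : (0:ℝ) ≤ n := Nat.cast_nonneg n
      linarith⟩
  have hr : Tendsto (fun n => (φ n).rOut) atTop (𝓝 0) := by
    show Tendsto (fun n : ℕ => δ / ((n : ℝ) + 1)) atTop (𝓝 0)
    exact tendsto_const_nhds.div_atTop (tendsto_natCast_atTop_atTop.atTop_add tendsto_const_nhds)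
  have hle : ∀ n, (φ n).rOut ≤ δ := by
    intro n
    show δ / ((n : ℝ) + 1) ≤ δ
    apply div_le_self hδ0.le
    have : (0:ℝ) ≤ n := Nat.cast_nonneg n
    linarith
  have key : ∀ n, ((φ n).normed volume ⋆[ContinuousLinearMap.lsmul ℝ ℝ, volume] g) (u + t) +
      ((φ n).normed volume ⋆[ContinuousLinearMap.lsmul ℝ ℝ, volume] g) (u - t) -
      2 * ((φ n).normed volume ⋆[ContinuousLinearMap.lsmul ℝ ℝ, volume] g) u = 0 := by
    intro n
    set ρ : ℝ → ℝ := (φ n).normed volume with hρ
    have hρt : Tst ρ := ⟨(φ n).contDiff_normed, (φ n).hasCompactSupport_normed⟩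
    have hρ1 : ∫ x, ρ x = 1 := (φ n).integral_normed
    have hρs : ∀ x, δ ≤ |x| → ρ x = 0 := by
      intro x hx
      by_contra hne
      have h1 : x ∈ Function.support ρ := hne
      rw [hρ, (φ n).support_normed_eq, mem_ball_zero_iff, Real.norm_eq_abs] at h1
      have := hle n
      linarith
    have hc : ∀ x, (ρ ⋆[ContinuousLinearMap.lsmul ℝ ℝ, volume] g) x =
        ∫ y, ((ρ (x - y) : ℝ) : ℂ) * g y := by
      intro x
      rw [convolution_def]
      have h1 := integral_sub_left_eq_self (μ := (volume : Measure ℝ))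
        (fun s => ((ρ s : ℝ) : ℂ) * g (x - s)) x
      rw [show (fun y => ((ρ (x - y) : ℝ) : ℂ) * g y) =
        fun s => ((ρ (x - s) : ℝ) : ℂ) * g (x - (x - s)) by funext s; rw [sub_sub_cancel], h1]
      rfl
    have i1 : ∀ c, ∫ y, ρ (c - y) = 1 := fun c => by
      rw [integral_sub_left_eq_self (μ := (volume : Measure ℝ)) (fun s => ρ s) c, hρ1]
    have i2 : ∀ c, ∫ y, y * ρ (c - y) = c - ∫ s, s * ρ s := by
      intro c
      have h1 := integral_sub_left_eq_self (μ := (volume : Measure ℝ))
        (fun s => (c - s) * ρ s) c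
      simp only [sub_sub_cancel] at h1
      rw [h1]
      have h2 : (fun s => (c - s) * ρ s) = fun s => c * ρ s - s * ρ s := by funext s; ring
      rw [h2, integral_sub ((tst_int1 hρt).const_mul c) (tst_int2 hρt), integral_const_mul, hρ1,
        mul_one]
    have t1 := tst_refl hρt (u + t)
    have t2 := tst_refl hρt (u - t)
    have t3 := tst_refl hρt u
    have td : Tst fun y => ρ (u + t - y) + ρ (u - t - y) - 2 * ρ (u - y) :=
      ⟨(t1.1.add t2.1).sub (contDiff_const.mul t3.1), (t1.2.add t2.2).sub (t3.2.mul_left)⟩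
    obtain ⟨ψ, hψ, hψd, hψM⟩ := second_prim td (by
        rw [int3r (tst_int1 t1) (tst_int1 t2) (tst_int1 t3), i1, i1, i1]
        norm_num) (by
        have e : (fun y => y * (ρ (u + t - y) + ρ (u - t - y) - 2 * ρ (u - y))) =
            fun y => y * ρ (u + t - y) + y * ρ (u - t - y) - 2 * (y * ρ (u - y)) := by
          funext y; ring
        rw [e, int3r (tst_int2 t1) (tst_int2 t2) (tst_int2 t3), i2, i2, i2]
        ring) (M := M) (by
        intro y hy
        have a1 := abs_sub_abs_le_abs_sub y (u + t)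
        have a2 := abs_sub_abs_le_abs_sub y (u - t)
        have a3 := abs_sub_abs_le_abs_sub y u
        have b1 := abs_add_le u t
        have b2 := abs_sub u t
        have b3 := abs_nonneg t
        rw [hρs (u + t - y) (by rw [abs_sub_comm]; rw [hδ]; linarith),
          hρs (u - t - y) (by rw [abs_sub_comm]; rw [hδ]; linarith),
          hρs (u - y) (by rw [abs_sub_comm]; rw [hδ]; linarith)]
        ring)
    have h1 := H ψ hψ hψM
    have e : (fun y => ((deriv (deriv ψ) y : ℝ) : ℂ) * g y) = fun y =>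
        ((ρ (u + t - y) : ℝ) : ℂ) * g y + ((ρ (u - t - y) : ℝ) : ℂ) * g y -
          2 * (((ρ (u - y) : ℝ) : ℂ) * g y) := by
      funext y
      rw [hψd]
      push_cast
      ring
    rw [e, int3c (tst_intg t1 hg) (tst_intg t2 hg) (tst_intg t3 hg)] at h1
    rw [hc, hc, hc]
    exact h1
  have l1 := ContDiffBump.convolution_tendsto_right_of_continuous (μ := (volume : Measure ℝ)) hr hg
    (u + t)
  have l2 := ContDiffBump.convolution_tendsto_right_of_continuous (μ := (volume : Measure ℝ)) hr hg
    (u - t)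
  have l3 := ContDiffBump.convolution_tendsto_right_of_continuous (μ := (volume : Measure ℝ)) hr hg u
  have l4 := (l1.add l2).sub (l3.const_mul 2)
  simp only [key] at l4
  have h5 := tendsto_nhds_unique l4 tendsto_const_nhds
  linear_combination h5

/-- a continuous function whose second differences vanish is affine -/
lemma affine_of_sd {g : ℝ → ℂ} (hg : Continuous g)
    (h : ∀ u t, g (u + t) + g (u - t) = 2 * g u) : ∃ c : ℂ, ∀ u : ℝ, g u = g 0 + (u : ℂ) * c := by
  have hadd : ∀ x y, g (x + y) + g 0 = g x + g y := by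
    intro x y
    have h1 := h ((x + y) / 2) ((x + y) / 2)
    have h2 := h ((x + y) / 2) ((x - y) / 2)
    have e1 : (x + y) / 2 + (x + y) / 2 = x + y := by ring
    have e2 : (x + y) / 2 - (x + y) / 2 = 0 := by ring
    have e3 : (x + y) / 2 + (x - y) / 2 = x := by ring
    have e4 : (x + y) / 2 - (x - y) / 2 = y := by ring
    rw [e1, e2] at h1
    rw [e3, e4] at h2
    rw [h1, h2]
  let f : ℝ →+ ℂ :=
    { toFun := fun x => g x - g 0
      map_zero' := by simp
      map_add' := fun x y => by
        have h3 := hadd x y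
        linear_combination h3 }
  have hf : Continuous f := hg.sub continuous_const
  refine ⟨f 1, fun u => ?_⟩
  have h1 := map_real_smul f hf u 1
  rw [smul_eq_mul, mul_one] at h1
  have h2 : f u = g u - g 0 := rfl
  rw [h2, Complex.real_smul] at h1
  linear_combination h1

/-- integrals of second derivatives against affine functions -/
lemma int_affine {ψ : ℝ → ℝ} (hψ : Tst ψ) {g : ℝ → ℂ} (hg : Continuous g)
    (h : ∀ u t, g (u + t) + g (u - t) = 2 * g u) :
    ∫ u, ((deriv (deriv ψ) u : ℝ) : ℂ) * g u = 0 := by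
  obtain ⟨c, hc⟩ := affine_of_sd hg h
  have e : (fun u => ((deriv (deriv ψ) u : ℝ) : ℂ) * g u) = fun u =>
      ((deriv (deriv ψ) u : ℝ) : ℂ) * g 0 + ((u * deriv (deriv ψ) u : ℝ) : ℂ) * c := by
    funext u
    rw [hc u]
    push_cast
    ring
  have t2 := H746.tder (H746.tder hψ)
  have t3 : Tst fun u => u * deriv (deriv ψ) u :=
    tst_pol t2 (contDiff_id : ContDiff ℝ ∞ fun u : ℝ => u)
  rw [e, integral_add (tst_intg t2 continuous_const) (tst_intg t3 continuous_const),
    integral_mul_const, integral_mul_const, int_deriv (H746.tder hψ), zero_mul, zero_add]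
  have h4 : ∫ u, ((u * deriv (deriv ψ) u : ℝ) : ℂ) = ((∫ u, u * deriv (deriv ψ) u : ℝ) : ℂ) :=
    integral_ofReal
  rw [h4, int_mul_deriv (H746.tder hψ), int_deriv_real hψ]
  simp

end Vale.Agent.P352.H746

end
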