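import Vale.Agent.P352.H746.CrossIff
import Vale.Agent.P352.H246.Amp

set_option linter.all false

noncomputable section

open MeasureTheory SchwartzMap Complex Filter Topology
open scoped SchwartzMap ComplexConjugate ENNReal LineDeriv ContDiff FourierTransform

namespace Vale.Agent.P352.H746

open GF (Ix V Fn Sch ev pd bar sim bas o)
open H246 H496 H755 H246R
open UniformSpace (Completion)

variable {D : Type*} [NormedAddCommGroup D] [InnerProductSpace ℂ D]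
variable {Q : GF.Theory D}
variable {H : D → D} {alg : Set V → Set (D → D)} {S : V → ℝ → D → D} {G : V → D → D}
variable {T : Ix → Ix → GF.Fld D} {J : Ix → GF.Fld D} {l : Fn → Completion D}

/-- THE COMPLETE ON-SHELL TWO DILATON AMPLITUDE: one unknown number `k`, and it vanishes if and
only if the potential is invariant under the null deformations -/
theorem amp_exact (hT : Q.IsStress T) (N : CNet Q H alg S) (Gg : Gnr Q alg S G)
    (hJ : IsVirial Q T J) (hl : IsPot Q T l)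
    {κ : V → ℝ} (hκ : Tst κ) (hκ1 : ∀ᶠ x in 𝓝 (0 : V), κ x = 1) : ∃ k : ℂ,
    (k = 0 ↔ ∀ a s v c c', IsNull a → Val l v c → Val l (S a s v) c' → c' = c) ∧
    ∀ (a b : V) (Φ σ : ℝ → ℝ) (m : Ix) (g : Fn) (L : V → ℂ), IsNull a → IsNull b →
      GF.mdot a b = 1 → Tst Φ → Tst σ → GF.IsTest g → Fwd g →
      (∀ y, Val l (Q.U 1 GF.one (-y) (J m g Q.vac)) (L y)) →
      Tendsto (fun R => Amp Q J G a b Φ
        (fun i => dr i fun x => cut b a κ R x * σ (GF.mdot b x)) (J m g Q.vac)) atTop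
      (𝓝 (-6 * I * (∫ y : V, ((deriv (deriv Φ) (GF.mdot a y) * deriv σ (GF.mdot b y) : ℝ) : ℂ) *
        L y) + 3 * k * ∫ y : V, ((a m * deriv (deriv (deriv Φ)) (GF.mdot a y) *
        deriv σ (GF.mdot b y) : ℝ) : ℂ) * g y)) := by
  obtain ⟨k, hk⟩ := exists_kapV hT N Gg hJ hl
  obtain ⟨φ, n, hv, hvl, hq⟩ := exists_vl hT N hl
  refine ⟨k, kap_iff hT N Gg hJ hl hk, ?_⟩
  intro a b Φ σ m g L ha hb hab hΦ hσ hg hfw hL
  obtain ⟨F, rfl⟩ := exists_fl hg
  have hpc := fwd_iff.1 hfw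
  obtain ⟨Am, Lm, hAm, hLm⟩ := H993.hsch N hT hJ hl m F hpc
  have hLv : ∀ y, vl l (Q.U 1 GF.one (-y) (J m (fl F) Q.vac)) = L y := fun y => by
    rw [hvl]
    exact ((hv _ _).1 (hL y)).symm
  have h := amp_lim N Gg hJ hl ha hb hab (fun s w hw => Gg.Ptr ha hw) hκ hκ1 hΦ hσ
    (fun y => n0_all N Gg hJ ha _) Am hAm Lm hLm ((k * (a m : ℂ)) • toSchL F)
    (fun y => hk a ha F hpc m y)
  simp only [hLv] at h
  have e : (3 : ℂ) * (∫ y : V, ((deriv (deriv (deriv Φ)) (GF.mdot a y) *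
      deriv σ (GF.mdot b y) : ℝ) : ℂ) * vl l (G a (Q.U 1 GF.one (-y) (J m (fl F) Q.vac)))) =
      3 * k * ∫ y : V, ((a m * deriv (deriv (deriv Φ)) (GF.mdot a y) *
        deriv σ (GF.mdot b y) : ℝ) : ℂ) * fl F y := by
    rw [mul_assoc 3 k, ← integral_const_mul k]
    congr 2
    funext y
    rw [hk a ha F hpc m y]
    have e1 : toSchL F y = fl F y := rfl
    rw [e1]
    push_cast
    ring
  rw [e] at h
  exact h

/-- ONE ONE-SIDED AMPLITUDE DECIDES -/
theorem on_one (hT : Q.IsStress T) (N : CNet Q H alg S) (Gg : Gnr Q alg S G)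
    (hJ : IsVirial Q T J) (hl : IsPot Q T l)
    {κ : V → ℝ} (hκ : Tst κ) (hκ1 : ∀ᶠ x in 𝓝 (0 : V), κ x = 1)
    {a b : V} {Φ σ : ℝ → ℝ} {m : Ix} {g : Fn} {L : V → ℂ} (ha : IsNull a) (hb : IsNull b)
    (hab : GF.mdot a b = 1) (hΦ : Tst Φ) (hσ : Tst σ) (hg : GF.IsTest g) (hfw : Fwd g)
    (hne : ∫ y : V, ((a m * deriv (deriv (deriv Φ)) (GF.mdot a y) *
        deriv σ (GF.mdot b y) : ℝ) : ℂ) * g y ≠ 0)
    (hL : ∀ y, Val l (Q.U 1 GF.one (-y) (J m g Q.vac)) (L y))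
    (h : Tendsto (fun R => Amp Q J G a b Φ
        (fun i => dr i fun x => cut b a κ R x * σ (GF.mdot b x)) (J m g Q.vac)) atTop
      (𝓝 (-6 * I * ∫ y : V, ((deriv (deriv Φ) (GF.mdot a y) * deriv σ (GF.mdot b y) : ℝ) : ℂ) *
        L y))) :
    ∀ a s v c c', IsNull a → Val l v c → Val l (S a s v) c' → c' = c := by
  obtain ⟨k, hk, hlim⟩ := amp_exact hT N Gg hJ hl hκ hκ1
  have h1 := tendsto_nhds_unique (hlim a b Φ σ m g L ha hb hab hΦ hσ hg hfw hL) h
  refine hk.1 ?_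
  have h2 : 3 * k * ∫ y : V, ((a m * deriv (deriv (deriv Φ)) (GF.mdot a y) *
        deriv σ (GF.mdot b y) : ℝ) : ℂ) * g y = 0 := by linear_combination h1
  have h6 := (mul_eq_zero.1 h2).resolve_right hne
  exact (mul_eq_zero.1 h6).resolve_left (by norm_num)

end Vale.Agent.P352.H746
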