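import Vale.Agent.P352.H246.Asm2
import Vale.Agent.P352.H755.Lfg
import Vale.Agent.P352.H993.Sch

set_option linter.all false

noncomputable section

open MeasureTheory SchwartzMap Complex Filter Topology
open scoped SchwartzMap ComplexConjugate ENNReal LineDeriv ContDiff FourierTransform

namespace Vale.Agent.P352.H746

open GF (Ix V Fn Sch ev pd bar sim bas o)
open H246 H496 H755 H246R
open UniformSpace (Completion)

/-! ### One on-shell amplitude decides -/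

/-- the difference of the two light front forms -/
theorem sid_diff {a b : V} (ha : GF.mdot a a = 0) (hb : GF.mdot b b = 0) (hab : GF.mdot a b = 1)
    {φ σ : ℝ → ℝ} (hφ : Tst φ) (hσ : Tst σ) (A B L Z Z' : 𝓢(V, ℂ)) {Fa Fl Fb Fl' C : V → ℂ}
    (i5 : Integrable fun y : V => ((deriv φ (GF.mdot a y) * deriv σ (GF.mdot b y) : ℝ) : ℂ) * C y)
    (h1 : ∀ y, Fa y = I * (Wq a b y : ℂ) * (∂_{a} A : 𝓢(V, ℂ)) y)
    (h2 : ∀ y, Fl y = Z y + I * (Wq a b y : ℂ) * (∂_{a} L : 𝓢(V, ℂ)) y)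
    (h3 : ∀ y, Fb y = I * (Wq b a y : ℂ) * (∂_{b} B : 𝓢(V, ℂ)) y)
    (h4 : ∀ y, Fl' y = Z' y + I * (Wq b a y : ℂ) * (∂_{b} L : 𝓢(V, ℂ)) y) :
    Sid a b φ σ Fa Fl B C - Sid b a σ φ Fb Fl' A C =
    3 * ((∫ y : V, ((deriv (deriv φ) (GF.mdot a y) * deriv σ (GF.mdot b y) : ℝ) : ℂ) * Z y) -
      ∫ y : V, ((deriv (deriv σ) (GF.mdot b y) * deriv φ (GF.mdot a y) : ℝ) : ℂ) * Z' y) := by
  have hba : GF.mdot b a = 1 := by rw [gm_comm, hab]
  have i5' : Integrable fun y : V => ((deriv σ (GF.mdot b y) * deriv φ (GF.mdot a y) : ℝ) : ℂ) *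
      C y := by
    refine i5.congr (Eventually.of_forall fun y => ?_)
    simp only
    rw [mul_comm (deriv φ (GF.mdot a y))]
  rw [side_eq ha hab hφ hσ A B L Z i5 h1 h2, side_eq hb hba hσ hφ B A L Z' i5' h3 h4,
    Sm_symm a b]
  ring

variable {D : Type*} [NormedAddCommGroup D] [InnerProductSpace ℂ D]
variable {Q : GF.Theory D}
variable {H : D → D} {alg : Set V → Set (D → D)} {S : V → ℝ → D → D} {G : V → D → D}

theorem sid_main (N : CNet Q H alg S) (Gg : Gnr Q alg S G)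
    {T : Ix → Ix → GF.Fld D} {J : Ix → GF.Fld D} (hJ : IsVirial Q T J)
    {l : Fn → Completion D} (hl : IsPot Q T l) {a b : V}
    (ha : IsNull a) (hb : IsNull b) (hab : GF.mdot a b = 1)
    (hpa : ∀ s w, GF.mdot a w = 0 → Ptr Q S a s w) (hpb : ∀ s w, GF.mdot b w = 0 → Ptr Q S b s w)
    {φ σ : ℝ → ℝ} (hφ : Tst φ) (hσ : Tst σ) {X : D}
    (n0a : ∀ y, vc Q J a (G a (Q.U 1 GF.one (-y) X)) = 0)
    (n0b : ∀ y, vc Q J b (G b (Q.U 1 GF.one (-y) X)) = 0)
    (Am : Ix → 𝓢(V, ℂ)) (hAm : ∀ m y, vj Q J m (Q.U 1 GF.one (-y) X) = Am m y)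
    (Lm : 𝓢(V, ℂ)) (hLm : ∀ y, vl l (Q.U 1 GF.one (-y) X) = Lm y)
    (Z Z' : 𝓢(V, ℂ)) (hZ : ∀ y, vl l (G a (Q.U 1 GF.one (-y) X)) = Z y)
    (hZ' : ∀ y, vl l (G b (Q.U 1 GF.one (-y) X)) = Z' y) :
    Sid a b φ σ (fun y => vc Q J a (pl Q G a b X y)) (fun y => vl l (pl Q G a b X y))
        (fun y => vc Q J b (Q.U 1 GF.one (-y) X))
        (fun y => vc Q J (prp a b y) (Q.U 1 GF.one (-y) X)) -
      Sid b a σ φ (fun y => vc Q J b (pl Q G b a X y)) (fun y => vl l (pl Q G b a X y))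
        (fun y => vc Q J a (Q.U 1 GF.one (-y) X))
        (fun y => vc Q J (prp b a y) (Q.U 1 GF.one (-y) X)) =
    3 * ((∫ y : V, ((deriv (deriv φ) (GF.mdot a y) * deriv σ (GF.mdot b y) : ℝ) : ℂ) * Z y) -
      ∫ y : V, ((deriv (deriv σ) (GF.mdot b y) * deriv φ (GF.mdot a y) : ℝ) : ℂ) * Z' y) := by
  have hba : GF.mdot b a = 1 := by rw [gm_comm, hab]
  set Ac : V → 𝓢(V, ℂ) := fun c => ∑ m, ((GF.eta m * c m : ℝ) : ℂ) • Am m with hAc
  have hAc' : ∀ c y, vc Q J c (Q.U 1 GF.one (-y) X) = Ac c y := by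
    intro c y
    simp only [vc, hAm, hAc, SchwartzMap.sum_apply, SchwartzMap.smul_apply, smul_eq_mul]
  have eB : (fun y => vc Q J b (Q.U 1 GF.one (-y) X)) = Ac b := funext fun y => hAc' b y
  have eA : (fun y => vc Q J a (Q.U 1 GF.one (-y) X)) = Ac a := funext fun y => hAc' a y
  have eC : (fun y => vc Q J (prp a b y) (Q.U 1 GF.one (-y) X)) =
      fun y => ∑ m, ((GF.eta m * prp a b y m : ℝ) : ℂ) * Am m y := by
    funext y
    simp only [vc, hAm]
  have eC' : (fun y => vc Q J (prp b a y) (Q.U 1 GF.one (-y) X)) =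
      fun y => ∑ m, ((GF.eta m * prp a b y m : ℝ) : ℂ) * Am m y := by
    funext y
    rw [prp_symm b a]
    simp only [vc, hAm]
  rw [eA, eB, eC, eC']
  refine sid_diff ha.1 hb.1 hab hφ hσ (Ac a) (Ac b) Lm Z Z'
    (int_perp (tst_bd (tst_deriv hφ)) (tst_bd (tst_deriv hσ)) Am) (fun y => ?_) (fun y => ?_)
    (fun y => ?_) (fun y => ?_)
  · rw [plane_vc N Gg hJ ha hb hab hpa (Ac a) (hAc' a) y, n0a, zero_add]
  · rw [plane_vl N Gg hl ha hb hab hpa Lm hLm y, hZ]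
  · rw [plane_vc N Gg hJ hb ha hba hpb (Ac b) (hAc' b) y, n0b, zero_add]
  · rw [plane_vl N Gg hl hb ha hba hpb Lm hLm y, hZ']

/-- the longitudinal response vanishes in all null directions -/
theorem n0_all (N : CNet Q H alg S) (Gg : Gnr Q alg S G) {T : Ix → Ix → GF.Fld D}
    {J : Ix → GF.Fld D} (hJ : IsVirial Q T J) {a : V} (ha : IsNull a) (v : D) :
    vc Q J a (G a v) = 0 := by
  obtain ⟨θ, ψ, hrot⟩ := exists_rot ha
  have hL := isLor_Rt θ ψ
  have hr : 0 < (a 0)⁻¹ := inv_pos.2 ha.2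
  have ha0 : IsNull (nu (-1)) := isNull_nu (Or.inr rfl)
  set L := Rt θ ψ with hLd
  set r := (a 0)⁻¹ with hrd
  set w := Q.U 1 (linv L) 0 v with hw
  have hvw : Q.U 1 L 0 w = v := U_linv N hL v
  have h1 := G_cov N Gg.der one_pos hr hL ha0 ha hrot w
  rw [hvw] at h1
  have h2 : vc Q J a (Q.U 1 L 0 (G (nu (-1)) w)) = 0 := by
    have h3 : vc Q J a (Q.U 1 L 0 (G (nu (-1)) w)) =
        ((r⁻¹ : ℝ) : ℂ) * vc Q J (nu (-1)) (G (nu (-1)) w) := by
      unfold vc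
      simp only [vj_cov N hJ one_pos hL, one_pow, inv_one, ofReal_one, one_mul, Finset.mul_sum]
      rw [Finset.sum_comm]
      refine Finset.sum_congr rfl fun k _ => ?_
      have h4 := H246R.contr2 hL hrot k
      have h5 : ∑ m, ((GF.eta m * a m : ℝ) : ℂ) * ((L k m : ℂ) *
          vj Q J k (G (nu (-1)) w)) = ((∑ m, GF.eta m * a m * L k m : ℝ) : ℂ)
          * vj Q J k (G (nu (-1)) w) := by
        push_cast
        rw [Finset.sum_mul]
        exact Finset.sum_congr rfl fun m _ => by ring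
      rw [h5]
      have h6 : ∑ m, GF.eta m * a m * L k m = r⁻¹ * (GF.eta k * nu (-1) k) := by
        rw [← h4, ← mul_assoc, inv_mul_cancel₀ hr.ne', one_mul]
      rw [h6]
      push_cast
      ring
    rw [h3, n0 N Gg hJ, mul_zero]
  have h6 : vc Q J a (((r / 1 : ℝ) : ℂ) • G a v) = 0 := by
    rw [← h1]; exact h2
  have h7 : ∀ (c : ℂ) (x : D), vc Q J a (c • x) = c * vc Q J a x := by
    intro c x
    have hf : ∀ m, Q.fld (J m) := fun m => Q.bose_fld _ (hJ.bose m)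
    obtain ⟨μ, K, w, n, hrep⟩ := exists_kc N.toNet hf fun m => GF.eta m * a m
    have h8 := fun v => sum_vj N.toNet hf (pw1_mem N.toNet n) hrep v
    unfold vc
    rw [h8, h8, pt_smul' N (pw1_mem N.toNet n)]
  rw [h7] at h6
  refine (mul_eq_zero.1 h6).resolve_left ?_
  rw [div_one]
  exact_mod_cast hr.ne'

lemma Vp_Rt (θ ψ : ℝ) (p : Mink) (hp : p ∈ Vp) : lam (linv (Rt θ ψ)) p ∈ Vp := by
  rw [Vp_iff] at hp ⊢
  refine ⟨?_, ?_⟩
  · have : lam (linv (Rt θ ψ)) p 0 = p 0 := by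
      simp [lam_apply, linv, Fin.sum_univ_four, Rt, GF.eta, o]
    rw [this]; exact hp.1
  · rw [mass2_lam (isLor_linv (isLor_Rt θ ψ))]
    exact hp.2

/-- ONE NUMBER: the response of the potential to all null deformations on the vectors of the
virial current -/
theorem exists_kapA (N : CNet Q H alg S) (Gg : Gnr Q alg S G) {φ : Completion D} {B : D → D}
    (hB : B ∈ alg Set.univ)
    (hq : ∀ σ L v, 0 < σ → GF.IsLor L → pt φ B (Q.U σ L 0 v) = ((σ ^ 2)⁻¹ : ℝ) * pt φ B v)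
    {J : Ix → GF.Fld D} (hJ : VFld Q J) : ∃ κ : ℂ, ∀ a, IsNull a → ∀ g : 𝓢(Mink, ℂ),
      H246R.PC (mftS g) → ∀ (m : Ix) (y : Mink),
      pt φ B (G a (U1 Q (-y) (J m (fl g) Q.vac))) = κ * (a m : ℂ) * g y := by
  obtain ⟨κ, hκ⟩ := exists_kap N Gg.der Gg.mem hB hq hJ
  refine ⟨κ, fun a ha => ?_⟩
  have ha0 : IsNull (nu (-1)) := isNull_nu (Or.inr rfl)
  have h0 : ∀ g : 𝓢(Mink, ℂ), H246R.PC (mftS g) → ∀ m : Ix,
      pt φ B (G a (J m (fl g) Q.vac)) = κ * (a m : ℂ) * g 0 := by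
    intro g hg m
    obtain ⟨θ, ψ, hrot⟩ := exists_rot ha
    have hL := isLor_Rt θ ψ
    have hr : 0 < (a 0)⁻¹ := inv_pos.2 ha.2
    have h := ze_J N Gg.der Gg.mem hB hq hJ one_pos hr hL ha0 ha hrot m g
    obtain ⟨a0, a1, a2, a3⟩ := hκ _ (PC_sim hg hL (Vp_Rt θ ψ))
    have e : simS 1 one_pos hL 0 g 0 = g 0 := by
      rw [simS_apply]
      congr 1
      ext n
      simp [sim]
    rw [e] at a0 a1
    have hm : ∑ k, nu (-1) k * Rt θ ψ k m = (a 0)⁻¹ * a m := by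
      have := congrFun hrot m
      simpa [sim] using this
    rw [h, Fin.sum_univ_four, a0, a1, a2, a3]
    rw [Fin.sum_univ_four] at hm
    have n0 : nu (-1) 0 = 1 := by simp [nu]
    have n1 : nu (-1) 1 = -1 := by simp [nu]
    have n2 : nu (-1) 2 = 0 := by simp [nu]
    have n3 : nu (-1) 3 = 0 := by simp [nu]
    rw [n0, n1, n2, n3] at hm
    have hr' : ((a 0)⁻¹ : ℝ) ≠ 0 := hr.ne'
    have hm' : Rt θ ψ 0 m / (a 0)⁻¹ - Rt θ ψ 1 m / (a 0)⁻¹ = a m := by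
      have : Rt θ ψ 0 m - Rt θ ψ 1 m = (a 0)⁻¹ * a m := by linear_combination hm
      rw [← sub_div, this, mul_comm, mul_div_assoc, div_self hr', mul_one]
    rw [← hm']
    push_cast
    ring
  intro g hg m y
  have h := h0 _ (PC_tauS hg (-y)) m
  rw [tauS_neg_zero] at h
  rw [U1_J hJ]
  exact h

/-- the number vanishes if and only if the potential is invariant under the null deformations -/
theorem kap_iff {T : Ix → Ix → GF.Fld D} (hT : Q.IsStress T) (N : CNet Q H alg S)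
    (Gg : Gnr Q alg S G) {J : Ix → GF.Fld D} (hJ : IsVirial Q T J) {l : Fn → Completion D}
    (hl : IsPot Q T l) {κ : ℂ} (hκ : ∀ a, IsNull a → ∀ g : 𝓢(Mink, ℂ),
      H246R.PC (mftS g) → ∀ (m : Ix) (y : V),
      vl l (G a (Q.U 1 GF.one (-y) (J m (fl g) Q.vac))) = κ * (a m : ℂ) * toSchL g y) :
    κ = 0 ↔ ∀ a s v c c', IsNull a → Val l v c → Val l (S a s v) c' → c' = c := by
  obtain ⟨φ, n, hv, hvl, hq⟩ := exists_vl hT N hl
  have hB := pw1_mem N.toNet n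
  have ha0 : IsNull (nu (-1)) := isNull_nu (Or.inr rfl)
  constructor
  · intro h0
    refine inv_of_kappaPC hT N Gg hl fun f hf => ?_
    rw [hvl, hJ.div']
    have h1 : -∑ m, J m (fl (∂_{eb m} f)) Q.vac =
        ∑ m : Ix, (-1 : ℂ) • J m (fl (∂_{eb m} f)) Q.vac := by
      rw [← Finset.smul_sum, neg_one_smul]
    rw [h1, pt_G_sum N Gg.mem hB ha0]
    apply Finset.sum_eq_zero
    intro m _
    have h2 := hκ _ ha0 _ (PC_deriv hf (eb m)) m 0
    rw [h0, zero_mul, zero_mul, hvl, neg_zero, H755.U0] at h2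
    rw [h2, mul_zero]
  · intro hinv
    have h1 : ∀ v : D, vl l (G (nu (-1)) v) = 0 := by
      intro v
      have h2 := der_pt N.toNet ha0 (fun v => Gg.der _ v ha0) φ hB v 0
      have h3 : (fun s : ℝ => inner ℂ φ ((pw1 H n (S (nu (-1)) s v) : D) : Completion D)) =
          fun _ => pt φ (pw1 H n) v := by
        funext s
        exact hinv (nu (-1)) s v _ _ ha0 ((hv _ _).2 rfl) ((hv _ _).2 rfl)
      rw [h3, S_zero N.toNet ha0] at h2
      have h4 := h2.unique (hasDerivAt_const _ _)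
      have h5 : pt φ (pw1 H n) (I • G (nu (-1)) v) = 0 := h4
      rw [pt_smul' N hB] at h5
      rw [hvl]
      exact (mul_eq_zero.1 h5).resolve_left I_ne_zero
    obtain ⟨F0, hF0, hMI, -⟩ := exists_bumpPC
    obtain ⟨c0, h0, h2⟩ := exists_inv
    have hgp : H246R.PC (mftS (imf F0)) := by rw [mftS_imf]; exact hF0
    have h3 := hκ _ ha0 _ hgp 0 0
    rw [h1] at h3
    have h4 : imf F0 0 ≠ 0 := by
      intro h5
      apply hMI
      have := h2 (imf F0)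
      rw [mftS_imf, h5, mul_zero] at this
      exact this
    have h5 : (nu (-1) 0 : ℂ) = 1 := by simp [nu]
    have h6 : toSchL (imf F0) 0 = imf F0 0 := by
      show imf F0 (WithLp.toLp 2 0) = imf F0 0
      congr 1
    rw [h5, mul_one, h6] at h3
    exact (mul_eq_zero.1 h3.symm).resolve_right h4

/-- the number that describes all responses of the potential -/
theorem exists_kapV {T : Ix → Ix → GF.Fld D} (hT : Q.IsStress T) (N : CNet Q H alg S)
    (Gg : Gnr Q alg S G) {J : Ix → GF.Fld D} (hJ : IsVirial Q T J) {l : Fn → Completion D}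
    (hl : IsPot Q T l) : ∃ κ : ℂ, ∀ a, IsNull a → ∀ g : 𝓢(Mink, ℂ),
      H246R.PC (mftS g) → ∀ (m : Ix) (y : V),
      vl l (G a (Q.U 1 GF.one (-y) (J m (fl g) Q.vac))) = κ * (a m : ℂ) * toSchL g y := by
  obtain ⟨φ, n, hv, hvl, hq⟩ := exists_vl hT N hl
  obtain ⟨κ, hκ⟩ := exists_kapA N Gg (pw1_mem N.toNet n) hq hJ.vfld
  refine ⟨κ, fun a ha g hg m y => ?_⟩
  rw [hvl]
  exact hκ a ha g hg m (WithLp.toLp 2 y)

section

variable {T : Ix → Ix → GF.Fld D} {J : Ix → GF.Fld D} {l : Fn → Completion D}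

/-- integrability of the light front terms -/
lemma int_plane (N : CNet Q H alg S) (Gg : Gnr Q alg S G) (hJ : IsVirial Q T J)
    (hl : IsPot Q T l) {a b : V} (ha : IsNull a) (hb : IsNull b) (hab : GF.mdot a b = 1)
    (hpa : ∀ s w, GF.mdot a w = 0 → Ptr Q S a s w) {X : D}
    (n0a : ∀ y, vc Q J a (G a (Q.U 1 GF.one (-y) X)) = 0)
    (Am : Ix → 𝓢(V, ℂ)) (hAm : ∀ m y, vj Q J m (Q.U 1 GF.one (-y) X) = Am m y)
    (Lm : 𝓢(V, ℂ)) (hLm : ∀ y, vl l (Q.U 1 GF.one (-y) X) = Lm y)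
    (Z : 𝓢(V, ℂ)) (hZ : ∀ y, vl l (G a (Q.U 1 GF.one (-y) X)) = Z y) {θ τ : ℝ → ℝ}
    (hθ : Bd θ) (hτ : Bd τ) :
    (Integrable fun y : V => ((θ (GF.mdot a y) * τ (GF.mdot b y) : ℝ) : ℂ) *
      vc Q J a (pl Q G a b X y)) ∧
    Integrable fun y : V => ((θ (GF.mdot a y) * τ (GF.mdot b y) : ℝ) : ℂ) *
      vl l (pl Q G a b X y) := by
  set Ac : V → 𝓢(V, ℂ) := fun c => ∑ m, ((GF.eta m * c m : ℝ) : ℂ) • Am m with hAc
  have hAc' : ∀ c y, vc Q J c (Q.U 1 GF.one (-y) X) = Ac c y := by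
    intro c y
    simp only [vc, hAm, hAc, SchwartzMap.sum_apply, SchwartzMap.smul_apply, smul_eq_mul]
  constructor
  · refine ((int_profW hθ hτ a b (∂_{a} (Ac a) : 𝓢(V, ℂ))).const_mul I).congr
      (Eventually.of_forall fun y => ?_)
    simp only
    rw [plane_vc N Gg hJ ha hb hab hpa (Ac a) (hAc' a) y, n0a]
    push_cast
    ring
  · refine ((int_prof hθ hτ a b Z).add ((int_profW hθ hτ a b
      (∂_{a} Lm : 𝓢(V, ℂ))).const_mul I)).congr (Eventually.of_forall fun y => ?_)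
    simp only [Pi.add_apply]
    rw [plane_vl N Gg hl ha hb hab hpa Lm hLm y, hZ]
    push_cast
    ring

/-- THE TWO ORDERS OF THE ON-SHELL AMPLITUDE: both limits exist, and their difference is the
number `κ` times an explicit integral -/
theorem amp_main (hT : Q.IsStress T) (N : CNet Q H alg S) (Gg : Gnr Q alg S G)
    (hJ : IsVirial Q T J) (hl : IsPot Q T l)
    (hp : ∀ a, IsNull a → ∀ s w, GF.mdot a w = 0 → Ptr Q S a s w)
    {κ : V → ℝ} (hκ : Tst κ) (hκ1 : ∀ᶠ x in 𝓝 (0 : V), κ x = 1) {k : ℂ}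
    (hk : ∀ a, IsNull a → ∀ g : 𝓢(Mink, ℂ), H246R.PC (mftS g) → ∀ (m : Ix) (y : V),
      vl l (G a (Q.U 1 GF.one (-y) (J m (fl g) Q.vac))) = k * (a m : ℂ) * toSchL g y)
    {a b : V} (ha : IsNull a) (hb : IsNull b) (hab : GF.mdot a b = 1)
    {Φ Sig : ℝ → ℝ} (hΦ : Tst Φ) (hSig : Tst Sig) (m : Ix) {g : 𝓢(Mink, ℂ)}
    (hg : H246R.PC (mftS g)) :
    ∃ c₁ c₂ : ℂ,
      Tendsto (fun R => Inn Q J G a b Φ (J m (fl g) Q.vac)
        (fun i => dr i (Sc a b κ (deriv Sig) R))) atTop (𝓝 c₁) ∧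
      Tendsto (fun R => Inn Q J G b a Sig (J m (fl g) Q.vac)
        (fun i => dr i (Sc b a κ (deriv Φ) R))) atTop (𝓝 c₂) ∧
      c₁ - c₂ = 3 * k * ∫ y : V, ((a m * deriv (deriv (deriv Φ)) (GF.mdot a y) *
        deriv (deriv Sig) (GF.mdot b y) - b m * deriv (deriv (deriv Sig)) (GF.mdot b y) *
        deriv (deriv Φ) (GF.mdot a y) : ℝ) : ℂ) * toSchL g y := by
  have hba : GF.mdot b a = 1 := by rw [gm_comm, hab]
  obtain ⟨Am, Lm, hAm, hLm⟩ := H993.hsch N hT hJ hl m g hg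
  set X : D := J m (fl g) Q.vac with hX
  have n0a : ∀ y, vc Q J a (G a (Q.U 1 GF.one (-y) X)) = 0 := fun y => n0_all N Gg hJ ha _
  have n0b : ∀ y, vc Q J b (G b (Q.U 1 GF.one (-y) X)) = 0 := fun y => n0_all N Gg hJ hb _
  set Z : 𝓢(V, ℂ) := (k * (a m : ℂ)) • toSchL g with hZd
  set Z' : 𝓢(V, ℂ) := (k * (b m : ℂ)) • toSchL g with hZd'
  have hZ : ∀ y, vl l (G a (Q.U 1 GF.one (-y) X)) = Z y := fun y => hk a ha g hg m y
  have hZ' : ∀ y, vl l (G b (Q.U 1 GF.one (-y) X)) = Z' y := fun y => hk b hb g hg m y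
  have hi : ∀ c, Integrable fun y : V => (1 + ‖y‖) ^ 2 * ‖vj Q J c (Q.U 1 GF.one (-y) X)‖ := by
    intro c
    simp only [hAm]
    have h1 : Integrable fun y : V => (((1 + ‖y‖) ^ 2 : ℝ) : ℂ) * Am c y := by
      refine int_pol (Am c) (M := 2) (by fun_prop) fun y => ?_
      rw [norm_real, Real.norm_eq_abs, abs_of_nonneg (by positivity)]
      nlinarith [sq_nonneg (1 - ‖y‖)]
    refine h1.norm.congr (Eventually.of_forall fun y => ?_)
    simp only
    rw [norm_mul, norm_real, Real.norm_eq_abs, abs_of_nonneg (by positivity)]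
  have b1 := tst_bd (tst_deriv (tst_deriv (tst_deriv hΦ)))
  have b2 := tst_bd (tst_deriv (tst_deriv (tst_deriv hSig)))
  have l1 := lim_inn N Gg hJ hl ha hb hab hκ hκ1 hΦ (tst_deriv hSig) X
    (int_plane N Gg hJ hl ha hb hab (hp a ha) n0a Am hAm Lm hLm Z hZ b1
      (tst_bd (tst_deriv hSig))).1
    (int_plane N Gg hJ hl ha hb hab (hp a ha) n0a Am hAm Lm hLm Z hZ b1
      (tst_bd (tst_deriv (tst_deriv hSig)))).2 hi
  have l2 := lim_inn N Gg hJ hl hb ha hba hκ hκ1 hSig (tst_deriv hΦ) X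
    (int_plane N Gg hJ hl hb ha hba (hp b hb) n0b Am hAm Lm hLm Z' hZ' b2
      (tst_bd (tst_deriv hΦ))).1
    (int_plane N Gg hJ hl hb ha hba (hp b hb) n0b Am hAm Lm hLm Z' hZ' b2
      (tst_bd (tst_deriv (tst_deriv hΦ)))).2 hi
  refine ⟨_, _, l1, l2, ?_⟩
  rw [sid_main N Gg hJ hl ha hb hab (hp a ha) (hp b hb) (tst_deriv hΦ) (tst_deriv hSig)
    n0a n0b Am hAm Lm hLm Z Z' hZ hZ']
  have i1 := int_prof b1 (tst_bd (tst_deriv (tst_deriv hSig))) a b Z
  have i2 := int_prof b2 (tst_bd (tst_deriv (tst_deriv hΦ))) b a Z'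
  rw [← integral_sub i1 i2, mul_assoc 3 k, ← integral_const_mul k]
  congr 2
  funext y
  have e1 : Z y = k * (a m : ℂ) * toSchL g y := rfl
  have e2 : Z' y = k * (b m : ℂ) * toSchL g y := rfl
  rw [e1, e2]
  push_cast
  ring

end

end Vale.Agent.P352.H746
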