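import Vale.Agent.P352.H746.OnIff
import Vale.Agent.P352.H746.InvDefs

set_option linter.all false

noncomputable section

open MeasureTheory SchwartzMap Complex Filter Topology
open scoped SchwartzMap ComplexConjugate ENNReal LineDeriv ContDiff FourierTransform

namespace Vale.Agent.P352.H746

open GF (Ix V Fn Sch ev pd bar sim bas o)
open H246 H496 H755 H246R
open UniformSpace (Completion)

variable {D : Type*} [NormedAddCommGroup D] [InnerProductSpace ℂ D]
variable {Q : GF.Theory D}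
variable {H : D → D} {alg : Set V → Set (D → D)} {S : V → ℝ → D → D} {G : V → D → D}
variable {T : Ix → Ix → GF.Fld D} {J : Ix → GF.Fld D} {l : Fn → Completion D}

/-- invariance implies that the first order response vanishes -/
lemma inv_G (hT : Q.IsStress T) (N : CNet Q H alg S) (Gg : Gnr Q alg S G) (hl : IsPot Q T l)
    (hinv : Inv S l) {a : V} (ha : IsNull a) (v : D) (c : ℂ) (hc : Val l (G a v) c) : c = 0 := by
  obtain ⟨φ, n, hv, hvl, hq⟩ := exists_vl hT N hl
  have hB := pw1_mem N.toNet n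
  have h2 := der_pt N.toNet ha (fun v => Gg.der _ v ha) φ hB v 0
  have h3 : (fun s : ℝ => inner ℂ φ ((pw1 H n (S a s v) : D) : Completion D)) =
      fun _ => pt φ (pw1 H n) v := by
    funext s
    exact hinv a s v _ _ ha ((hv _ _).2 rfl) ((hv _ _).2 rfl)
  rw [h3, S_zero N.toNet ha] at h2
  have h4 := h2.unique (hasDerivAt_const _ _)
  have h5 : pt φ (pw1 H n) (I • G a v) = 0 := h4
  rw [pt_smul' N hB] at h5
  rw [(hv _ _).1 hc]
  exact (mul_eq_zero.1 h5).resolve_left I_ne_zero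

/-- the criterion with the trace, for one null vector -/
theorem kappa_iff (hT : Q.IsStress T) (N : CNet Q H alg S) (Gg : Gnr Q alg S G)
    (hl : IsPot Q T l) :
    (∃ a, IsNull a ∧ ∀ f c, GF.IsTest f → Val l (G a (GF.tr T f Q.vac)) c → c = 0) ↔ Inv S l := by
  constructor
  · intro h
    exact inv_of_kappa hT N Gg hl fun f c hf hc => kappa_nu hT N Gg hl h f c hf hc
  · intro h
    exact ⟨nu (-1), isNull_nu (Or.inr rfl), fun f c hf hc =>
      inv_G hT N Gg hl h (isNull_nu (Or.inr rfl)) _ c hc⟩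

/-- the two dilaton amplitude, for all cutoffs -/
theorem exists_two (hT : Q.IsStress T) (N : CNet Q H alg S) (Gg : Gnr Q alg S G)
    (hJ : IsVirial Q T J) (hl : IsPot Q T l) :
    ∃ k : ℂ, (k = 0 ↔ Inv S l) ∧ ∀ κ : V → ℝ, Tst κ → (∀ᶠ x in 𝓝 (0 : V), κ x = 1) →
      TwoDilaton Q J G l κ k := by
  obtain ⟨k, hk⟩ := exists_kapV hT N Gg hJ hl
  obtain ⟨φ, n, hv, hvl, hq⟩ := exists_vl hT N hl
  refine ⟨k, kap_iff hT N Gg hJ hl hk, fun κ hκ hκ1 => ?_⟩
  intro a b Φ σ m g L ha hb hab hΦ hσ hg hfw hL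
  obtain ⟨F, rfl⟩ := exists_fl hg
  have hpc := fwd_iff.1 hfw
  obtain ⟨Am, Lm, hAm, hLm⟩ := H993.hsch N hT hJ hl m F hpc
  have hLv : ∀ y, vl l (Q.U 1 GF.one (-y) (J m (fl F) Q.vac)) = L y := fun y => by
    rw [hvl]
    exact ((hv _ _).1 (hL y)).symm
  have h := amp_lim N Gg hJ hl ha hb hab (fun s w hw => Gg.Ptr ha hw) hκ hκ1 hΦ hσ
    (fun y => n0_all N Gg hJ ha _) Am hAm Lm hLm ((k * (a m : ℂ)) • toSchL F)
    (fun y => hk a ha F hpc m y)
  simp only [hLv] at h
  have e : (3 : ℂ) * (∫ y : V, ((deriv (deriv (deriv Φ)) (GF.mdot a y) *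
      deriv σ (GF.mdot b y) : ℝ) : ℂ) * vl l (G a (Q.U 1 GF.one (-y) (J m (fl F) Q.vac)))) =
      3 * k * ∫ y : V, ((a m * deriv (deriv (deriv Φ)) (GF.mdot a y) *
        deriv σ (GF.mdot b y) : ℝ) : ℂ) * fl F y := by
    rw [mul_assoc 3 k, ← integral_const_mul k]
    congr 2
    funext y
    rw [hk a ha F hpc m y]
    have e1 : toSchL F y = fl F y := rfl
    rw [e1]
    push_cast
    ring
  rw [e] at h
  exact h

end Vale.Agent.P352.H746
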