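import Vale.Agent.P352.H731.NullMes
import Vale.Agent.P352.H746.V2

set_option linter.all false

noncomputable section

open MeasureTheory SchwartzMap Complex Filter Topology
open scoped SchwartzMap ComplexConjugate ENNReal LineDeriv

namespace Vale.Agent.P352.H746

open GF (Ix V Fn Sch ev pd bar sim bas o)
open H246 H496 H755 H246R H731
open UniformSpace (Completion)

variable {D : Type*} [NormedAddCommGroup D] [InnerProductSpace ℂ D]
variable {Q : GF.Theory D}
variable {H : D → D} {alg : Set V → Set (D → D)} {S : V → ℝ → D → D} {G : V → D → D}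

/-- bounded covariant families of functions define vector valued distributions -/
theorem exists_kapg (g : D → Mink → ℂ) (hc0 : ∀ v, Continuous (g v))
    (hb0 : ∀ v, ∃ (C : ℝ) (m : ℕ), ∀ x, ‖g v x‖ ≤ C * (1 + ‖x‖) ^ m)
    (hadd : ∀ v w x, g (v + w) x = g v x + g w x) (hsmul : ∀ (c : ℂ) v x, g (c • v) x = c * g v x)
    (hbs : ∀ F : 𝓢(Mink, ℂ), ∃ C : ℝ, ∀ v, ‖∫ x, conj (F x) * g v x‖ ≤ C * ‖v‖) :
    ∃ κ : 𝓢(Mink, ℂ) →L[ℂ] Completion D, ∀ F (v : D), inner ℂ (v : Completion D) (κ F) =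
      ∫ x, F x * conj (g v x) := by
  have hc : ∀ v, Continuous fun x => conj (g v x) := fun v =>
    Complex.continuous_conj.comp (hc0 v)
  have hbd : ∀ v, ∃ (C : ℝ) (m : ℕ), ∀ x, ‖conj (g v x)‖ ≤ C * (1 + ‖x‖) ^ m := by
    intro v
    obtain ⟨C, m, h⟩ := hb0 v
    exact ⟨C, m, fun x => by rw [RCLike.norm_conj]; exact h x⟩
  have hint : ∀ (F : 𝓢(Mink, ℂ)) v, Integrable fun x => F x * conj (g v x) := by
    intro F v
    obtain ⟨C, m, h⟩ := hbd v
    exact integrable_pol (hc v) h F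
  have hcc : ∀ (F : 𝓢(Mink, ℂ)) v, conj (∫ x, F x * conj (g v x)) =
      ∫ x, conj (F x) * g v x := by
    intro F v
    rw [← integral_conj]
    congr 1
    ext x
    rw [map_mul, conj_conj]
  have hint' : ∀ (F : 𝓢(Mink, ℂ)) v, Integrable fun x => conj (F x) * g v x := by
    intro F v
    refine (Complex.conjCLE.toContinuousLinearMap.integrable_comp (hint F v)).congr
      (Eventually.of_forall fun x => ?_)
    show conj (F x * conj (g v x)) = _
    rw [map_mul, conj_conj]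
  have hex : ∀ F : 𝓢(Mink, ℂ), ∃ u : Completion D, ∀ v : D, inner ℂ (v : Completion D) u =
      ∫ x, F x * conj (g v x) := by
    intro F
    obtain ⟨C, hC⟩ := hbs F
    set φ0 : D →ₗ[ℂ] ℂ :=
      { toFun := fun v => ∫ x, conj (F x) * g v x
        map_add' := fun v w => by
          rw [← integral_add (hint' F v) (hint' F w)]
          congr 1; ext x; rw [hadd]; ring
        map_smul' := fun c v => by
          rw [RingHom.id_apply, smul_eq_mul, ← integral_const_mul]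
          congr 1; ext x; rw [hsmul]; ring } with hφ0
    set φ1 : D →L[ℂ] ℂ := φ0.mkContinuous C (fun v => hC v) with hφ1
    set ψ : Completion D →L[ℂ] ℂ :=
      φ1.extend (Completion.toComplL (𝕜 := ℂ) (E := D)) with hψ
    have hψz : ∀ z : D, ψ (z : Completion D) = φ1 z := fun z =>
      φ1.extend_eq (Completion.denseRange_coe) (Completion.isUniformInducing_coe D) z
    refine ⟨(InnerProductSpace.toDual ℂ _).symm ψ, fun z => ?_⟩
    rw [← inner_conj_symm, InnerProductSpace.toDual_symm_apply, hψz]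
    change conj (∫ x, conj (F x) * g z x) = _
    rw [← hcc, conj_conj]
  choose κ hκ using hex
  set κl : 𝓢(Mink, ℂ) →ₗ[ℂ] Completion D :=
    { toFun := κ
      map_add' := fun F G => ext_coe fun z => by
        rw [inner_add_right, hκ, hκ, hκ, ← integral_add (hint F z) (hint G z)]
        congr 1; ext x; simp only [SchwartzMap.add_apply]; ring
      map_smul' := fun c F => ext_coe fun z => by
        rw [RingHom.id_apply, inner_smul_right, hκ, hκ, ← integral_const_mul]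
        congr 1; ext x; simp only [SchwartzMap.smul_apply, smul_eq_mul]; ring } with hκl
  have := barrelled_schwartz
  have hcont : Continuous κl := by
    refine cont_of_weak κl (Z := Set.range ((↑) : D → Completion D)) Completion.denseRange_coe ?_
    rintro _ ⟨z, rfl⟩
    obtain ⟨C, m, h⟩ := hbd z
    have h1 := cont_pol (hc z) h
    have e : (fun F : 𝓢(Mink, ℂ) => inner ℂ (z : Completion D) (κl F)) =
        fun F : 𝓢(Mink, ℂ) => ∫ x, F x * conj (g z x) := by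
      funext F
      exact hκ F z
    rw [e]
    exact h1
  exact ⟨⟨κl, hcont⟩, hκ⟩

/-- translates of the first order response of the potential -/
def gr (Q : GF.Theory D) (G : V → D → D) (φ : Completion D) (B : D → D) (a : V) (v : D)
    (x : Mink) : ℂ := pt φ B (G a (U1 Q (-x) v))

section

variable (N : CNet Q H alg S) (Gg : Gnr Q alg S G) {φ : Completion D} {B : D → D}
variable (hB : B ∈ alg Set.univ)
include N Gg hB

lemma GB_mem {a : V} (ha : IsNull a) : (fun v => B (G a v)) ∈ alg Set.univ :=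
  N.mul _ _ hB _ (Gg.mem a ha)

lemma cont_gr {a : V} (ha : IsNull a) (v : D) : Continuous (gr Q G φ B a v) :=
  (cont_op N.toNet φ (GB_mem N Gg hB ha) v).comp (by fun_prop : Continuous fun x : Mink => (-x).ofLp)

lemma bdd_gr {a : V} (ha : IsNull a) (v : D) : ∃ (C : ℝ) (m : ℕ), ∀ x,
    ‖gr Q G φ B a v x‖ ≤ C * (1 + ‖x‖) ^ m := by
  obtain ⟨C1, m1, h1⟩ := N.transl_bdd _ (GB_mem N Gg hB ha) v
  have hC1 : 0 ≤ C1 := by simpa using (norm_nonneg _).trans (h1 0)
  refine ⟨‖φ‖ * C1, m1, fun x => ?_⟩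
  have hx : ‖(-x).ofLp‖ ≤ ‖x‖ := by
    rw [← norm_neg x, pi_norm_le_iff_of_nonneg (norm_nonneg _)]
    intro i
    rw [Real.norm_eq_abs]
    exact abs_coord_le (-x) i
  refine (norm_inner_le_norm _ _).trans ?_
  rw [Completion.norm_coe, mul_assoc]
  gcongr
  refine (h1 (-x).ofLp).trans ?_
  gcongr

lemma gr_add {a : V} (ha : IsNull a) (v w : D) (x : Mink) :
    gr Q G φ B a (v + w) x = gr Q G φ B a v x + gr Q G φ B a w x := by
  have h := pt_add' N (GB_mem N Gg hB ha) φ (U1 Q (-x) v) (U1 Q (-x) w)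
  unfold gr
  rw [U1_add]
  exact h

lemma gr_smul {a : V} (ha : IsNull a) (c : ℂ) (v : D) (x : Mink) :
    gr Q G φ B a (c • v) x = c * gr Q G φ B a v x := by
  have h := pt_smul' N (GB_mem N Gg hB ha) φ c (U1 Q (-x) v)
  unfold gr
  rw [U1_smul]
  exact h

lemma gr_U (hq : ∀ σ L v, 0 < σ → GF.IsLor L → pt φ B (Q.U σ L 0 v) = ((σ ^ 2)⁻¹ : ℝ) * pt φ B v)
    {a b : V} (ha : IsNull a) (hb : IsNull b) {σ r : ℝ} (hσ : 0 < σ) (hr : 0 < r) {L : Ix → V}
    (hL : GF.IsLor L) (hab : sim 1 L 0 a = r • b) (v : D) (y : Mink) :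
    gr Q G φ B b (Q.U σ L 0 v) (σ • lam L y) = (((r * σ)⁻¹ : ℝ) : ℂ) * gr Q G φ B a v y := by
  unfold gr
  rw [U_scale N hσ hL]
  exact ze_U N Gg.der hB hq hσ hr hL ha hb hab (U1 Q (-y) v)

omit N Gg hB in
lemma gr_tau (a : V) (b : Mink) (v : D) (x : Mink) :
    gr Q G φ B a (U1 Q b v) x = gr Q G φ B a v (x - b) := by
  unfold gr
  rw [U1_U1_all]
  have : -x + b = -(x - b) := by abel
  rw [this]

end

section

variable (N : CNet Q H alg S) (Gg : Gnr Q alg S G) {φ : Completion D} {B : D → D}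
variable (hB : B ∈ alg Set.univ)
variable (hq : ∀ σ L v, 0 < σ → GF.IsLor L → pt φ B (Q.U σ L 0 v) = ((σ ^ 2)⁻¹ : ℝ) * pt φ B v)
variable {a : V} (ha : IsNull a) {κ : 𝓢(Mink, ℂ) →L[ℂ] Completion D}
variable (h : ∀ F (v : D), inner ℂ (v : Completion D) (κ F) = ∫ x, F x * conj (gr Q G φ B a v x))
include N Gg hB hq ha h

lemma kr_cov {σ r : ℝ} (hσ : 0 < σ) (hr : 0 < r) {L : Ix → V} (hL : GF.IsLor L)
    (hLa : sim 1 L 0 a = r • a) (F : 𝓢(Mink, ℂ)) (v : D) :
    inner ℂ ((Q.U σ L 0 v : D) : Completion D) (κ F) =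
      ((σ ^ 3 / r : ℝ) : ℂ) * inner ℂ (v : Completion D) (κ (simS σ hσ hL 0 F)) := by
  rw [h, h]
  have h1 := int_sim hσ hL (fun x => F x * conj (gr Q G φ B a (Q.U σ L 0 v) x))
  have h2 : ∀ y : Mink, F (σ • lam L y) * conj (gr Q G φ B a (Q.U σ L 0 v) (σ • lam L y)) =
      (((r * σ)⁻¹ : ℝ) : ℂ) * (simS σ hσ hL 0 F y * conj (gr Q G φ B a v y)) := by
    intro y
    rw [gr_U N Gg hB hq ha ha hσ hr hL hLa, simS0_apply, map_mul, conj_ofReal]
    ring
  simp only [h2] at h1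
  rw [integral_const_mul] at h1
  have hσ' : (σ : ℂ) ≠ 0 := by exact_mod_cast hσ.ne'
  have hr' : (r : ℂ) ≠ 0 := by exact_mod_cast hr.ne'
  have h3 : ∫ x, F x * conj (gr Q G φ B a (Q.U σ L 0 v) x) = ((σ ^ 4 : ℝ) : ℂ) *
      (((σ ^ 4)⁻¹ : ℝ) * ∫ x, F x * conj (gr Q G φ B a (Q.U σ L 0 v) x)) := by
    push_cast
    field_simp
  rw [h3, ← h1]
  push_cast
  field_simp

lemma kr_le {σ r : ℝ} (hσ : 0 < σ) (hr : 0 < r) {L : Ix → V} (hL : GF.IsLor L)
    (hLa : sim 1 L 0 a = r • a) (F : 𝓢(Mink, ℂ)) :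
    σ ^ 3 / r * ‖κ (simS σ hσ hL 0 F)‖ ≤ ‖κ F‖ := by
  have hp : 0 < σ ^ 3 / r := by positivity
  rw [← le_div_iff₀' hp]
  apply norm_le_of_inner (by positivity)
  intro z
  have h1 := kr_cov N Gg hB hq ha h hσ hr hL hLa F z
  have h2 : ‖((σ ^ 3 / r : ℝ) : ℂ) * inner ℂ (z : Completion D) (κ (simS σ hσ hL 0 F))‖ ≤
      ‖z‖ * ‖κ F‖ := by
    rw [← h1]
    refine (norm_inner_le_norm _ _).trans ?_
    rw [Completion.norm_coe, U_nrm0 hσ hL]
  rw [norm_mul, norm_real, Real.norm_of_nonneg hp.le] at h2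
  rw [div_mul_eq_mul_div, le_div_iff₀' hp]
  linarith

lemma kr_norm {σ r : ℝ} (hσ : 0 < σ) (hr : 0 < r) {L : Ix → V} (hL : GF.IsLor L)
    (hLa : sim 1 L 0 a = r • a) (F : 𝓢(Mink, ℂ)) :
    ‖κ F‖ = σ ^ 3 / r * ‖κ (simS σ hσ hL 0 F)‖ := by
  apply le_antisymm _ (kr_le N Gg hB hq ha h hσ hr hL hLa F)
  have hσ' : 0 < σ⁻¹ := by positivity
  have hLa' : sim 1 (linv L) 0 a = r⁻¹ • a := by
    have h1 : (WithLp.toLp 2 (sim 1 (linv L) 0 (r • a)) : Mink) = WithLp.toLp 2 a := by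
      rw [toLp_sim, ← hLa, toLp_sim, linv_lam hL]
    have h2 : sim 1 (linv L) 0 (r • a) = a := congrArg WithLp.ofLp h1
    have h3 : sim 1 (linv L) 0 (r • a) = r • sim 1 (linv L) 0 a := by
      funext n
      simp only [sim, Pi.smul_apply, smul_eq_mul, Pi.zero_apply, Finset.mul_sum, mul_assoc,
        zero_add, one_mul]
    rw [h3] at h2
    calc sim 1 (linv L) 0 a = r⁻¹ • (r • sim 1 (linv L) 0 a) := by
          rw [smul_smul, inv_mul_cancel₀ hr.ne', one_smul]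
      _ = _ := by rw [h2]
  have h2 := kr_le N Gg hB hq ha h hσ' (inv_pos.2 hr) (isLor_linv hL) hLa' (simS σ hσ hL 0 F)
  have e : simS σ⁻¹ hσ' (isLor_linv hL) 0 (simS σ hσ hL 0 F) = F := by
    ext x
    rw [simS0_apply, simS0_apply]
    congr 1
    have : lam L (σ⁻¹ • lam (linv L) x) = σ⁻¹ • lam L (lam (linv L) x) := by
      have := (lamE hL).map_smul σ⁻¹ (lam (linv L) x)
      exact this
    rw [this, lam_linv hL, smul_smul, mul_inv_cancel₀ hσ.ne', one_smul]
  rw [e] at h2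
  have h3 : σ⁻¹ ^ 3 / r⁻¹ = (σ ^ 3 / r)⁻¹ := by field_simp
  rw [h3, inv_mul_le_iff₀ (by positivity)] at h2
  exact h2

/-- the weights of the spectral measure of the response -/
theorem wgt_kr {ν : 𝓢(Mink, ℂ) → Measure Mink} {μ : Measure Mink}
    (Sd : SpecData (fun g => κ g) ν) (hd : ∀ g, ν g = μ.withDensity (dens g))
    {σ r : ℝ} (hσ : 0 < σ) (hr : 0 < r) {L : Ix → V} (hL : GF.IsLor L)
    (hLa : sim 1 L 0 a = r • a) :
    μ.map (fun p => σ⁻¹ • lam L p) = ENNReal.ofReal (σ ^ 2 * r ^ 2) • μ := by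
  set Bl : 𝓢(Mink, ℂ) →ₗ[ℂ] Completion D :=
    { toFun := fun F => ((σ ^ 3 / r : ℝ) : ℂ) • κ (simS σ hσ hL 0 F)
      map_add' := fun F G => by
        have : simS σ hσ hL 0 (F + G) = simS σ hσ hL 0 F + simS σ hσ hL 0 G := by
          ext x; simp [simS0_apply]
        rw [this, map_add, smul_add]
      map_smul' := fun c F => by
        have : simS σ hσ hL 0 (c • F) = c • simS σ hσ hL 0 F := by
          ext x; simp [simS0_apply]
        rw [this, map_smul, RingHom.id_apply, smul_comm] } with hBl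
  have hn : ∀ F, ‖(κ : 𝓢(Mink, ℂ) →ₗ[ℂ] Completion D) F‖ = ‖Bl F‖ := by
    intro F
    show ‖κ F‖ = ‖((σ ^ 3 / r : ℝ) : ℂ) • κ (simS σ hσ hL 0 F)‖
    rw [norm_smul, norm_real, Real.norm_of_nonneg (by positivity : 0 ≤ σ ^ 3 / r)]
    exact kr_norm N Gg hB hq ha h hσ hr hL hLa F
  have h5 := inv2 Sd Sd hd hd (fun p => σ⁻¹ • lam L p) (measurable_M σ L)
    ((σ ^ 3 / r) ^ 2) ((σ ^ 4)⁻¹) (by positivity) (simS σ hσ hL 0)
    (fun b => (lamE hL).symm (σ⁻¹ • b))
    (fun g b => by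
      ext x
      rw [simS0_apply, tauS_apply, tauS_apply, simS0_apply]
      congr 1
      have h1 : lam L (x - (lamE hL).symm (σ⁻¹ • b)) = lam L x - σ⁻¹ • b := by
        have h2 := (lamE hL).map_sub x ((lamE hL).symm (σ⁻¹ • b))
        rw [ContinuousLinearEquiv.apply_symm_apply] at h2
        exact h2
      rw [h1, smul_sub, smul_smul, mul_inv_cancel₀ hσ.ne', one_smul])
    (fun f g => by
      have h1 := inner_of_norm (κ : 𝓢(Mink, ℂ) →ₗ[ℂ] Completion D) Bl hn f g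
      have h2 : inner ℂ (Bl f) (Bl g) = (((σ ^ 3 / r) ^ 2 : ℝ) : ℂ) *
          inner ℂ (κ (simS σ hσ hL 0 f)) (κ (simS σ hσ hL 0 g)) := by
        show inner ℂ (((σ ^ 3 / r : ℝ) : ℂ) • κ (simS σ hσ hL 0 f))
          (((σ ^ 3 / r : ℝ) : ℂ) • κ (simS σ hσ hL 0 g)) = _
        rw [inner_smul_left, inner_smul_right, conj_ofReal]
        push_cast
        ring
      rw [h2] at h1
      exact h1)
    (fun g p => by
      rw [mft_simS]
      have : chr (-WithLp.toLp 2 (0 : V)) (σ⁻¹ • lam L p) = 1 := by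
        have h0 : (-WithLp.toLp 2 (0 : V) : Mink) = 0 := by
          ext n; simp
        rw [h0, chr_zero']
      rw [this, one_mul])
    (fun b p => by rw [chr_lam_symm hL, chr_smul])
  have h6 : ENNReal.ofReal (σ ^ 2 * r ^ 2) * ENNReal.ofReal ((σ ^ 3 / r) ^ 2 * ((σ ^ 4)⁻¹) ^ 2) =
      1 := by
    rw [← ENNReal.ofReal_mul (by positivity)]
    have : σ ^ 2 * r ^ 2 * ((σ ^ 3 / r) ^ 2 * ((σ ^ 4)⁻¹) ^ 2) = 1 := by field_simp
    rw [this, ENNReal.ofReal_one]
  conv_rhs => rw [h5]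
  rw [smul_smul, h6, one_smul]

end

/-- A HILBERT SPACE VALUED RESPONSE VANISHES -/
theorem gr_zero (N : CNet Q H alg S) (Gg : Gnr Q alg S G) {φ : Completion D} {B : D → D}
    (hB : B ∈ alg Set.univ)
    (hq : ∀ σ L v, 0 < σ → GF.IsLor L → pt φ B (Q.U σ L 0 v) = ((σ ^ 2)⁻¹ : ℝ) * pt φ B v)
    (hbs : ∀ F : 𝓢(Mink, ℂ), ∃ C : ℝ, ∀ v,
      ‖∫ x, conj (F x) * gr Q G φ B (nu (-1)) v x‖ ≤ C * ‖v‖) (v : D) :
    pt φ B (G (nu (-1)) v) = 0 := by
  have ha : IsNull (nu (-1)) := isNull_nu (Or.inr rfl)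
  obtain ⟨κ, hκ⟩ := exists_kapg (gr Q G φ B (nu (-1))) (cont_gr N Gg hB ha)
    (bdd_gr N Gg hB ha) (gr_add N Gg hB ha) (gr_smul N Gg hB ha) hbs
  obtain ⟨ν, hν⟩ := exists_data (Q := Q) κ (fun g b z => by
    rw [hκ, hκ]
    have : ∀ x, tauS b g x * conj (gr Q G φ B (nu (-1)) (U1 Q b z) x) =
        (fun y => g y * conj (gr Q G φ B (nu (-1)) z y)) (x - b) := by
      intro x
      rw [tauS_apply, gr_tau]
    simp only [this]
    exact integral_sub_right_eq_self (μ := (volume : Measure Mink))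
      (fun y => g y * conj (gr Q G φ B (nu (-1)) z y)) b)
  obtain ⟨μ, h1, h2⟩ := hν.exists_KL
  obtain ⟨C, m, hC, hb⟩ := exists_ball_bound κ hν h2
  have h0 : μ = 0 := null_gen (fin_compact hb) (by rw [ae_iff]; exact h1) (Or.inr rfl)
    (A := 2) (B := 2) (by norm_num) (by norm_num)
    (fun σ r L hσ hr hL hLa => wgt_kr N Gg hB hq ha hκ hν h2 hσ hr hL hLa)
  have hk : ∀ g, κ g = 0 := by
    intro g
    have h3 := norm_sq_spec hν g
    rw [h2 g, h0, withDensity_zero_left] at h3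
    simp only [Measure.coe_zero, Pi.zero_apply, ENNReal.ofReal_eq_zero] at h3
    have h4 : ‖κ g‖ ^ 2 = 0 := le_antisymm h3 (by positivity)
    exact norm_eq_zero.1 (pow_eq_zero_iff two_ne_zero |>.1 h4)
  have hz := fund (W := Set.univ) isOpen_univ
    (h := fun x => conj (gr Q G φ B (nu (-1)) v x))
    (Complex.continuous_conj.comp (cont_gr N Gg hB ha v))
    (fun F hF => by
      rw [← hκ F v, hk, inner_zero_right]) (0 : Mink) trivial
  have h3 : gr Q G φ B (nu (-1)) v 0 = 0 := by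
    have := congrArg conj hz
    simpa using this
  unfold gr at h3
  rw [neg_zero, U1_zero_all] at h3
  exact h3

/-- the response is a Hilbert space valued field only if it vanishes -/
theorem reg_iff {T : Ix → Ix → GF.Fld D} {l : Fn → Completion D}
    (hT : Q.IsStress T) (N : CNet Q H alg S) (Gg : Gnr Q alg S G)
    (hl : IsPot Q T l) : (∃ a, IsNull a ∧ Reg Q G l a) ↔ Inv S l := by
  obtain ⟨φ, n, hv, hvl, hq⟩ := exists_vl hT N hl
  have hB := pw1_mem N.toNet n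
  have ha0 : IsNull (nu (-1)) := isNull_nu (Or.inr rfl)
  constructor
  · rintro ⟨a, ha, hR⟩
    obtain ⟨θ, ψ, hrot⟩ := exists_rot ha
    have hL := isLor_Rt θ ψ
    have hr : 0 < (a 0)⁻¹ := inv_pos.2 ha.2
    have key : ∀ (F : 𝓢(Mink, ℂ)) v,
        ∫ x, conj (simS 1 one_pos hL 0 F x) * gr Q G φ (pw1 H n) (nu (-1)) v x =
        (((a 0)⁻¹ : ℝ) : ℂ) * ∫ x, conj (F x) *
          gr Q G φ (pw1 H n) a (Q.U 1 (Rt θ ψ) 0 v) x := by
      intro F v
      have h1 := int_sim one_pos hL (fun x => conj (F x) *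
          gr Q G φ (pw1 H n) a (Q.U 1 (Rt θ ψ) 0 v) x)
      rw [one_pow, inv_one, ofReal_one, one_mul] at h1
      rw [← h1, ← integral_const_mul]
      congr 1
      ext y
      have h2 := gr_U N Gg hB hq ha0 ha one_pos hr hL hrot v y
      rw [h2, simS0_apply one_pos hL, mul_one, inv_inv]
      have hr' : ((a 0 : ℝ) : ℂ) ≠ 0 := by exact_mod_cast ha.2.ne'
      push_cast
      field_simp
    have hz := gr_zero N Gg hB hq (fun F => by
      obtain ⟨C, hC⟩ := hR _ (isTest_fl (simJ one_pos hL 0 F))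
      refine ⟨|(a 0)⁻¹| * C, fun v => ?_⟩
      have h1 := hC (Q.U 1 (Rt θ ψ) 0 v)
        (fun y => pt φ (pw1 H n) (G a (Q.U 1 GF.one (-y) (Q.U 1 (Rt θ ψ) 0 v))))
        (fun y => (hv _ _).2 rfl)
      have h2 := key (simJ one_pos hL 0 F) v
      rw [simS_simJ] at h2
      rw [h2, norm_mul, norm_real, Real.norm_eq_abs, mul_assoc]
      rw [integral_V, U_nrm0 one_pos hL] at h1
      exact mul_le_mul_of_nonneg_left h1 (abs_nonneg _))
    exact inv_of_kappa hT N Gg hl fun f c hf hc => by rw [(hv _ _).1 hc, hz]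
  · intro h
    refine ⟨nu (-1), ha0, fun f hf => ⟨0, fun v L hL => ?_⟩⟩
    have : ∀ y, L y = 0 := fun y => inv_G hT N Gg hl h ha0 _ _ (hL y)
    simp only [this, mul_zero, integral_zero, norm_zero, zero_mul, le_refl]

end Vale.Agent.P352.H746
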