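import Vale.Agent.P352.H746.Curve

set_option linter.all false

noncomputable section

open MeasureTheory SchwartzMap Filter Topology
open scoped SchwartzMap ENNReal LineDeriv ContDiff

namespace Vale.Agent.P352.H746

/-! ### The derivative of a Schwartz function along a curve of affine maps -/

section

variable {E : Type} [NormedAddCommGroup E] [NormedSpace ℝ E]

lemma dcy {F : Type*} [NormedAddCommGroup F] [NormedSpace ℝ F] (f : 𝓢(E, F)) (K : ℕ) :
    ∃ C, 0 ≤ C ∧ ∀ x, (1 + ‖x‖) ^ K * ‖f x‖ ≤ C := by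
  refine ⟨2 ^ K * (Finset.Iic (K, 0)).sup (schwartzSeminormFamily ℝ E F) f, by positivity,
    fun x => ?_⟩
  have h1 := SchwartzMap.one_add_le_sup_seminorm_apply (𝕜 := ℝ) (m := (K, 0)) (k := K)
    (n := 0) le_rfl le_rfl f x
  rw [norm_iteratedFDeriv_zero] at h1
  exact h1

variable {M : ℝ → E →L[ℝ] E} {a : ℝ → E} {N : E →L[ℝ] E} {c : E}

lemma tg_aff (N : E →L[ℝ] E) (c : E) : Function.HasTemperateGrowth fun x : E => c + N x :=
  (Function.HasTemperateGrowth.const c).add N.hasTemperateGrowth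

/-- the derivative along an affine vector field -/
def xf {F : Type*} [NormedAddCommGroup F] [NormedSpace ℝ F] (N : E →L[ℝ] E) (c : E)
    (f : 𝓢(E, F)) : 𝓢(E, F) :=
  bilinLeftCLM (𝕜 := ℝ) (ContinuousLinearMap.id ℝ (E →L[ℝ] F)) (tg_aff N c) (fderivCLM ℝ E F f)

lemma xf_apply {F : Type*} [NormedAddCommGroup F] [NormedSpace ℝ F] (N : E →L[ℝ] E) (c : E)
    (f : 𝓢(E, F)) (x : E) : xf N c f x = fderiv ℝ f x (c + N x) := rfl

lemma taylor0 {F : Type*} [NormedAddCommGroup F] [NormedSpace ℝ F] (f : 𝓢(E, F)) (k : ℕ) :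
    ∃ C, 0 ≤ C ∧ ∀ x h : E, ‖h‖ ≤ (1 + ‖x‖) / 2 →
      (1 + ‖x‖) ^ (k + 2) * ‖f (x + h) - f x - fderiv ℝ f x h‖ ≤ C * ‖h‖ ^ 2 := by
  obtain ⟨C, hC, hb⟩ := dcy (fderivCLM ℝ E _ (fderivCLM ℝ E F f)) (k + 2)
  refine ⟨C * 2 ^ (k + 2), by positivity, fun x h hh => ?_⟩
  have hx : 0 < 1 + ‖x‖ := by positivity
  set κ := C * 2 ^ (k + 2) * ((1 + ‖x‖) ^ (k + 2))⁻¹ with hκ
  have hκ0 : 0 ≤ κ := by positivity
  have hf'' : ∀ z ∈ Metric.closedBall x ‖h‖, ‖fderiv ℝ (fderiv ℝ f) z‖ ≤ κ := by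
    intro z hz
    rw [mem_closedBall_iff_norm] at hz
    have h1 : (1 + ‖z‖) ^ (k + 2) * ‖fderiv ℝ (fderiv ℝ f) z‖ ≤ C := hb z
    have h2 : (1 + ‖x‖) / 2 ≤ 1 + ‖z‖ := by
      have : ‖x‖ ≤ ‖z‖ + ‖z - x‖ := by
        have := norm_sub_norm_le x z
        rw [norm_sub_rev] at this
        linarith
      linarith
    have h3 : ((1 + ‖x‖) / 2) ^ (k + 2) * ‖fderiv ℝ (fderiv ℝ f) z‖ ≤ C := by
      refine le_trans ?_ h1
      gcongr
    rw [hκ, ← div_eq_mul_inv, le_div_iff₀ (by positivity)]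
    rw [div_pow, div_mul_eq_mul_div, div_le_iff₀ (by positivity)] at h3
    linarith
  have hd1 : ∀ z, HasFDerivAt (fderiv ℝ f) (fderiv ℝ (fderiv ℝ f) z) z := fun z =>
    (fderivCLM ℝ E F f).hasFDerivAt z
  have hf' : ∀ z ∈ Metric.closedBall x ‖h‖, ‖fderiv ℝ f z - fderiv ℝ f x‖ ≤ κ * ‖h‖ := by
    intro z hz
    have h1 := (convex_closedBall x ‖h‖).norm_image_sub_le_of_norm_hasFDerivWithin_le
      (fun y _ => (hd1 y).hasFDerivWithinAt) hf'' (Metric.mem_closedBall_self (norm_nonneg _)) hz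
    rw [mem_closedBall_iff_norm] at hz
    exact h1.trans (by gcongr)
  have h2 := (convex_closedBall x ‖h‖).norm_image_sub_le_of_norm_hasFDerivWithin_le
    (f := fun z => f z - fderiv ℝ f x z) (f' := fun z => fderiv ℝ f z - fderiv ℝ f x)
    (fun y _ => ((f.hasFDerivAt y).sub (fderiv ℝ f x).hasFDerivAt).hasFDerivWithinAt) hf'
    (x := x) (y := x + h) (Metric.mem_closedBall_self (norm_nonneg _)) (by
      rw [mem_closedBall_iff_norm, add_sub_cancel_left])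
  have e1 : f (x + h) - fderiv ℝ f x (x + h) - (f x - fderiv ℝ f x x) =
      f (x + h) - f x - fderiv ℝ f x h := by
    rw [(fderiv ℝ f x).map_add x h]
    abel
  rw [e1, add_sub_cancel_left] at h2
  calc (1 + ‖x‖) ^ (k + 2) * ‖f (x + h) - f x - fderiv ℝ f x h‖
      ≤ (1 + ‖x‖) ^ (k + 2) * (κ * ‖h‖ * ‖h‖) := by gcongr
    _ = C * 2 ^ (k + 2) * ‖h‖ ^ 2 := by
        rw [hκ]
        field_simp

variable (hM : HasDerivAt M N 0) (hM0 : M 0 = ContinuousLinearMap.id ℝ E)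
variable (ha : HasDerivAt a c 0) (ha0 : a 0 = 0)
include hM hM0 ha ha0

lemma base0 {F : Type*} [NormedAddCommGroup F] [NormedSpace ℝ F] (f : 𝓢(E, F)) (k : ℕ) (ε : ℝ)
    (hε : 0 < ε) : ∀ᶠ e in 𝓝[≠] (0 : ℝ), ∀ x,
      ‖x‖ ^ k * ‖e⁻¹ • (f (a e + M e x) - f x) - fderiv ℝ f x (c + N x)‖ ≤ ε := by
  obtain ⟨C, hC, hT⟩ := taylor0 f k
  obtain ⟨C', hC', hD⟩ := dcy (fderivCLM ℝ E F f) (k + 1)
  have hsM := hasDerivAt_iff_tendsto_slope.1 hM
  have hsa := hasDerivAt_iff_tendsto_slope.1 ha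
  -- bound for the displacement
  set B : ℝ := ‖N‖ + 1 + (‖c‖ + 1) with hB
  have hB0 : 0 < B := by positivity
  set δ : ℝ := min 1 (ε / (2 * (2 * (C' + 1)))) with hδ
  have hδ0 : 0 < δ := lt_min one_pos (by positivity)
  have e1 : ∀ᶠ e in 𝓝[≠] (0 : ℝ), ‖e⁻¹ • (M e - ContinuousLinearMap.id ℝ E) - N‖ < δ := by
    have h := (Metric.tendsto_nhds.1 hsM) δ hδ0
    refine h.mono fun e he => ?_
    rw [dist_eq_norm, slope_def_module, sub_zero, hM0] at he
    exact he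
  have e2 : ∀ᶠ e in 𝓝[≠] (0 : ℝ), ‖e⁻¹ • a e - c‖ < δ := by
    have h := (Metric.tendsto_nhds.1 hsa) δ hδ0
    refine h.mono fun e he => ?_
    rw [dist_eq_norm, slope_def_module, sub_zero, ha0, sub_zero] at he
    exact he
  set ρ : ℝ := min (1 / (2 * B)) (ε / (2 * (C * B ^ 2 + 1))) with hρ
  have hρ0 : 0 < ρ := lt_min (by positivity) (by positivity)
  have e3 : ∀ᶠ e in 𝓝[≠] (0 : ℝ), |e| < ρ := by
    have : ∀ᶠ e in 𝓝 (0 : ℝ), |e| < ρ := by
      have h := Metric.ball_mem_nhds (0 : ℝ) hρ0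
      filter_upwards [h] with e he
      rwa [Metric.mem_ball, dist_zero_right, Real.norm_eq_abs] at he
    exact this.filter_mono nhdsWithin_le_nhds
  filter_upwards [e1, e2, e3, self_mem_nhdsWithin] with e h1 h2 h3 h4 x
  have he : e ≠ 0 := h4
  have hx : 0 < 1 + ‖x‖ := by positivity
  have hx1 : ‖x‖ ≤ 1 + ‖x‖ := by linarith
  set M1 : E →L[ℝ] E := M e - ContinuousLinearMap.id ℝ E with hM1
  set h : E := a e + M1 x with hh
  have hδ1 : δ ≤ 1 := min_le_left _ _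
  -- the rescaled displacement
  have q1 : ‖e⁻¹ • h - (c + N x)‖ ≤ 2 * δ * (1 + ‖x‖) := by
    have : e⁻¹ • h - (c + N x) = (e⁻¹ • a e - c) + (e⁻¹ • M1 - N) x := by
      have h6 : (e⁻¹ • M1 - N) x = e⁻¹ • M1 x - N x := rfl
      rw [h6, hh, smul_add]
      abel
    rw [this]
    refine (norm_add_le _ _).trans ?_
    have : ‖(e⁻¹ • M1 - N) x‖ ≤ δ * ‖x‖ :=
      (ContinuousLinearMap.le_opNorm _ _).trans (by gcongr)
    nlinarith [norm_nonneg x]
  have q2 : ‖h‖ ≤ |e| * (B * (1 + ‖x‖)) := by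
    have r1 : ‖e⁻¹ • h‖ ≤ B * (1 + ‖x‖) := by
      have r2 : ‖e⁻¹ • h‖ ≤ ‖e⁻¹ • a e‖ + ‖(e⁻¹ • M1) x‖ := by
        rw [hh, smul_add]
        exact norm_add_le _ _
      have r3 : ‖e⁻¹ • a e‖ ≤ ‖c‖ + 1 := by
        have := norm_sub_norm_le (e⁻¹ • a e) c
        linarith
      have r4 : ‖e⁻¹ • M1‖ ≤ ‖N‖ + 1 := by
        have := norm_sub_norm_le (e⁻¹ • M1) N
        linarith
      have r5 : ‖(e⁻¹ • M1) x‖ ≤ (‖N‖ + 1) * ‖x‖ :=
        (ContinuousLinearMap.le_opNorm _ _).trans (by gcongr)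
      have := norm_nonneg N
      have := norm_nonneg c
      nlinarith [norm_nonneg x]
    have r6 : ‖h‖ = |e| * ‖e⁻¹ • h‖ := by
      rw [norm_smul, norm_inv, Real.norm_eq_abs, ← mul_assoc,
        mul_inv_cancel₀ (abs_ne_zero.2 he), one_mul]
    rw [r6]
    gcongr
  have q3 : ‖h‖ ≤ (1 + ‖x‖) / 2 := by
    have r1 : |e| ≤ 1 / (2 * B) := h3.le.trans (min_le_left _ _)
    calc ‖h‖ ≤ |e| * (B * (1 + ‖x‖)) := q2
      _ ≤ 1 / (2 * B) * (B * (1 + ‖x‖)) := by gcongr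
      _ = (1 + ‖x‖) / 2 := by field_simp
  have q4 := hT x h q3
  have ex : x + h = a e + M e x := by
    rw [hh, hM1]
    simp only [ContinuousLinearMap.sub_apply, ContinuousLinearMap.id_apply]
    abel
  rw [ex] at q4
  have split : e⁻¹ • (f (a e + M e x) - f x) - fderiv ℝ f x (c + N x) =
      e⁻¹ • (f (a e + M e x) - f x - fderiv ℝ f x h) + fderiv ℝ f x (e⁻¹ • h - (c + N x)) := by
    rw [ContinuousLinearMap.map_sub, ContinuousLinearMap.map_smul,
      smul_sub e⁻¹ (f (a e + M e x) - f x)]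
    abel
  rw [split]
  have g1 : (1 + ‖x‖) ^ k * ‖e⁻¹ • (f (a e + M e x) - f x - fderiv ℝ f x h)‖ ≤ ε / 2 := by
    have s1 : (1 + ‖x‖) ^ (k + 2) * ‖f (a e + M e x) - f x - fderiv ℝ f x h‖ ≤
        C * (|e| * (B * (1 + ‖x‖))) ^ 2 := q4.trans (by gcongr)
    have s2 : (1 + ‖x‖) ^ k * ‖f (a e + M e x) - f x - fderiv ℝ f x h‖ ≤ C * B ^ 2 * |e| ^ 2 := by
      have : (1 + ‖x‖) ^ 2 * ((1 + ‖x‖) ^ k * ‖f (a e + M e x) - f x - fderiv ℝ f x h‖) ≤
          (1 + ‖x‖) ^ 2 * (C * B ^ 2 * |e| ^ 2) := by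
        calc _ = (1 + ‖x‖) ^ (k + 2) * ‖f (a e + M e x) - f x - fderiv ℝ f x h‖ := by ring
          _ ≤ _ := s1
          _ = _ := by ring
      exact le_of_mul_le_mul_left this (by positivity)
    have hae : 0 < |e| := abs_pos.2 he
    calc (1 + ‖x‖) ^ k * ‖e⁻¹ • (f (a e + M e x) - f x - fderiv ℝ f x h)‖
        = |e|⁻¹ * ((1 + ‖x‖) ^ k * ‖f (a e + M e x) - f x - fderiv ℝ f x h‖) := by
          rw [norm_smul, norm_inv, Real.norm_eq_abs]
          ring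
      _ ≤ |e|⁻¹ * (C * B ^ 2 * |e| ^ 2) := by gcongr
      _ = C * B ^ 2 * |e| := by field_simp
      _ ≤ (C * B ^ 2 + 1) * (ε / (2 * (C * B ^ 2 + 1))) := by
          have := h3.le.trans (min_le_right _ _)
          have h5 : 0 ≤ C * B ^ 2 := by positivity
          calc C * B ^ 2 * |e| ≤ (C * B ^ 2 + 1) * |e| := by nlinarith [abs_nonneg e]
            _ ≤ _ := by gcongr
      _ = ε / 2 := by field_simp
  have g2 : (1 + ‖x‖) ^ k * ‖fderiv ℝ f x (e⁻¹ • h - (c + N x))‖ ≤ ε / 2 := by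
    have s1 : (1 + ‖x‖) ^ (k + 1) * ‖fderiv ℝ f x‖ ≤ C' := hD x
    calc (1 + ‖x‖) ^ k * ‖fderiv ℝ f x (e⁻¹ • h - (c + N x))‖
        ≤ (1 + ‖x‖) ^ k * (‖fderiv ℝ f x‖ * (2 * δ * (1 + ‖x‖))) := by
          gcongr
          exact (ContinuousLinearMap.le_opNorm _ _).trans (by gcongr)
      _ = 2 * δ * ((1 + ‖x‖) ^ (k + 1) * ‖fderiv ℝ f x‖) := by ring
      _ ≤ 2 * δ * C' := by gcongr
      _ ≤ 2 * (ε / (2 * (2 * (C' + 1)))) * (C' + 1) := by
          have : δ ≤ ε / (2 * (2 * (C' + 1))) := min_le_right _ _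
          gcongr
          linarith
      _ = ε / 2 := by field_simp
  calc _ ≤ (1 + ‖x‖) ^ k * ‖e⁻¹ • (f (a e + M e x) - f x - fderiv ℝ f x h) +
        fderiv ℝ f x (e⁻¹ • h - (c + N x))‖ := by gcongr
    _ ≤ (1 + ‖x‖) ^ k * (‖e⁻¹ • (f (a e + M e x) - f x - fderiv ℝ f x h)‖ +
        ‖fderiv ℝ f x (e⁻¹ • h - (c + N x))‖) := by
          gcongr
          exact norm_add_le _ _
    _ ≤ ε := by rw [mul_add]; linarith

omit hM hM0 ha ha0 in
/-- precomposition with a linear map -/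
def rcl (F : Type) [NormedAddCommGroup F] [NormedSpace ℝ F] :
    (E →L[ℝ] E) →L[ℝ] ((E →L[ℝ] F) →L[ℝ] (E →L[ℝ] F)) := (ContinuousLinearMap.compL ℝ E E F).flip

omit hM hM0 ha ha0 in
/-- precomposition with a linear map -/
def rc (F : Type) [NormedAddCommGroup F] [NormedSpace ℝ F] (M : E →L[ℝ] E) :
    (E →L[ℝ] F) →L[ℝ] (E →L[ℝ] F) := rcl F M

omit hM hM0 ha ha0 in
lemma rc_apply (F : Type) [NormedAddCommGroup F] [NormedSpace ℝ F] (M : E →L[ℝ] E)
    (A : E →L[ℝ] F) (v : E) : rc F M A v = A (M v) := rfl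

omit hM hM0 ha ha0 in
lemma norm_rc (F : Type) [NormedAddCommGroup F] [NormedSpace ℝ F] (B : E →L[ℝ] E) :
    ‖rc F B‖ ≤ ‖B‖ := by
  refine ContinuousLinearMap.opNorm_le_bound _ (norm_nonneg _) fun A => ?_
  have h : rc F B A = A.comp B := rfl
  rw [h, mul_comm]
  exact ContinuousLinearMap.opNorm_comp_le A B

omit hM hM0 ha ha0 in
lemma hder_aux (F : Type) [NormedAddCommGroup F] [NormedSpace ℝ F] (f : 𝓢(E, F)) (e : ℝ)
    (A : E) (B : E →L[ℝ] E) :
    fderiv ℝ (fun x => e⁻¹ • (f (A + B x) - f x) - fderiv ℝ f x (c + N x)) =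
      fun y => rc F B (e⁻¹ • (fderivCLM ℝ E F f (A + B y) - fderivCLM ℝ E F f y) -
        fderiv ℝ (fderivCLM ℝ E F f) y (c + N y)) +
        ((rc F B - ContinuousLinearMap.id ℝ (E →L[ℝ] F)) (xf N c (fderivCLM ℝ E F f) y) +
          (e⁻¹ • (rc F B - ContinuousLinearMap.id ℝ (E →L[ℝ] F)) - rc F N)
            (fderivCLM ℝ E F f y)) := by
  funext y
  have g1 : HasFDerivAt (fun x => A + B x) B y := B.hasFDerivAt.const_add _
  have g2 : HasFDerivAt (fun x => f (A + B x)) ((fderiv ℝ f (A + B y)).comp B) y :=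
    (f.hasFDerivAt (A + B y)).comp y g1
  have g3 : HasFDerivAt (fun x => c + N x) N y := N.hasFDerivAt.const_add _
  have g4 : HasFDerivAt (fun x => fderiv ℝ f x) (fderiv ℝ (fderiv ℝ f) y) y :=
    (fderivCLM ℝ E F f).hasFDerivAt y
  have g5 := g4.clm_apply g3
  have g6 := ((g2.sub (f.hasFDerivAt y)).const_smul e⁻¹).sub g5
  refine g6.fderiv.trans ?_
  have h7 : IsSymmSndFDerivAt ℝ f y :=
    ((f.smooth 2).contDiffAt).isSymmSndFDerivAt (by simp)
  apply ContinuousLinearMap.ext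
  intro v
  have hsym : fderiv ℝ (fderiv ℝ f) y v (c + N y) = fderiv ℝ (fderiv ℝ f) y (c + N y) v :=
    h7 v (c + N y)
  show e⁻¹ • (fderiv ℝ f (A + B y) (B v) - fderiv ℝ f y v) -
      (fderiv ℝ f y (N v) + fderiv ℝ (fderiv ℝ f) y v (c + N y)) =
    (e⁻¹ • (fderiv ℝ f (A + B y) (B v) - fderiv ℝ f y (B v)) -
        fderiv ℝ (fderiv ℝ f) y (c + N y) (B v)) +
      ((fderiv ℝ (fderiv ℝ f) y (c + N y) (B v) - fderiv ℝ (fderiv ℝ f) y (c + N y) v) +
        (e⁻¹ • (fderiv ℝ f y (B v) - fderiv ℝ f y v) - fderiv ℝ f y (N v)))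
  rw [hsym]
  simp only [smul_sub]
  abel

lemma indn (n : ℕ) : ∀ (F : Type) [NormedAddCommGroup F] [NormedSpace ℝ F] (f : 𝓢(E, F)) (k : ℕ)
    (ε : ℝ), 0 < ε → ∀ᶠ e in 𝓝[≠] (0 : ℝ), ∀ x, ‖x‖ ^ k * ‖iteratedFDeriv ℝ n
      (fun x => e⁻¹ • (f (a e + M e x) - f x) - fderiv ℝ f x (c + N x)) x‖ ≤ ε := by
  induction n with
  | zero =>
    intro F _ _ f k ε hε
    refine (base0 hM hM0 ha ha0 f k ε hε).mono fun e he x => ?_
    rw [norm_iteratedFDeriv_zero]
    exact he x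
  | succ n ih =>
    intro F _ _ f k ε hε
    set f' := fderivCLM ℝ E F f with hf'
    set idl : (E →L[ℝ] F) →L[ℝ] (E →L[ℝ] F) := ContinuousLinearMap.id ℝ _ with hidl
    have hMs : Tendsto (fun e : ℝ => e⁻¹ • (M e - ContinuousLinearMap.id ℝ E)) (𝓝[≠] 0) (𝓝 N) := by
      refine (hasDerivAt_iff_tendsto_slope.1 hM).congr fun e => ?_
      rw [slope_def_module, sub_zero, hM0]
    have hMc : Tendsto M (𝓝[≠] 0) (𝓝 (ContinuousLinearMap.id ℝ E)) := by
      have := hM.continuousAt.tendsto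
      rw [hM0] at this
      exact this.mono_left nhdsWithin_le_nhds
    set K := ‖ContinuousLinearMap.id ℝ E‖ + 1 with hK
    have hK0 : 0 < K := by positivity
    have v1 : ∀ᶠ e in 𝓝[≠] (0 : ℝ), ‖rc F (M e)‖ < K := by
      have h : ∀ᶠ e in 𝓝[≠] (0 : ℝ), ‖M e‖ < K := hMc.norm.eventually_lt_const (by linarith)
      exact h.mono fun e he => (norm_rc F _).trans_lt he
    have v2 : ∀ᶠ e in 𝓝[≠] (0 : ℝ), ‖rc F (M e) - idl‖ *
        SchwartzMap.seminorm ℝ k n (xf N c f') < ε / 3 := by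
      have h := ((hMc.sub_const (ContinuousLinearMap.id ℝ E)).norm).mul_const
        (SchwartzMap.seminorm ℝ k n (xf N c f'))
      rw [sub_self, norm_zero, zero_mul] at h
      refine (h.eventually_lt_const (by positivity : (0 : ℝ) < ε / 3)).mono fun e he => ?_
      refine lt_of_le_of_lt ?_ he
      have h8 : rc F (M e) - idl = rc F (M e - ContinuousLinearMap.id ℝ E) := by
        apply ContinuousLinearMap.ext
        intro A
        apply ContinuousLinearMap.ext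
        intro v
        show A (M e v) - A v = A (M e v - v)
        rw [ContinuousLinearMap.map_sub]
      rw [h8]
      gcongr
      exact norm_rc F (M e - ContinuousLinearMap.id ℝ E)
    have v3 : ∀ᶠ e in 𝓝[≠] (0 : ℝ), ‖e⁻¹ • (rc F (M e) - idl) - rc F N‖ *
        SchwartzMap.seminorm ℝ k n f' < ε / 3 := by
      have h := ((hMs.sub_const N).norm).mul_const (SchwartzMap.seminorm ℝ k n f')
      rw [sub_self, norm_zero, zero_mul] at h
      refine (h.eventually_lt_const (by positivity : (0 : ℝ) < ε / 3)).mono fun e he => ?_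
      refine lt_of_le_of_lt ?_ he
      have h8 : e⁻¹ • (rc F (M e) - idl) - rc F N =
          rc F (e⁻¹ • (M e - ContinuousLinearMap.id ℝ E) - N) := by
        apply ContinuousLinearMap.ext
        intro A
        apply ContinuousLinearMap.ext
        intro v
        show e⁻¹ • (A (M e v) - A v) - A (N v) = A (e⁻¹ • (M e v - v) - N v)
        rw [ContinuousLinearMap.map_sub, ContinuousLinearMap.map_smul,
          ContinuousLinearMap.map_sub]
      rw [h8]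
      gcongr
      exact norm_rc F (e⁻¹ • (M e - ContinuousLinearMap.id ℝ E) - N)
    filter_upwards [v1, v2, v3, ih (E →L[ℝ] F) f' k (ε / (3 * K)) (by positivity)] with
      e w1 w2 w3 w4 x
    set G' : E → (E →L[ℝ] F) := fun x => e⁻¹ • (f' (a e + M e x) - f' x) -
      fderiv ℝ f' x (c + N x) with hG'
    have hder : fderiv ℝ (fun x => e⁻¹ • (f (a e + M e x) - f x) - fderiv ℝ f x (c + N x)) =
        (rc F (M e) ∘ G') + ((rc F (M e) - idl) ∘ (xf N c f') +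
          (e⁻¹ • (rc F (M e) - idl) - rc F N) ∘ f') := hder_aux F f e (a e) (M e)
    rw [← norm_iteratedFDeriv_fderiv, hder]
    have d1 : ContDiff ℝ n G' := by
      have q1 : ContDiff ℝ n fun x => f' (a e + M e x) :=
        (f'.smooth n).comp (contDiff_const.add (M e).contDiff)
      have q2 : ContDiff ℝ n fun x => fderiv ℝ f' x (c + N x) := (xf N c f').smooth n
      exact ((q1.sub (f'.smooth n)).const_smul e⁻¹).sub q2
    have d2 : ContDiff ℝ n (xf N c f') := (xf N c f').smooth n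
    have d3 : ContDiff ℝ n f' := f'.smooth n
    have c1 : ContDiffAt ℝ n (rc F (M e) ∘ G') x :=
      ((rc F (M e)).contDiff.comp d1).contDiffAt
    have c2 : ContDiffAt ℝ n ((rc F (M e) - idl) ∘ (xf N c f')) x :=
      ((rc F (M e) - idl).contDiff.comp d2).contDiffAt
    have c3 : ContDiffAt ℝ n ((e⁻¹ • (rc F (M e) - idl) - rc F N) ∘ f') x :=
      ((e⁻¹ • (rc F (M e) - idl) - rc F N).contDiff.comp d3).contDiffAt
    have c23 : ContDiffAt ℝ n (((rc F (M e) - idl) ∘ (xf N c f')) +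
        ((e⁻¹ • (rc F (M e) - idl) - rc F N) ∘ f')) x := c2.add c3
    rw [iteratedFDeriv_add_apply c1 c23, iteratedFDeriv_add_apply c2 c3]
    have n1 := (rc F (M e)).norm_iteratedFDeriv_comp_left (n := n) d1.contDiffAt (x := x) le_rfl
    have n2 := (rc F (M e) - idl).norm_iteratedFDeriv_comp_left (n := n) d2.contDiffAt (x := x) le_rfl
    have n3 := (e⁻¹ • (rc F (M e) - idl) - rc F N).norm_iteratedFDeriv_comp_left (n := n)
      d3.contDiffAt (x := x) le_rfl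
    have m1 := w4 x
    have m2 := SchwartzMap.le_seminorm ℝ k n (xf N c f') x
    have m3 := SchwartzMap.le_seminorm ℝ k n f' x
    calc ‖x‖ ^ k * ‖iteratedFDeriv ℝ n (rc F (M e) ∘ G') x +
          (iteratedFDeriv ℝ n ((rc F (M e) - idl) ∘ (xf N c f')) x +
          iteratedFDeriv ℝ n ((e⁻¹ • (rc F (M e) - idl) - rc F N) ∘ f') x)‖
        ≤ ‖x‖ ^ k * (‖rc F (M e)‖ * ‖iteratedFDeriv ℝ n G' x‖ +
          (‖rc F (M e) - idl‖ * ‖iteratedFDeriv ℝ n (xf N c f') x‖ +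
          ‖e⁻¹ • (rc F (M e) - idl) - rc F N‖ * ‖iteratedFDeriv ℝ n f' x‖)) := by
          gcongr
          refine (norm_add_le _ _).trans (add_le_add n1 ?_)
          exact (norm_add_le _ _).trans (add_le_add n2 n3)
      _ = ‖rc F (M e)‖ * (‖x‖ ^ k * ‖iteratedFDeriv ℝ n G' x‖) +
          (‖rc F (M e) - idl‖ * (‖x‖ ^ k * ‖iteratedFDeriv ℝ n (xf N c f') x‖) +
          ‖e⁻¹ • (rc F (M e) - idl) - rc F N‖ * (‖x‖ ^ k * ‖iteratedFDeriv ℝ n f' x‖)) := by ring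
      _ ≤ K * (ε / (3 * K)) + (‖rc F (M e) - idl‖ * SchwartzMap.seminorm ℝ k n (xf N c f') +
          ‖e⁻¹ • (rc F (M e) - idl) - rc F N‖ * SchwartzMap.seminorm ℝ k n f') := by
          gcongr
      _ ≤ ε := by
          have : K * (ε / (3 * K)) = ε / 3 := by field_simp
          rw [this]
          linarith

end

end Vale.Agent.P352.H746

end
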