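import Vale.Agent.P352.H746.V6
import Vale.Agent.P352.H746.Nec3
import Vale.Agent.P352.H496.V4b

/-!
# The on-shell two dilaton amplitude and conformal invariance
-/

set_option linter.all false

noncomputable section

open MeasureTheory Filter Topology SchwartzMap
open scoped SchwartzMap ComplexConjugate ContDiff

namespace Vale.Agent.P352.H746

open GF (Ix V Fn Fld Theory Sch IsLor bas eta o sim pd tr improve ev bar Sep)
open H246 H496 H755 H15 H846
open H121 (Cop TrNull)
open UniformSpace (Completion)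

variable {D : Type*} [NormedAddCommGroup D] [InnerProductSpace ℂ D]
variable {Q : GF.Theory D} {T : Ix → Ix → GF.Fld D} {J : Ix → GF.Fld D}
  {A : (V → V) → D → D} {K G : V → D → D} {H : D → D} {alg : Set V → Set (D → D)}
  {S : V → ℝ → D → D} {l : Fn → Completion D}

/-- **Invariance under the null deformations is equivalent to conformal invariance**, if the charges
of the stress tensor on null hyperplanes exist. -/
theorem inv_iff_conf (hT : Q.IsStress T) (hJ : IsVirial Q T J) (N : CNet Q H alg S)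
    (Gg : Gnr Q alg S G) (h : NullCharges Q T J A K) (hl : IsPot Q T l) :
    Inv S l ↔ ∃ L : Fld D, ∀ Q₁ : Theory D, IsEnl Q Q₁ → ∃ Q₂ : Theory D, IsEnl Q₁ Q₂ ∧
      Q₂.IsScalar L 2 ∧ Q₂.IsStress (improve T L) ∧ IsImpr Q₂ T (improve T L) ∧
      ConfAct Q₂ (improve T L) := by
  refine ⟨fun hi => (tr_iff hT hJ h).1 (tr_of_inv' hT hJ N h hl hi), ?_⟩
  rintro ⟨L, hL⟩
  obtain ⟨Q₂, h1, h2, h3, h4, h5⟩ := hL Q ⟨rfl, rfl, fun _ h => h, fun _ h => h⟩
  exact inv_of_L hT N Gg h1 h2 h4.traceless hl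

/-- a form valued local trace identity implies conformal invariance -/
theorem form_iff_conf (hT : Q.IsStress T) (hJ : IsVirial Q T J) (h : NullCharges Q T J A K)
    (hl : IsPot Q T l) : (∃ Λ, IsForm Q T l Λ) → ∃ L : Fld D, ∀ Q₁ : Theory D, IsEnl Q Q₁ →
      ∃ Q₂ : Theory D, IsEnl Q₁ Q₂ ∧ Q₂.IsScalar L 2 ∧ Q₂.IsStress (improve T L) ∧
      IsImpr Q₂ T (improve T L) ∧ ConfAct Q₂ (improve T L) := by
  rintro ⟨Λ, hF⟩
  exact (tr_iff hT hJ h).1 (tr_of_form hT hJ h hl hF)

/-- the null generators are the special conformal generators -/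
theorem conf_iff_inv_tgen (hT : Q.IsStress T) (hJ : IsVirial Q T J) (N : CNet Q H alg S)
    (Gg : Gnr Q alg S G) (h : NullCharges Q T J A K) (hg : TGen Q) (hl : IsPot Q T l) :
    ConfGen Q A K ↔ Inv S l := by
  have e := main_v6 (A := A) (K := K) hT hJ
  have e1 := (e.1 h).2.2.2 hg
  rw [e1]
  exact (e.1 h).1.trans (inv_iff_conf hT hJ N Gg h hl).symm

end Vale.Agent.P352.H746

end
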