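import Vale.Agent.P352.H15.V8
import Vale.Agent.P352.H731.LinT
import Vale.Agent.P352.G.AddT

/-!
# P352: the on-shell dilaton constraint and conformal invariance, additivity of the second moments
-/

set_option linter.all false

noncomputable section

open MeasureTheory Filter Topology SchwartzMap
open scoped SchwartzMap ComplexConjugate ContDiff

namespace Vale.Agent.P352.H746

open GF (Ix V Fn Fld Theory Sch IsLor bas eta o sim pd tr improve ev bar Sep)
open H246 H496 H755 H846 H15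
open H121 (TrNull)

variable {D : Type*} [NormedAddCommGroup D] [InnerProductSpace ℂ D]
variable {Q : GF.Theory D} {T : Ix → Ix → GF.Fld D} {J : Ix → GF.Fld D}
  {A : (V → V) → D → D} {K : V → D → D}

/-- **The on-shell dilaton constraint and conformal invariance.** -/
theorem main_v9 (hT : Q.IsStress T) (hJ : IsVirial Q T J) :
    (NullCharges Q T J A K →
      (TrVac Q T ↔ TrNull T) ∧
      (TrNull T ↔ ∃ L : Fld D, ∀ Q₁ : Theory D, IsEnl Q Q₁ → ∃ Q₂ : Theory D, IsEnl Q₁ Q₂ ∧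
        Q₂.IsScalar L 2 ∧ Q₂.IsStress (improve T L) ∧ IsImpr Q₂ T (improve T L) ∧
        ConfAct Q₂ (improve T L)) ∧
      (∀ (Q' : Theory D) (L : Fld D), IsEnl Q Q' → Q'.IsScalar L 2 →
        (∀ f v, GF.IsTest f → tr (improve T L) f v = 0) → TrNull T) ∧
      (H731.AddT Q T K → TrNull T) ∧ (NoFlux T J → TrNull T → AddK K) ∧
      (ConfGen Q A K ↔ OnShell Q T J) ∧ (TGen Q → (ConfGen Q A K ↔ TrNull T))) ∧
    (ConfGen Q A K → Mom Q T K ∨ Act Q J K →
      ∃ L : Fld D, ∀ Q₁ : Theory D, IsEnl Q Q₁ → ∃ Q₂ : Theory D, IsEnl Q₁ Q₂ ∧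
        Q₂.IsScalar L 2 ∧ Q₂.IsStress (improve T L) ∧ IsImpr Q₂ T (improve T L) ∧
        ConfAct Q₂ (improve T L) ∧
        (NullCharges Q T J A K → NoFlux T J →
          (∀ r X, IsSim r X → Chg Q₂ (improve T L) X (A X)) ∧
          ∀ a, IsNull a → Chg Q₂ (improve T L) (cK a) (K a))) ∧
    ∀ (Q₁ Q₂ : Theory D) (L L' : Fld D), IsEnl Q Q₁ → Q₁.IsScalar L 2 →
      (∀ f v, GF.IsTest f → tr (improve T L) f v = 0) → IsEnl Q Q₂ → Q₂.IsScalar L' 2 →
      (∀ f v, GF.IsTest f → tr (improve T L') f v = 0) →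
      ∀ f v, GF.IsTest f → L f v = L' f v := by
  obtain ⟨h1, h2, h3⟩ := H148.main_v7b (A := A) (K := K) hT hJ
  refine ⟨fun h => ?_, h2, h3⟩
  obtain ⟨k1, k2, k3, k4⟩ := h1 h
  exact ⟨k1, k2, k3, fun hK => H731.trNull_of_addT hT hJ h hK,
    fun hF ht => H846.GC.addK_of_tr hT hJ h ht hF, k4⟩

end Vale.Agent.P352.H746

end
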